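import Crest.Agent.BoxFlow.RatTri

/-!
# M1b (S0170): `Computable` arithmetic directly on `ℚ` (for the `Denumerable ℚ` coding).
-/

set_option autoImplicit false

namespace Crest.Agent.BoxFlow

section lift
variable {α : Type*} [Primcodable α]

/-- Lift a computable unary operation on triples to `ℚ`. -/
theorem computable_rat_lift₁ {F : Tri → Tri} (hF : Computable F) {G : ℚ → ℚ}
    (h : ∀ x : Tri, (F x).val = G x.val) {f : α → ℚ} (hf : Computable f) :
    Computable (fun a => G (f a)) :=
  (computable_triVal.comp (hF.comp (computable_ratToTri.comp hf))).of_eq fun a => by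
    simp [h]

/-- Lift a computable binary operation on triples to `ℚ`. -/
theorem computable_rat_lift₂ {F : Tri → Tri → Tri} (hF : Computable₂ F) {G : ℚ → ℚ → ℚ}
    (h : ∀ x y : Tri, (F x y).val = G x.val y.val) {f g : α → ℚ} (hf : Computable f)
    (hg : Computable g) : Computable (fun a => G (f a) (g a)) :=
  (computable_triVal.comp
    (hF.comp (computable_ratToTri.comp hf) (computable_ratToTri.comp hg))).of_eq fun a => by
    simp [h]

variable {f g : α → ℚ}

theorem Computable.rat_add (hf : Computable f) (hg : Computable g) :
    Computable (fun a => f a + g a) :=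
  computable_rat_lift₂ Tri.primrec_add.to_comp Tri.val_add hf hg

theorem Computable.rat_sub (hf : Computable f) (hg : Computable g) :
    Computable (fun a => f a - g a) :=
  computable_rat_lift₂ Tri.primrec_sub.to_comp Tri.val_sub hf hg

theorem Computable.rat_mul (hf : Computable f) (hg : Computable g) :
    Computable (fun a => f a * g a) :=
  computable_rat_lift₂ Tri.primrec_mul.to_comp Tri.val_mul hf hg

theorem Computable.rat_div (hf : Computable f) (hg : Computable g) :
    Computable (fun a => f a / g a) :=
  computable_rat_lift₂ Tri.primrec_div.to_comp Tri.val_div hf hg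

theorem Computable.rat_max (hf : Computable f) (hg : Computable g) :
    Computable (fun a => max (f a) (g a)) :=
  computable_rat_lift₂ Tri.primrec_max.to_comp Tri.val_max hf hg

theorem Computable.rat_min (hf : Computable f) (hg : Computable g) :
    Computable (fun a => min (f a) (g a)) :=
  computable_rat_lift₂ Tri.primrec_min.to_comp Tri.val_min hf hg

theorem Computable.rat_neg (hf : Computable f) : Computable (fun a => - f a) :=
  computable_rat_lift₁ Tri.primrec_neg.to_comp Tri.val_neg hf

theorem Computable.rat_inv (hf : Computable f) : Computable (fun a => (f a)⁻¹) :=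
  computable_rat_lift₁ Tri.primrec_inv.to_comp Tri.val_inv hf

theorem Computable.rat_abs (hf : Computable f) : Computable (fun a => |f a|) :=
  computable_rat_lift₁ Tri.primrec_abs.to_comp Tri.val_abs hf

theorem Computable.rat_natCast {n : α → ℕ} (hn : Computable n) :
    Computable (fun a => ((n a : ℕ) : ℚ)) :=
  (computable_triVal.comp (Tri.primrec_ofNat.to_comp.comp hn)).of_eq fun a => by simp

theorem Computable.rat_pow {n : α → ℕ} (hf : Computable f) (hn : Computable n) :
    Computable (fun a => f a ^ n a) :=
  (computable_triVal.comp
    (Tri.primrec_pow.to_comp.comp (computable_ratToTri.comp hf) hn)).of_eq fun a => by simp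

theorem Computable.rat_le (hf : Computable f) (hg : Computable g) :
    Computable (fun a => decide (f a ≤ g a)) :=
  (Tri.primrec_le.to_comp.comp (computable_ratToTri.comp hf)
    (computable_ratToTri.comp hg)).of_eq fun a => by
      rw [Bool.eq_iff_iff, Tri.le_iff]; simp

theorem Computable.rat_lt (hf : Computable f) (hg : Computable g) :
    Computable (fun a => decide (f a < g a)) :=
  (Tri.primrec_lt.to_comp.comp (computable_ratToTri.comp hf)
    (computable_ratToTri.comp hg)).of_eq fun a => by
      rw [Bool.eq_iff_iff, Tri.lt_iff]; simp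

theorem Computable.rat_floorNat (hf : Computable f) : Computable (fun a => ⌊f a⌋₊) :=
  (Tri.primrec_floorNat.to_comp.comp (computable_ratToTri.comp hf)).of_eq fun a => by
    rw [Tri.floorNat_eq]; simp

theorem Computable.rat_ceilNat (hf : Computable f) : Computable (fun a => ⌈f a⌉₊) := by
  have h : Computable (fun a => if (⌊f a⌋₊ : ℚ) < f a then ⌊f a⌋₊ + 1 else ⌊f a⌋₊) := by
    have hfl := Computable.rat_floorNat hf
    have hc := Computable.rat_lt (Computable.rat_natCast hfl) hf
    refine (Computable.cond hc (Computable.succ.comp hfl) hfl).of_eq fun a => ?_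
    by_cases hlt : (⌊f a⌋₊ : ℚ) < f a <;> simp [hlt]
  refine h.of_eq fun a => ?_
  split_ifs with hlt
  · symm
    rw [Nat.ceil_eq_iff (by omega)]
    refine ⟨by simpa using hlt, ?_⟩
    push_cast
    exact (Nat.lt_floor_add_one _).le
  · symm
    rcases Nat.eq_zero_or_pos ⌊f a⌋₊ with h0 | h0
    · rw [h0] at hlt ⊢
      simpa using hlt
    · rw [Nat.ceil_eq_iff h0.ne']
      refine ⟨?_, not_lt.1 hlt⟩
      have h1 : ((⌊f a⌋₊ : ℕ) : ℚ) ≤ f a := Nat.floor_le (by
        by_contra hneg
        rw [Nat.floor_of_nonpos (not_le.1 hneg).le] at h0
        exact absurd h0 (lt_irrefl _))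
      have h2 : ((⌊f a⌋₊ - 1 : ℕ) : ℚ) < (⌊f a⌋₊ : ℚ) := by
        have : ⌊f a⌋₊ - 1 < ⌊f a⌋₊ := by omega
        exact_mod_cast this
      linarith

/-- if-then-else on a computable Boolean -/
theorem Computable.ite' {σ : Type*} [Primcodable σ] {c : α → Prop} [DecidablePred c]
    {u v : α → σ} (hc : Computable (fun a => decide (c a))) (hu : Computable u)
    (hv : Computable v) : Computable (fun a => if c a then u a else v a) :=
  (Computable.cond hc hu hv).of_eq fun a => by by_cases h : c a <;> simp [h]

/-- finite sums `∑ i ∈ range (n a), F a i` of a computable family are computable -/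
theorem Computable.rat_sum_range {F : α → ℕ → ℚ} {n : α → ℕ} (hF : Computable₂ F)
    (hn : Computable n) : Computable (fun a => ∑ i ∈ Finset.range (n a), F a i) := by
  have h := Computable.nat_rec (f := n) (g := fun _ => (0 : ℚ))
    (h := fun a (p : ℕ × ℚ) => p.2 + F a p.1) hn (Computable.const 0)
    (Computable.rat_add (Computable.snd.comp Computable.snd)
      (hF.comp Computable.fst (Computable.fst.comp Computable.snd)))
  refine h.of_eq fun a => ?_
  induction n a with
  | zero => simp
  | succ k ih => rw [Finset.sum_range_succ, ← ih]

/-- finite products -/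
theorem Computable.rat_prod_range {F : α → ℕ → ℚ} {n : α → ℕ} (hF : Computable₂ F)
    (hn : Computable n) : Computable (fun a => ∏ i ∈ Finset.range (n a), F a i) := by
  have h := Computable.nat_rec (f := n) (g := fun _ => (1 : ℚ))
    (h := fun a (p : ℕ × ℚ) => p.2 * F a p.1) hn (Computable.const 1)
    (Computable.rat_mul (Computable.snd.comp Computable.snd)
      (hF.comp Computable.fst (Computable.fst.comp Computable.snd)))
  refine h.of_eq fun a => ?_
  induction n a with
  | zero => simp
  | succ k ih => rw [Finset.prod_range_succ, ← ih]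

end lift

end Crest.Agent.BoxFlow
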