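/-
BoxFlow / T1 : the ONLY two lemmas that have to look at Mathlib's encoding of ℚ
(`Primcodable ℚ` comes from `Denumerable ℚ = Denumerable.ofEncodableOfInfinite ℚ`).
The work is done in `RatTri.lean` (triples `(a, b, d) ~ (a - b)/(d + 1)`).
-/
import Crest.Agent.BoxFlow.RatComp

set_option autoImplicit false

namespace Crest.Agent.BoxFlow

/-- numerator (positive part, negative part) and denominator are computable. -/
theorem computable_rat_parts :
    Computable (fun q : ℚ => (q.num.toNat, (-q.num).toNat, q.den)) := by
  have h : Computable (fun q : ℚ => ((ratToTri q).1, (ratToTri q).2.1, (ratToTri q).2.2 + 1)) :=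
    Computable.pair (Computable.fst.comp computable_ratToTri)
      (Computable.pair (Computable.fst.comp (Computable.snd.comp computable_ratToTri))
        (Computable.succ.comp (Computable.snd.comp (Computable.snd.comp computable_ratToTri))))
  refine h.of_eq fun q => ?_
  have := q.den_pos
  simp only [ratToTri, Prod.mk.injEq, true_and]
  omega

/-- `(a, b, d) ↦ (a - b) / d` is computable. -/
theorem computable_rat_mk :
    Computable (fun x : ℕ × ℕ × ℕ => ((x.1 : ℚ) - (x.2.1 : ℚ)) / (x.2.2 : ℚ)) :=
  Computable.rat_div
    (Computable.rat_sub (Computable.rat_natCast Computable.fst)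
      (Computable.rat_natCast (Computable.fst.comp Computable.snd)))
    (Computable.rat_natCast (Computable.snd.comp Computable.snd))

end Crest.Agent.BoxFlow
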