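/-
BoxFlow / T2 : computability of the field operations of ℚ, derived from `RatTri.lean` /
`RatComp.lean`.  Plus a few combinators and the Thue–Morse sign.
-/
import Crest.Agent.BoxFlow.RatCore

set_option autoImplicit false

namespace Crest.Agent.BoxFlow

theorem computable_rat_natCast : Computable (fun n : ℕ => (n : ℚ)) :=
  Computable.rat_natCast Computable.id

theorem computable_rat_add : Computable₂ (fun a b : ℚ => a + b) :=
  Computable.rat_add Computable.fst Computable.snd

theorem computable_rat_neg : Computable (fun a : ℚ => -a) :=
  Computable.rat_neg Computable.id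

theorem computable_rat_sub : Computable₂ (fun a b : ℚ => a - b) :=
  Computable.rat_sub Computable.fst Computable.snd

theorem computable_rat_mul : Computable₂ (fun a b : ℚ => a * b) :=
  Computable.rat_mul Computable.fst Computable.snd

theorem computable_rat_inv : Computable (fun a : ℚ => a⁻¹) :=
  Computable.rat_inv Computable.id

theorem computable_rat_div : Computable₂ (fun a b : ℚ => a / b) :=
  Computable.rat_div Computable.fst Computable.snd

theorem computable_rat_pow : Computable₂ (fun (a : ℚ) (k : ℕ) => a ^ k) :=
  Computable.rat_pow Computable.fst Computable.snd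

theorem computable_rat_le : Computable₂ (fun a b : ℚ => decide (a ≤ b)) :=
  Computable.rat_le Computable.fst Computable.snd

theorem computable_rat_lt : Computable₂ (fun a b : ℚ => decide (a < b)) :=
  Computable.rat_lt Computable.fst Computable.snd

theorem computable_rat_max : Computable₂ (fun a b : ℚ => max a b) :=
  Computable.rat_max Computable.fst Computable.snd

theorem computable_rat_min : Computable₂ (fun a b : ℚ => min a b) :=
  Computable.rat_min Computable.fst Computable.snd

theorem computable_rat_abs : Computable (fun a : ℚ => |a|) :=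
  Computable.rat_abs Computable.id

/-- a computable natural upper bound for `|q|` (see `rat_abs_le_natAbs`). -/
theorem computable_rat_natAbs : Computable (fun q : ℚ => q.num.natAbs) := by
  have h : Computable (fun q : ℚ => (ratToTri q).1 + (ratToTri q).2.1) :=
    Primrec.nat_add.to_comp.comp (Computable.fst.comp computable_ratToTri)
      (Computable.fst.comp (Computable.snd.comp computable_ratToTri))
  refine h.of_eq fun q => ?_
  simp only [ratToTri]
  omega

theorem rat_abs_le_natAbs (q : ℚ) : |q| ≤ (q.num.natAbs : ℚ) := by
  have h1 : |q| = (q.num.natAbs : ℚ) / (q.den : ℚ) := by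
    conv_lhs => rw [← Rat.num_div_den q]
    rw [abs_div, Nat.abs_cast, Nat.cast_natAbs, Int.cast_abs]
  rw [h1]
  apply div_le_self (by positivity)
  exact_mod_cast q.den_pos

section combinators
variable {α σ : Type*} [Primcodable α] [Primcodable σ]

/-- `if a ≤ b then f else g`. -/
theorem computable_ite_rat_le {a b : α → ℚ} {f g : α → σ} (ha : Computable a) (hb : Computable b)
    (hf : Computable f) (hg : Computable g) :
    Computable (fun x => if a x ≤ b x then f x else g x) :=
  Computable.ite' (Computable.rat_le ha hb) hf hg

/-- finite sums over `Finset.range`. -/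
theorem computable_rat_sum_range {f : α → ℕ} {g : α → ℕ → ℚ} (hf : Computable f)
    (hg : Computable₂ g) : Computable (fun x => ∑ i ∈ Finset.range (f x), g x i) :=
  Computable.rat_sum_range hg hf

/-- finite products over `Finset.range`. -/
theorem computable_rat_prod_range {f : α → ℕ} {g : α → ℕ → ℚ} (hf : Computable f)
    (hg : Computable₂ g) : Computable (fun x => ∏ i ∈ Finset.range (f x), g x i) :=
  Computable.rat_prod_range hg hf

/-- building a vector in `Fin 3 → ℚ` from its components. -/
theorem computable_fin3_mk {f : Fin 3 → α → ℚ} (hf : ∀ j, Computable (f j)) :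
    Computable (fun x => (fun j => f j x : Fin 3 → ℚ)) :=
  computable_fin_lambda hf

/-- component of a vector. -/
theorem computable_fin3_app (j : Fin 3) : Computable (fun v : Fin 3 → ℚ => v j) :=
  computable_fin_apply Computable.id j

end combinators

/-! ### natural number helpers (all are `Primrec`, stated as `Computable`) -/

theorem computable_nat_add : Computable₂ (fun a b : ℕ => a + b) := Primrec.nat_add.to_comp
theorem computable_nat_mul : Computable₂ (fun a b : ℕ => a * b) := Primrec.nat_mul.to_comp

theorem computable_nat_pow : Computable₂ (fun a b : ℕ => a ^ b) := primrec_nat_pow.to_comp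

theorem computable_nat_factorial : Computable (fun a : ℕ => a.factorial) :=
  primrec_factorial.to_comp

/-! ### Thue–Morse sign -/

/-- Thue–Morse sign `(-1)^(number of binary ones of J)`. -/
def tm (J : ℕ) : ℚ := (-1) ^ (Nat.digits 2 J).sum

theorem tm_zero : tm 0 = 1 := by
  simp [tm]

theorem tm_two_mul (J : ℕ) : tm (2 * J) = tm J := by
  rcases Nat.eq_zero_or_pos J with rfl | hJ
  · simp
  · unfold tm
    have : Nat.digits 2 (2 * J) = 0 :: Nat.digits 2 J := by
      have := Nat.digits_add_two_add_one 0 (2 * J - 1)
      rw [Nat.digits_def' (by norm_num) (by omega)]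
      simp
    rw [this]; simp

theorem tm_two_mul_add_one (J : ℕ) : tm (2 * J + 1) = - tm J := by
  unfold tm
  have : Nat.digits 2 (2 * J + 1) = 1 :: Nat.digits 2 J := by
    rw [Nat.digits_def' (by norm_num) (by omega)]
    congr 1
    · omega
    · congr 1; omega
  rw [this]; simp [pow_add]

theorem tm_add_two_pow {J k : ℕ} (h : J < 2 ^ k) : tm (J + 2 ^ k) = - tm J := by
  induction k generalizing J with
  | zero =>
    have : J = 0 := by simpa using h
    subst this
    have := tm_two_mul_add_one 0
    simpa using this
  | succ k ih =>
    rcases Nat.even_or_odd' J with ⟨m, rfl | rfl⟩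
    · have hm : m < 2 ^ k := by rw [pow_succ] at h; omega
      have : 2 * m + 2 ^ (k + 1) = 2 * (m + 2 ^ k) := by rw [pow_succ]; ring
      rw [this, tm_two_mul, tm_two_mul, ih hm]
    · have hm : m < 2 ^ k := by rw [pow_succ] at h; omega
      have : 2 * m + 1 + 2 ^ (k + 1) = 2 * (m + 2 ^ k) + 1 := by rw [pow_succ]; ring
      rw [this, tm_two_mul_add_one, tm_two_mul_add_one, ih hm]

theorem abs_tm (J : ℕ) : |tm J| = 1 := by
  simp [tm, abs_pow]

/-- parity of the binary digit sum, by strong recursion through `Nat.binaryRec`-free iteration:
`par J = ` number of ones of `J` mod 2, computed as a fold over `J` halvings. -/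
private def parStep (p : ℕ × ℕ) : ℕ × ℕ := (p.1 / 2, (p.2 + p.1 % 2) % 2)

private theorem primrec_parStep : Primrec parStep :=
  Primrec.pair (Primrec.nat_div.comp Primrec.fst (Primrec.const 2))
    (Primrec.nat_mod.comp (Primrec.nat_add.comp Primrec.snd
      (Primrec.nat_mod.comp Primrec.fst (Primrec.const 2))) (Primrec.const 2))

private theorem tm_parStep (n : ℕ) : ∀ p : ℕ × ℕ, p.1 < 2 ^ n →
    (-1 : ℚ) ^ ((parStep^[n] p).2) = (-1) ^ p.2 * tm p.1 := by
  induction n with
  | zero =>
    intro p hp
    have : p.1 = 0 := by simpa using hp
    simp [this, tm_zero]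
  | succ n ih =>
    intro p hp
    rw [Function.iterate_succ_apply, ih (parStep p) (by
      simp only [parStep]; rw [pow_succ] at hp; omega)]
    simp only [parStep]
    have hmod : ∀ a : ℕ, (-1 : ℚ) ^ (a % 2) = (-1) ^ a := by
      intro a
      conv_rhs => rw [← Nat.div_add_mod a 2, pow_add, pow_mul]
      simp
    rw [hmod, pow_add]
    rcases Nat.even_or_odd' p.1 with ⟨m, hm | hm⟩
    · rw [hm, tm_two_mul]
      have h1 : 2 * m % 2 = 0 := by omega
      have h2 : 2 * m / 2 = m := by omega
      rw [h1, h2]; simp
    · rw [hm, tm_two_mul_add_one]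
      have h1 : (2 * m + 1) % 2 = 1 := by omega
      have h2 : (2 * m + 1) / 2 = m := by omega
      rw [h1, h2]; ring

theorem computable_tm : Computable tm := by
  have h1 : Primrec (fun J : ℕ => (parStep^[J] (J, 0)).2) :=
    Primrec.snd.comp (Primrec.nat_iterate Primrec.id
      (Primrec.pair Primrec.id (Primrec.const 0)) (primrec_parStep.comp Primrec.snd).to₂)
  have h2 : Computable (fun J : ℕ => (-1 : ℚ) ^ ((parStep^[J] (J, 0)).2)) :=
    Computable.rat_pow (Computable.const _) h1.to_comp
  refine h2.of_eq fun J => ?_
  rw [tm_parStep J (J, 0) (Nat.lt_two_pow_self)]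
  simp

end Crest.Agent.BoxFlow
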