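/-
BoxFlow / T5 : computable real numbers.
-/
import Crest.Agent.BoxFlow.RatCode

set_option autoImplicit false

namespace Crest.Agent.BoxFlow

/-- `c` is a computable real. -/
def CompReal (c : ℝ) : Prop :=
  ∃ a : ℕ → ℚ, Computable a ∧ ∀ n : ℕ, |c - ((a n : ℚ) : ℝ)| ≤ 1 / ((n : ℝ) + 1)

theorem CompReal.ratCast (q : ℚ) : CompReal (q : ℝ) :=
  ⟨fun _ => q, Computable.const q, fun n => by
    simp only [sub_self, abs_zero]; positivity⟩

theorem CompReal.neg {c : ℝ} (hc : CompReal c) : CompReal (-c) := by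
  obtain ⟨a, ha, h⟩ := hc
  refine ⟨fun n => - a n, Computable.rat_neg ha, fun n => ?_⟩
  have := h n
  rw [abs_sub_comm] at this
  push_cast
  rwa [neg_sub_neg]

theorem CompReal.mul {c d : ℝ} (hc : CompReal c) (hd : CompReal d) : CompReal (c * d) := by
  obtain ⟨a, ha, hca⟩ := hc
  obtain ⟨b, hb, hdb⟩ := hd
  obtain ⟨K, hK⟩ := exists_nat_ge (|c| + |d| + 1)
  have hidx : Computable (fun n : ℕ => K * (n + 1)) :=
    Primrec.to_comp (Primrec.nat_mul.comp (Primrec.const K) Primrec.succ)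
  refine ⟨fun n => a (K * (n + 1)) * b (K * (n + 1)),
    Computable.rat_mul (ha.comp hidx) (hb.comp hidx), fun n => ?_⟩
  set N := K * (n + 1) with hN
  have h1 := hca N
  have h2 := hdb N
  have hKpos : (0 : ℝ) < K := by
    have : (0 : ℝ) < |c| + |d| + 1 := by positivity
    linarith
  have hn : (0 : ℝ) < (n : ℝ) + 1 := by positivity
  have hNle : 1 / ((N : ℝ) + 1) ≤ 1 / ((K : ℝ) * ((n : ℝ) + 1)) := by
    apply one_div_le_one_div_of_le (by positivity)
    rw [hN]; push_cast; linarith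
  have hle1 : 1 / ((N : ℝ) + 1) ≤ 1 := by
    rw [div_le_one (by positivity)]
    have : (0 : ℝ) ≤ N := Nat.cast_nonneg _
    linarith
  set δ := 1 / ((N : ℝ) + 1) with hδ
  have hb' : |((b N : ℚ) : ℝ)| ≤ |d| + 1 := by
    have : |((b N : ℚ) : ℝ)| ≤ |d| + |d - ((b N : ℚ) : ℝ)| := by
      have := abs_sub_abs_le_abs_sub ((b N : ℚ) : ℝ) d
      rw [abs_sub_comm] at this
      linarith
    linarith
  have key : |c * d - ((a N : ℚ) : ℝ) * ((b N : ℚ) : ℝ)| ≤ (|c| + |d| + 1) * δ := by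
    have e : c * d - ((a N : ℚ) : ℝ) * ((b N : ℚ) : ℝ)
        = c * (d - ((b N : ℚ) : ℝ)) + (c - ((a N : ℚ) : ℝ)) * ((b N : ℚ) : ℝ) := by ring
    rw [e]
    calc _ ≤ |c * (d - ((b N : ℚ) : ℝ))| + |(c - ((a N : ℚ) : ℝ)) * ((b N : ℚ) : ℝ)| :=
          abs_add_le _ _
      _ = |c| * |d - ((b N : ℚ) : ℝ)| + |c - ((a N : ℚ) : ℝ)| * |((b N : ℚ) : ℝ)| := by
          rw [abs_mul, abs_mul]
      _ ≤ |c| * δ + δ * (|d| + 1) := by
          gcongr
      _ = (|c| + |d| + 1) * δ := by ring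
  push_cast
  calc _ ≤ (|c| + |d| + 1) * δ := key
    _ ≤ (K : ℝ) * (1 / ((K : ℝ) * ((n : ℝ) + 1))) := by
        have hδ0 : 0 ≤ δ := by positivity
        gcongr
    _ = 1 / ((n : ℝ) + 1) := by field_simp

private theorem log_succ_div_le {x : ℝ} (hx : 0 < x) :
    Real.log (x + 1) - Real.log x ≤ 1 / x := by
  rw [← Real.log_div (by positivity) hx.ne']
  have := Real.log_le_sub_one_of_pos (show 0 < (x + 1) / x by positivity)
  have e : (x + 1) / x - 1 = 1 / x := by field_simp; ring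
  linarith

private theorem le_log_succ_div {x : ℝ} (hx : 0 < x) :
    1 / (x + 1) ≤ Real.log (x + 1) - Real.log x := by
  have h := Real.log_le_sub_one_of_pos (show 0 < x / (x + 1) by positivity)
  rw [Real.log_div hx.ne' (by positivity)] at h
  have e : x / (x + 1) - 1 = - (1 / (x + 1)) := by field_simp; ring
  linarith

private theorem log_harmonic (A m : ℕ) (hA : 0 < A) :
    |Real.log ((A + m : ℕ) : ℝ) - Real.log (A : ℝ)
      - ∑ i ∈ Finset.range m, 1 / (((A + i + 1 : ℕ) : ℝ))| ≤ 1 / (A : ℝ) := by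
  have hApos : (0 : ℝ) < A := by exact_mod_cast hA
  have htel : Real.log ((A + m : ℕ) : ℝ) - Real.log (A : ℝ)
      = ∑ i ∈ Finset.range m, (Real.log ((A + (i + 1) : ℕ) : ℝ) - Real.log ((A + i : ℕ) : ℝ)) := by
    rw [Finset.sum_range_sub (fun i => Real.log ((A + i : ℕ) : ℝ))]
    simp
  have htel2 : ∑ i ∈ Finset.range m, (1 / ((A + i : ℕ) : ℝ) - 1 / ((A + (i + 1) : ℕ) : ℝ))
      = 1 / (A : ℝ) - 1 / ((A + m : ℕ) : ℝ) := by
    rw [Finset.sum_range_sub' (fun i => 1 / ((A + i : ℕ) : ℝ))]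
    simp
  have hlow : ∑ i ∈ Finset.range m, 1 / (((A + i + 1 : ℕ) : ℝ))
      ≤ Real.log ((A + m : ℕ) : ℝ) - Real.log (A : ℝ) := by
    rw [htel]
    apply Finset.sum_le_sum
    intro i _
    have hx : (0 : ℝ) < ((A + i : ℕ) : ℝ) := by positivity
    have := le_log_succ_div hx
    have e : ((A + (i + 1) : ℕ) : ℝ) = ((A + i : ℕ) : ℝ) + 1 := by push_cast; ring
    have e' : ((A + i + 1 : ℕ) : ℝ) = ((A + i : ℕ) : ℝ) + 1 := by push_cast; ring
    rw [e, e']; exact this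
  have hup : Real.log ((A + m : ℕ) : ℝ) - Real.log (A : ℝ)
      ≤ ∑ i ∈ Finset.range m, 1 / (((A + i : ℕ) : ℝ)) := by
    rw [htel]
    apply Finset.sum_le_sum
    intro i _
    have hx : (0 : ℝ) < ((A + i : ℕ) : ℝ) := by positivity
    have := log_succ_div_le hx
    have e : ((A + (i + 1) : ℕ) : ℝ) = ((A + i : ℕ) : ℝ) + 1 := by push_cast; ring
    rw [e]; exact this
  have hdiff : ∑ i ∈ Finset.range m, 1 / (((A + i : ℕ) : ℝ))
      - ∑ i ∈ Finset.range m, 1 / (((A + i + 1 : ℕ) : ℝ)) ≤ 1 / (A : ℝ) := by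
    rw [← Finset.sum_sub_distrib]
    have : ∑ i ∈ Finset.range m, (1 / ((A + i : ℕ) : ℝ) - 1 / ((A + i + 1 : ℕ) : ℝ))
        = 1 / (A : ℝ) - 1 / ((A + m : ℕ) : ℝ) := htel2
    rw [this]
    have : (0 : ℝ) ≤ 1 / ((A + m : ℕ) : ℝ) := by positivity
    linarith
  rw [abs_le]
  constructor
  · have : (0 : ℝ) ≤ 1 / (A : ℝ) := by positivity
    linarith
  · linarith

private theorem CompReal.log_of_one_le (ρ : ℚ) (hρ : 1 ≤ ρ) : CompReal (Real.log (ρ : ℝ)) := by
  set u := ρ.num.toNat with hu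
  set v := ρ.den with hv
  have hvpos : 0 < v := ρ.den_pos
  have hnum : (0 : ℤ) < ρ.num := Rat.num_pos.2 (by linarith)
  have hρeq : (ρ : ℝ) = (u : ℝ) / (v : ℝ) := by
    have h1 : ((u : ℕ) : ℤ) = ρ.num := Int.toNat_of_nonneg hnum.le
    have h2 : (ρ : ℚ) = (u : ℚ) / (v : ℚ) := by
      have h3 : ((ρ.num : ℤ) : ℚ) = (u : ℚ) := by rw [← h1]; simp
      rw [← h3]
      exact (Rat.num_div_den ρ).symm
    rw [h2]; push_cast; ring
  have hvu : v ≤ u := by
    have hv' : (0 : ℝ) < v := by exact_mod_cast hvpos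
    have : (1 : ℝ) ≤ (u : ℝ) / (v : ℝ) := by rw [← hρeq]; exact_mod_cast hρ
    rw [le_div_iff₀ hv'] at this
    have : (v : ℝ) ≤ u := by linarith
    exact_mod_cast this
  refine ⟨fun n => ∑ i ∈ Finset.range ((u - v) * (n + 1)), 1 / (((v * (n + 1) + i + 1 : ℕ) : ℚ)),
    ?_, fun n => ?_⟩
  · refine computable_rat_sum_range ?_ ?_
    · exact Primrec.to_comp (Primrec.nat_mul.comp (Primrec.const _) Primrec.succ)
    · refine Computable.rat_div (Computable.const 1) (Computable.rat_natCast ?_)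
      refine Primrec.to_comp ?_
      exact Primrec.succ.comp (Primrec.nat_add.comp
        (Primrec.nat_mul.comp (Primrec.const v) (Primrec.succ.comp Primrec.fst)) Primrec.snd)
  · have hA : 0 < v * (n + 1) := by positivity
    have h := log_harmonic (v * (n + 1)) ((u - v) * (n + 1)) hA
    have e1 : v * (n + 1) + (u - v) * (n + 1) = u * (n + 1) := by
      rw [← Nat.add_mul]; congr 1; omega
    rw [e1] at h
    have hupos : 0 < u := lt_of_lt_of_le hvpos hvu
    have e2 : Real.log ((u * (n + 1) : ℕ) : ℝ) - Real.log ((v * (n + 1) : ℕ) : ℝ)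
        = Real.log (ρ : ℝ) := by
      have hu' : (0 : ℝ) < u := by exact_mod_cast hupos
      have hv' : (0 : ℝ) < v := by exact_mod_cast hvpos
      have hn' : (0 : ℝ) < (n : ℝ) + 1 := by positivity
      rw [← Real.log_div (by positivity) (by positivity), hρeq]
      congr 1
      push_cast
      field_simp
    rw [e2] at h
    push_cast at h ⊢
    refine h.trans ?_
    apply one_div_le_one_div_of_le (by positivity)
    have hv' : (1 : ℝ) ≤ v := by exact_mod_cast hvpos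
    have hn' : (0 : ℝ) < (n : ℝ) + 1 := by positivity
    nlinarith

/-- route: for naturals `0 < v ≤ u`, `|log (u/v) - ∑_{v N < i ≤ u N} 1/i| ≤ 1/(v N)`
(telescoping `1/(i+1) ≤ log ((i+1)/i) ≤ 1/i`); `ρ < 1` by `log ρ = - log ρ⁻¹`.
`u, v` are fixed numbers here, no uniformity in `ρ` is needed. -/
theorem CompReal.log (ρ : ℚ) (hρ : 0 < ρ) : CompReal (Real.log (ρ : ℝ)) := by
  rcases le_total 1 ρ with h | h
  · exact CompReal.log_of_one_le ρ h
  · have h1 : 1 ≤ ρ⁻¹ := (one_le_inv₀ hρ).2 h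
    have := (CompReal.log_of_one_le ρ⁻¹ h1).neg
    rw [Rat.cast_inv, Real.log_inv, neg_neg] at this
    exact this

end Crest.Agent.BoxFlow
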