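/-
BoxFlow / T11 : ODE part: global solution curves, flows with prescribed curves, concatenation.
(No computability, no divergence here.)
-/
import Mathlib
import Crest.Prelude.Def_BoxFlow

set_option autoImplicit false
open scoped ContDiff
open Crest.AnalysisR.BoxFlow

namespace Crest.Agent.BoxFlow

open Set Metric Filter Topology
open scoped NNReal

section General

variable {E : Type*} [NormedAddCommGroup E] [NormedSpace ℝ E] [CompleteSpace E]

/-- Global solution curve through `(t0, x0)` for a bounded, uniformly Lipschitz field which vanishes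
for times outside `[a, b]`. -/
theorem exists_global_curve (f : ℝ → E → E) (K L : ℝ≥0) (hlip : ∀ t, LipschitzWith K (f t))
    (hcont : ∀ x, Continuous fun t => f t x) (hbd : ∀ t x, ‖f t x‖ ≤ L) (a b : ℝ) (hab : a ≤ b)
    (hsupp : ∀ t, t ∉ Icc a b → ∀ x, f t x = 0) (t0 : ℝ) (x0 : E) :
    ∃ γ : ℝ → E, γ t0 = x0 ∧ ∀ t, HasDerivAt γ (f t (γ t)) t := by
  set c : ℝ := min a t0 - 1 with hc
  set d : ℝ := max b t0 + 1 with hd
  set tmin : ℝ := c - 1 with htmin
  set tmax : ℝ := d + 1 with htmax
  have hca : c < a := by have := min_le_left a t0; linarith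
  have hct : c < t0 := by have := min_le_right a t0; linarith
  have hbd' : b < d := by have := le_max_left b t0; linarith
  have htd : t0 < d := by have := le_max_right b t0; linarith
  have ht0 : t0 ∈ Icc tmin tmax := ⟨by linarith, by linarith⟩
  set R : ℝ≥0 := L * (Real.toNNReal (max (tmax - t0) (t0 - tmin))) with hR
  have hPL : IsPicardLindelof f (⟨t0, ht0⟩ : Icc tmin tmax) x0 R 0 L K := by
    refine ⟨fun t _ => (hlip t).lipschitzOnWith, fun x _ => (hcont x).continuousOn,
      fun t _ x _ => hbd t x, ?_⟩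
    have hpos : 0 ≤ max (tmax - t0) (t0 - tmin) := le_max_of_le_left (by linarith)
    simp only [hR, NNReal.coe_mul, Real.coe_toNNReal _ hpos, NNReal.coe_zero, sub_zero]
    exact le_rfl
  obtain ⟨α, hα0, hα⟩ := hPL.exists_eq_forall_mem_Icc_hasDerivWithinAt₀
  have hα0' : α t0 = x0 := hα0
  have hαd : ∀ t ∈ Ioo tmin tmax, HasDerivAt α (f t (α t)) t := fun t ht =>
    (hα t (Ioo_subset_Icc_self ht)).hasDerivAt (Icc_mem_nhds ht.1 ht.2)
  -- `α` is constant on `[c, a)` and on `(b, d]`
  have hleft : ∀ s ∈ Ico c a, α s = α c := by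
    intro s hs
    have h1 : ContinuousOn α (Icc c s) := fun x hx =>
      (hαd x ⟨by linarith [hx.1], by linarith [hx.2, hs.2]⟩).continuousAt.continuousWithinAt
    have h2 : ∀ x ∈ Ico c s, HasDerivWithinAt α 0 (Ici x) x := by
      intro x hx
      have h3 := hαd x ⟨by linarith [hx.1], by linarith [hx.2, hs.2]⟩
      rw [hsupp x (fun h => by linarith [h.1, hx.2, hs.2])] at h3
      exact h3.hasDerivWithinAt
    exact constant_of_has_deriv_right_zero h1 h2 s ⟨hs.1, le_rfl⟩
  have hright : ∀ s ∈ Ioc b d, α s = α d := by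
    intro s hs
    have h1 : ContinuousOn α (Icc s d) := fun x hx =>
      (hαd x ⟨by linarith [hx.1, hs.1], by linarith [hx.2]⟩).continuousAt.continuousWithinAt
    have h2 : ∀ x ∈ Ico s d, HasDerivWithinAt α 0 (Ici x) x := by
      intro x hx
      have h3 := hαd x ⟨by linarith [hx.1, hs.1], by linarith [hx.2]⟩
      rw [hsupp x (fun h => by linarith [h.2, hx.1, hs.1])] at h3
      exact h3.hasDerivWithinAt
    exact (constant_of_has_deriv_right_zero h1 h2 d ⟨hs.2, le_rfl⟩).symm
  refine ⟨fun t => α (max c (min t d)), ?_, fun t => ?_⟩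
  · simp only [min_eq_left htd.le, max_eq_right hct.le, hα0']
  · rcases lt_or_ge t a with hta | hta
    · -- locally constant
      have hloc : (fun t => α (max c (min t d))) =ᶠ[𝓝 t] fun _ => α c := by
        filter_upwards [Iio_mem_nhds hta] with s hs
        have hs' : s < a := hs
        have h6 : max c (min s d) < a := max_lt hca (lt_of_le_of_lt (min_le_left _ _) hs')
        exact hleft _ ⟨le_max_left _ _, h6⟩
      rw [hsupp t (fun h => by linarith [h.1])]
      exact (hasDerivAt_const t (α c)).congr_of_eventuallyEq hloc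
    · rcases lt_or_ge b t with htb | htb
      · have hloc : (fun t => α (max c (min t d))) =ᶠ[𝓝 t] fun _ => α d := by
          filter_upwards [Ioi_mem_nhds htb] with s hs
          have hs' : b < s := hs
          have h5 : c < d := by linarith
          have h6 : b < min s d := lt_min hs' hbd'
          have h7 : max c (min s d) ≤ d := max_le h5.le (min_le_right _ _)
          exact hright _ ⟨lt_of_lt_of_le h6 (le_max_right _ _), h7⟩
        rw [hsupp t (fun h => by linarith [h.2])]
        exact (hasDerivAt_const t (α d)).congr_of_eventuallyEq hloc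
      · have htc : c < t := by linarith
        have htd' : t < d := by linarith
        have hloc : (fun t => α (max c (min t d))) =ᶠ[𝓝 t] α := by
          filter_upwards [Ioo_mem_nhds htc htd'] with s hs
          rw [min_eq_left hs.2.le, max_eq_right hs.1.le]
        have h8 : max c (min t d) = t := by rw [min_eq_left htd'.le, max_eq_right htc.le]
        simp only [h8]
        exact (hαd t ⟨by linarith, by linarith⟩).congr_of_eventuallyEq hloc

end General

/-- a curve with zero derivative on an order-connected set of times is constant there. -/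
theorem curve_const_of_hasDerivAt_zero {E : Type*} [NormedAddCommGroup E] [NormedSpace ℝ E]
    {γ : ℝ → E} {s : Set ℝ} (hs : Convex ℝ s) (h : ∀ t ∈ s, HasDerivAt γ 0 t)
    {a b : ℝ} (ha : a ∈ s) (hb : b ∈ s) : γ a = γ b := by
  have := hs.norm_image_sub_le_of_norm_hasDerivWithin_le (f := γ) (f' := fun _ => 0) (C := 0)
    (fun x hx => (h x hx).hasDerivWithinAt) (fun x _ => by simp) hb ha
  rw [zero_mul] at this
  exact sub_eq_zero.1 (norm_le_zero_iff.1 this)

/-- Global solution curve through `x` at time `0`. Route: `U` is bounded and globally Lipschitz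
(`ContDiff.lipschitzWith_of_hasCompactSupport`), so `IsPicardLindelof` holds on `[-T, T]` with a
huge ball, for `T` so large that `U (t, ·) = 0` for `|t| ≥ T - 1`; extend by constants. -/
theorem exists_curve {U : Field} (hU : ContDiff ℝ ∞ U) (hc : HasCompactSupport U)
    (x : Fin 3 → ℝ) :
    ∃ γ : ℝ → (Fin 3 → ℝ), γ 0 = x ∧ ∀ t, HasDerivAt γ (U (t, γ t)) t := by
  obtain ⟨K, hK⟩ := hU.lipschitzWith_of_hasCompactSupport hc (by simp)
  obtain ⟨L, hL⟩ := hc.exists_bound_of_continuous hU.continuous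
  obtain ⟨T, hT⟩ := hc.isCompact.isBounded.exists_norm_le
  have hL0 : 0 ≤ L := (norm_nonneg _).trans (hL (0, 0))
  have hT0 : ∀ t : ℝ, t ∉ Icc (-|T|) |T| → ∀ y, U (t, y) = 0 := by
    intro t ht y
    by_contra hne
    have h1 : (t, y) ∈ tsupport U := subset_tsupport _ hne
    have h2 := hT _ h1
    have h3 : |t| ≤ ‖((t, y) : ℝ × (Fin 3 → ℝ))‖ := by
      rw [Prod.norm_def]; exact le_max_left _ _
    have h4 : |t| ≤ |T| := (h3.trans h2).trans (le_abs_self T)
    exact ht (abs_le.1 h4)
  exact exists_global_curve (fun t y => U (t, y)) K ⟨L, hL0⟩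
    (fun t => by
      have := hK.comp (LipschitzWith.prodMk_left (β := Fin 3 → ℝ) t)
      rw [mul_one] at this
      exact this)
    (fun y => hU.continuous.comp (by fun_prop)) (fun t y => hL _) (-|T|) |T|
    (by linarith [abs_nonneg T]) hT0 0 x

/-- A flow with prescribed solution curves on a set `S` (`IsFlow` is pointwise in `x`!). -/
theorem exists_flow {U : Field} (hU : ContDiff ℝ ∞ U) (hc : HasCompactSupport U)
    (S : Set (Fin 3 → ℝ)) (Γ : ℝ → (Fin 3 → ℝ) → (Fin 3 → ℝ)) (h0 : ∀ x ∈ S, Γ 0 x = x)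
    (hΓ : ∀ x ∈ S, ∀ t, HasDerivAt (fun s => Γ s x) (U (t, Γ t x)) t) :
    ∃ Φ, IsFlow U Φ ∧ ∀ x ∈ S, ∀ t, Φ t x = Γ t x := by
  classical
  choose γ hγ0 hγ using exists_curve hU hc
  refine ⟨fun t x => if x ∈ S then Γ t x else γ x t, ⟨fun x => ?_, fun t x => ?_⟩, fun x hx t => ?_⟩
  · by_cases hx : x ∈ S
    · simp [hx, h0 x hx]
    · simp [hx, hγ0 x]
  · by_cases hx : x ∈ S
    · simpa [hx] using hΓ x hx t
    · simpa [hx] using hγ x t
  · simp [hx]

/-- Concatenation: `U` acts before time `e₁`, `V` after time `s₂ > e₁`. -/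
theorem isFlow_concat {U V : Field} {Φ Ψ : ℝ → (Fin 3 → ℝ) → (Fin 3 → ℝ)} {e₁ s₂ : ℝ}
    (h : e₁ < s₂) (h0 : 0 < s₂) (h1 : e₁ < 1)
    (hU : ∀ p : ℝ × (Fin 3 → ℝ), e₁ < p.1 → U p = 0)
    (hV : ∀ p : ℝ × (Fin 3 → ℝ), p.1 < s₂ → V p = 0)
    (hΦ : IsFlow U Φ) (hΨ : IsFlow V Ψ) :
    IsFlow (U + V) (fun t x => Ψ t (Φ t x)) := by
  -- `Ψ s = id` for `s < s₂`
  have hΨid : ∀ s < s₂, ∀ y, Ψ s y = y := by
    intro s hs y
    have := curve_const_of_hasDerivAt_zero (γ := fun r => Ψ r y) (convex_Iio s₂)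
      (fun t ht => by
        have h2 := hΨ.2 t y
        rwa [hV (t, Ψ t y) ht] at h2) (a := s) (b := 0) hs h0
    simpa [hΨ.1 y] using this
  -- `Φ s x` does not depend on `s > e₁`
  have hΦc : ∀ s t, e₁ < s → e₁ < t → ∀ x, Φ s x = Φ t x := by
    intro s t hs ht x
    exact curve_const_of_hasDerivAt_zero (γ := fun r => Φ r x) (convex_Ioi e₁)
      (fun r hr => by
        have h2 := hΦ.2 r x
        rwa [hU (r, Φ r x) hr] at h2) hs ht
  refine ⟨fun x => by simp only [hΦ.1 x, hΨ.1 x], fun t x => ?_⟩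
  rcases lt_or_ge t s₂ with ht | ht
  · have hloc : (fun s => Ψ s (Φ s x)) =ᶠ[𝓝 t] fun s => Φ s x := by
      filter_upwards [Iio_mem_nhds ht] with s hs
      exact hΨid s hs _
    have h2 : (U + V) (t, Ψ t (Φ t x)) = U (t, Φ t x) := by
      rw [Pi.add_apply, hV _ ht, add_zero, hΨid t ht]
    rw [h2]
    exact (hΦ.2 t x).congr_of_eventuallyEq hloc
  · have ht' : e₁ < t := lt_of_lt_of_le h ht
    have hloc : (fun s => Ψ s (Φ s x)) =ᶠ[𝓝 t] fun s => Ψ s (Φ t x) := by
      filter_upwards [Ioi_mem_nhds ht'] with s hs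
      rw [hΦc s t hs ht' x]
    have h2 : (U + V) (t, Ψ t (Φ t x)) = V (t, Ψ t (Φ t x)) := by
      rw [Pi.add_apply, hU _ ht', zero_add]
    rw [h2]
    exact (hΨ.2 t (Φ t x)).congr_of_eventuallyEq hloc

end Crest.Agent.BoxFlow
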