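/-
BoxFlow / T7 : the class `Eff1` of effective smooth functions ℝ → ℝ
(all derivatives computably approximable at rational points + computable global bounds)
and its closure properties.
-/
import Crest.Agent.BoxFlow.CompReal

set_option autoImplicit false
open scoped ContDiff

namespace Crest.Agent.BoxFlow

/-- effective smooth function of one real variable. -/
structure Eff1 (g : ℝ → ℝ) : Prop where
  smooth : ContDiff ℝ ∞ g
  eff : ∃ (E : ℕ × ℚ × ℕ → ℚ) (B : ℕ → ℕ), Computable E ∧ Computable B ∧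
    (∀ (k : ℕ) (x : ℚ) (n : ℕ),
      |iteratedDeriv k g (x : ℝ) - ((E (k, x, n) : ℚ) : ℝ)| ≤ 1 / ((n : ℝ) + 1)) ∧
    (∀ (k : ℕ) (y : ℝ), |iteratedDeriv k g y| ≤ (B k : ℝ))

/-! ### small composition helpers for `Computable` -/
section tools
variable {α : Type*} [Primcodable α]

theorem cq_add {f g : α → ℚ} (hf : Computable f) (hg : Computable g) :
    Computable (fun a => f a + g a) := computable_rat_add.comp hf hg

theorem cq_mul {f g : α → ℚ} (hf : Computable f) (hg : Computable g) :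
    Computable (fun a => f a * g a) := computable_rat_mul.comp hf hg

theorem cq_sub {f g : α → ℚ} (hf : Computable f) (hg : Computable g) :
    Computable (fun a => f a - g a) := computable_rat_sub.comp hf hg

theorem cq_neg {f : α → ℚ} (hf : Computable f) :
    Computable (fun a => - f a) := computable_rat_neg.comp hf

theorem cq_pow {f : α → ℚ} {g : α → ℕ} (hf : Computable f) (hg : Computable g) :
    Computable (fun a => f a ^ g a) := computable_rat_pow.comp hf hg

theorem cq_cast {f : α → ℕ} (hf : Computable f) :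
    Computable (fun a => (f a : ℚ)) := computable_rat_natCast.comp hf

theorem cn_add {f g : α → ℕ} (hf : Computable f) (hg : Computable g) :
    Computable (fun a => f a + g a) := computable_nat_add.comp hf hg

theorem cn_mul {f g : α → ℕ} (hf : Computable f) (hg : Computable g) :
    Computable (fun a => f a * g a) := computable_nat_mul.comp hf hg

theorem cn_pow {f g : α → ℕ} (hf : Computable f) (hg : Computable g) :
    Computable (fun a => f a ^ g a) := computable_nat_pow.comp hf hg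

theorem cn_pred {f : α → ℕ} (hf : Computable f) :
    Computable (fun a => f a - 1) := Primrec.pred.to_comp.comp hf

/-- evaluation of a computable `E` at computable arguments. -/
theorem cE {E : ℕ × ℚ × ℕ → ℚ} (hE : Computable E) {k : α → ℕ} {x : α → ℚ} {n : α → ℕ}
    (hk : Computable k) (hx : Computable x) (hn : Computable n) :
    Computable (fun a => E (k a, x a, n a)) := hE.comp (hk.pair (hx.pair hn))

theorem c1 : Computable (fun p : ℕ × ℚ × ℕ => p.1) := Computable.fst
theorem c2 : Computable (fun p : ℕ × ℚ × ℕ => p.2.1) := Computable.fst.comp Computable.snd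
theorem c3 : Computable (fun p : ℕ × ℚ × ℕ => p.2.2) := Computable.snd.comp Computable.snd

end tools

theorem Eff1.cda {f : ℝ → ℝ} (hf : Eff1 f) (k : ℕ) (y : ℝ) : ContDiffAt ℝ k f y :=
  (hf.smooth.of_le (by exact_mod_cast le_top)).contDiffAt

theorem Eff1.add {f g : ℝ → ℝ} (hf : Eff1 f) (hg : Eff1 g) : Eff1 (fun x => f x + g x) := by
  obtain ⟨Ef, Bf, hEf, hBf, h1f, h2f⟩ := hf.eff
  obtain ⟨Eg, Bg, hEg, hBg, h1g, h2g⟩ := hg.eff
  have hder : ∀ k y, iteratedDeriv k (fun x => f x + g x) y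
      = iteratedDeriv k f y + iteratedDeriv k g y := fun k y =>
    iteratedDeriv_fun_add (hf.cda k y) (hg.cda k y)
  have hN : Computable (fun p : ℕ × ℚ × ℕ => 2 * p.2.2 + 1) :=
    cn_add (cn_mul (Computable.const 2) c3) (Computable.const 1)
  refine ⟨hf.smooth.add hg.smooth,
    fun p => Ef (p.1, p.2.1, 2 * p.2.2 + 1) + Eg (p.1, p.2.1, 2 * p.2.2 + 1),
    fun k => Bf k + Bg k, cq_add (cE hEf c1 c2 hN) (cE hEg c1 c2 hN),
    cn_add hBf hBg, ?_, ?_⟩
  · intro k x n
    have a1 := h1f k x (2 * n + 1)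
    have a2 := h1g k x (2 * n + 1)
    have e : (1 : ℝ) / (((2 * n + 1 : ℕ) : ℝ) + 1) = (1 / ((n : ℝ) + 1)) / 2 := by
      push_cast; field_simp; ring
    rw [e] at a1 a2
    rw [hder]
    push_cast
    rw [abs_le] at a1 a2 ⊢
    constructor <;> linarith [a1.1, a1.2, a2.1, a2.2]
  · intro k y
    rw [hder]
    push_cast
    exact (abs_add_le _ _).trans (add_le_add (h2f k y) (h2g k y))

theorem Eff1.neg {f : ℝ → ℝ} (hf : Eff1 f) : Eff1 (fun x => - f x) := by
  obtain ⟨Ef, Bf, hEf, hBf, h1f, h2f⟩ := hf.eff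
  refine ⟨hf.smooth.neg, fun p => - Ef p, Bf, cq_neg hEf, hBf, ?_, ?_⟩
  · intro k x n
    rw [iteratedDeriv_fun_neg]
    push_cast
    have := h1f k x n
    rwa [show -iteratedDeriv k f (x : ℝ) - -((Ef (k, x, n) : ℚ) : ℝ)
      = -(iteratedDeriv k f (x : ℝ) - ((Ef (k, x, n) : ℚ) : ℝ)) by ring, abs_neg]
  · intro k y
    rw [iteratedDeriv_fun_neg, abs_neg]
    exact h2f k y

theorem Eff1.sub {f g : ℝ → ℝ} (hf : Eff1 f) (hg : Eff1 g) : Eff1 (fun x => f x - g x) := by
  simpa only [sub_eq_add_neg] using hf.add hg.neg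

theorem Eff1.deriv {f : ℝ → ℝ} (hf : Eff1 f) : Eff1 (deriv f) := by
  obtain ⟨Ef, Bf, hEf, hBf, h1f, h2f⟩ := hf.eff
  refine ⟨?_, fun p => Ef (p.1 + 1, p.2.1, p.2.2), fun k => Bf (k + 1),
    cE hEf (cn_add c1 (Computable.const 1)) c2 c3,
    hBf.comp (cn_add Computable.id (Computable.const 1)), ?_, ?_⟩
  · exact (contDiff_infty_iff_deriv.1 hf.smooth).2
  · intro k x n
    rw [← iteratedDeriv_succ']
    exact h1f (k + 1) x n
  · intro k y
    rw [← iteratedDeriv_succ']
    exact h2f (k + 1) y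

/-- basic product error estimate. -/
theorem mul_approx {c a D e A B δ₁ δ₂ : ℝ} (h1 : |c - a| ≤ δ₁) (h2 : |D - e| ≤ δ₂)
    (hD : |D| ≤ B) (ha : |a| ≤ A) : |c * D - a * e| ≤ δ₁ * B + A * δ₂ := by
  have e1 : c * D - a * e = (c - a) * D + a * (D - e) := by ring
  rw [e1]
  refine (abs_add_le _ _).trans ?_
  rw [abs_mul, abs_mul]
  have hδ₁ : 0 ≤ δ₁ := (abs_nonneg _).trans h1
  have hA : 0 ≤ A := (abs_nonneg _).trans ha
  exact add_le_add (mul_le_mul h1 hD (abs_nonneg _) hδ₁) (mul_le_mul ha h2 (abs_nonneg _) hA)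

theorem Eff1.const_mul {f : ℝ → ℝ} (hf : Eff1 f) {c : ℝ} (hc : CompReal c) :
    Eff1 (fun x => c * f x) := by
  obtain ⟨Ef, Bf, hEf, hBf, h1f, h2f⟩ := hf.eff
  obtain ⟨a, ha, hca⟩ := hc
  obtain ⟨A, hA⟩ := exists_nat_ge (|c| + 1)
  have haA : ∀ m, |((a m : ℚ) : ℝ)| ≤ A := by
    intro m
    have h1 := hca m
    have h2 : (1 : ℝ) / ((m : ℝ) + 1) ≤ 1 := by
      rw [div_le_one (by positivity)]; linarith [(Nat.cast_nonneg m : (0 : ℝ) ≤ m)]
    have h3 : |((a m : ℚ) : ℝ)| ≤ |c| + |c - ((a m : ℚ) : ℝ)| := by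
      have : ((a m : ℚ) : ℝ) = c - (c - ((a m : ℚ) : ℝ)) := by ring
      calc |((a m : ℚ) : ℝ)| = |c - (c - ((a m : ℚ) : ℝ))| := by rw [← this]
        _ ≤ |c| + |c - ((a m : ℚ) : ℝ)| := abs_sub _ _
    linarith
  have hcA : |c| ≤ A := by linarith
  -- precision indices
  let N1 : ℕ × ℚ × ℕ → ℕ := fun p => 2 * (p.2.2 + 1) * (Bf p.1 + 1)
  let N2 : ℕ × ℚ × ℕ → ℕ := fun p => 2 * (p.2.2 + 1) * (A + 1)
  have hN1 : Computable N1 :=
    cn_mul (cn_mul (Computable.const 2) (cn_add c3 (Computable.const 1)))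
      (cn_add (hBf.comp c1) (Computable.const 1))
  have hN2 : Computable N2 :=
    cn_mul (cn_mul (Computable.const 2) (cn_add c3 (Computable.const 1))) (Computable.const (A + 1))
  refine ⟨contDiff_const.mul hf.smooth,
    fun p => a (N1 p) * Ef (p.1, p.2.1, N2 p), fun k => A * Bf k,
    cq_mul (ha.comp hN1) (cE hEf c1 c2 hN2), cn_mul (Computable.const A) hBf, ?_, ?_⟩
  · intro k x n
    rw [iteratedDeriv_const_mul_field]
    push_cast
    have key := mul_approx (hca (N1 (k, x, n))) (h1f k x (N2 (k, x, n))) (h2f k x)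
      (haA (N1 (k, x, n)))
    refine key.trans ?_
    have hn : (0 : ℝ) < (n : ℝ) + 1 := by positivity
    have hB : (0 : ℝ) ≤ Bf k := Nat.cast_nonneg _
    have hA0 : (0 : ℝ) ≤ A := Nat.cast_nonneg _
    have t1 : (1 : ℝ) / ((N1 (k, x, n) : ℝ) + 1) * (Bf k : ℝ) ≤ (1 / ((n : ℝ) + 1)) / 2 := by
      simp only [N1]; push_cast
      rw [div_mul_eq_mul_div, one_mul, div_div, div_le_div_iff₀ (by positivity) (by positivity)]
      nlinarith [mul_nonneg hn.le hB]
    have t2 : (A : ℝ) * (1 / ((N2 (k, x, n) : ℝ) + 1)) ≤ (1 / ((n : ℝ) + 1)) / 2 := by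
      simp only [N2]; push_cast
      rw [mul_one_div, div_div, div_le_div_iff₀ (by positivity) (by positivity)]
      nlinarith [mul_nonneg hn.le hA0]
    linarith
  · intro k y
    rw [iteratedDeriv_const_mul_field, abs_mul]
    push_cast
    exact mul_le_mul hcA (h2f k y) (abs_nonneg _) (Nat.cast_nonneg _)

theorem iteratedDeriv_comp_affine {f : ℝ → ℝ} (hf : ContDiff ℝ ∞ f) (α β : ℝ) (k : ℕ) (y : ℝ) :
    iteratedDeriv k (fun x => f (α * x + β)) y = α ^ k * iteratedDeriv k f (α * y + β) := by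
  have h1 : ContDiff ℝ k (fun z => f (z + β)) :=
    (hf.of_le (by exact_mod_cast le_top)).comp (contDiff_id.add contDiff_const)
  have h2 := congrFun (iteratedDeriv_comp_const_mul h1 α) y
  rw [iteratedDeriv_comp_add_const] at h2
  exact h2

/-- affine substitution with rational coefficients. -/
theorem Eff1.comp_affine {f : ℝ → ℝ} (hf : Eff1 f) (α β : ℚ) :
    Eff1 (fun x => f ((α : ℝ) * x + (β : ℝ))) := by
  obtain ⟨Ef, Bf, hEf, hBf, h1f, h2f⟩ := hf.eff
  set A : ℕ := α.num.natAbs with hAdef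
  have hαA : |(α : ℝ)| ≤ A := by
    have := rat_abs_le_natAbs α
    have h2 : ((|α| : ℚ) : ℝ) ≤ ((α.num.natAbs : ℚ) : ℝ) := by exact_mod_cast this
    rw [Rat.cast_abs, Rat.cast_natCast] at h2
    exact h2
  have hpow : ∀ k : ℕ, |(α : ℝ) ^ k| ≤ (A : ℝ) ^ k := by
    intro k; rw [abs_pow]; exact pow_le_pow_left₀ (abs_nonneg _) hαA k
  let N : ℕ × ℚ × ℕ → ℕ := fun p => (p.2.2 + 1) * (A ^ p.1 + 1)
  have hN : Computable N :=
    cn_mul (cn_add c3 (Computable.const 1))
      (cn_add (cn_pow (Computable.const A) c1) (Computable.const 1))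
  refine ⟨hf.smooth.comp ((contDiff_const.mul contDiff_id).add contDiff_const),
    fun p => α ^ p.1 * Ef (p.1, α * p.2.1 + β, N p), fun k => A ^ k * Bf k,
    cq_mul (cq_pow (Computable.const α) c1)
      (cE hEf c1 (cq_add (cq_mul (Computable.const α) c2) (Computable.const β)) hN),
    cn_mul (cn_pow (Computable.const A) Computable.id) hBf, ?_, ?_⟩
  · intro k x n
    rw [iteratedDeriv_comp_affine hf.smooth]
    have h := h1f k (α * x + β) (N (k, x, n))
    push_cast at h ⊢
    rw [← mul_sub, abs_mul]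
    have hn : (0 : ℝ) < (n : ℝ) + 1 := by positivity
    have hAk : (0 : ℝ) ≤ (A : ℝ) ^ k := by positivity
    calc |(α : ℝ) ^ k| * _ ≤ (A : ℝ) ^ k * (1 / ((N (k, x, n) : ℝ) + 1)) :=
          mul_le_mul (hpow k) h (abs_nonneg _) hAk
      _ ≤ 1 / ((n : ℝ) + 1) := by
          simp only [N]; push_cast
          rw [mul_one_div, div_le_div_iff₀ (by positivity) (by positivity)]
          nlinarith [mul_nonneg hn.le hAk]
  · intro k y
    rw [iteratedDeriv_comp_affine hf.smooth, abs_mul]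
    push_cast
    exact mul_le_mul (hpow k) (h2f k _) (abs_nonneg _) (by positivity)

theorem iteratedDeriv_linear_mul {f : ℝ → ℝ} (hf : ContDiff ℝ ∞ f) (c : ℝ) (k : ℕ) (y : ℝ) :
    iteratedDeriv k (fun x => (x - c) * f x) y
      = (y - c) * iteratedDeriv k f y + k * iteratedDeriv (k - 1) f y := by
  have hdiff : ∀ m : ℕ, Differentiable ℝ (iteratedDeriv m f) := fun m =>
    hf.differentiable_iteratedDeriv m (by exact_mod_cast WithTop.coe_lt_top _)
  induction k generalizing y with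
  | zero => simp
  | succ k ih =>
    rw [iteratedDeriv_succ]
    have hfun : iteratedDeriv k (fun x => (x - c) * f x)
        = fun y => (y - c) * iteratedDeriv k f y + k * iteratedDeriv (k - 1) f y := funext ih
    rw [hfun]
    have d1 : HasDerivAt (iteratedDeriv k f) (iteratedDeriv (k + 1) f y) y := by
      rw [iteratedDeriv_succ]
      exact ((hf.differentiable_iteratedDeriv k (by exact_mod_cast WithTop.coe_lt_top _)) y).hasDerivAt
    have d2 : HasDerivAt (fun y => (y - c) * iteratedDeriv k f y)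
        (1 * iteratedDeriv k f y + (y - c) * iteratedDeriv (k + 1) f y) y :=
      ((hasDerivAt_id y).sub_const c).mul d1
    rcases Nat.eq_zero_or_pos k with hk | hk
    · subst hk
      simp only [Nat.cast_zero, zero_mul, add_zero]
      rw [d2.deriv]
      simp
      ring
    · have d3 : HasDerivAt (iteratedDeriv (k - 1) f) (iteratedDeriv k f y) y := by
        have : iteratedDeriv k f = deriv (iteratedDeriv (k - 1) f) := by
          rw [← iteratedDeriv_succ]; congr 1; omega
        rw [this]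
        exact (hdiff (k - 1) y).hasDerivAt
      rw [(HasDerivAt.fun_add d2 (d3.const_mul (k : ℝ))).deriv]
      simp only [Nat.add_sub_cancel]
      push_cast
      ring

/-- multiplication by `x - c` for a function vanishing outside `[-R, R]`
(`iteratedDeriv k ((x-c) f) = (x-c) f^(k) + k f^(k-1)`). -/
theorem Eff1.linear_mul {f : ℝ → ℝ} (hf : Eff1 f) (c : ℚ) (R : ℕ)
    (hR : ∀ x : ℝ, (R : ℝ) < |x| → f x = 0) : Eff1 (fun x => (x - (c : ℝ)) * f x) := by
  obtain ⟨Ef, Bf, hEf, hBf, h1f, h2f⟩ := hf.eff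
  set A : ℕ := c.num.natAbs with hAdef
  have hcA : |(c : ℝ)| ≤ A := by
    have := rat_abs_le_natAbs c
    have h2 : ((|c| : ℚ) : ℝ) ≤ ((c.num.natAbs : ℚ) : ℝ) := by exact_mod_cast this
    rw [Rat.cast_abs, Rat.cast_natCast] at h2
    exact h2
  -- derivatives vanish outside `[-R, R]`
  have hvan : ∀ (k : ℕ) (y : ℝ), (R : ℝ) < |y| → iteratedDeriv k f y = 0 := by
    intro k y hy
    have hopen : IsOpen {x : ℝ | (R : ℝ) < |x|} := isOpen_lt continuous_const continuous_abs
    have h := Set.EqOn.iteratedDeriv_of_isOpen (f := f) (g := fun _ => (0 : ℝ))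
      (s := {x : ℝ | (R : ℝ) < |x|}) (fun x hx => hR x hx) hopen k hy
    rw [h]; simp
  let M : ℕ × ℚ × ℕ → ℕ := fun p => (p.2.1 - c).num.natAbs
  have hM : Computable M := computable_rat_natAbs.comp (cq_sub c2 (Computable.const c))
  let N1 : ℕ × ℚ × ℕ → ℕ := fun p => 2 * (p.2.2 + 1) * (M p + 1)
  let N2 : ℕ × ℚ × ℕ → ℕ := fun p => 2 * (p.2.2 + 1) * (p.1 + 1)
  have hN1 : Computable N1 :=
    cn_mul (cn_mul (Computable.const 2) (cn_add c3 (Computable.const 1)))
      (cn_add hM (Computable.const 1))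
  have hN2 : Computable N2 :=
    cn_mul (cn_mul (Computable.const 2) (cn_add c3 (Computable.const 1)))
      (cn_add c1 (Computable.const 1))
  refine ⟨(contDiff_id.sub contDiff_const).mul hf.smooth,
    fun p => (p.2.1 - c) * Ef (p.1, p.2.1, N1 p) + (p.1 : ℚ) * Ef (p.1 - 1, p.2.1, N2 p),
    fun k => (R + A) * Bf k + k * Bf (k - 1),
    cq_add (cq_mul (cq_sub c2 (Computable.const c)) (cE hEf c1 c2 hN1))
      (cq_mul (cq_cast c1) (cE hEf (cn_pred c1) c2 hN2)),
    cn_add (cn_mul (Computable.const (R + A)) hBf)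
      (cn_mul Computable.id (hBf.comp (cn_pred Computable.id))), ?_, ?_⟩
  · intro k x n
    rw [iteratedDeriv_linear_mul hf.smooth]
    push_cast
    have hn : (0 : ℝ) < (n : ℝ) + 1 := by positivity
    have hxM : |(x : ℝ) - (c : ℝ)| ≤ (M (k, x, n) : ℝ) := by
      have := rat_abs_le_natAbs (x - c)
      have h2 : ((|x - c| : ℚ) : ℝ) ≤ (((x - c).num.natAbs : ℚ) : ℝ) := by exact_mod_cast this
      rw [Rat.cast_abs, Rat.cast_natCast, Rat.cast_sub] at h2
      exact h2
    have hM0 : (0 : ℝ) ≤ (M (k, x, n) : ℝ) := Nat.cast_nonneg _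
    have t1 : |((x : ℝ) - c) * iteratedDeriv k f x - ((x : ℝ) - c) * (Ef (k, x, N1 (k, x, n)) : ℝ)|
        ≤ (1 / ((n : ℝ) + 1)) / 2 := by
      rw [← mul_sub, abs_mul]
      calc _ ≤ (M (k, x, n) : ℝ) * (1 / ((N1 (k, x, n) : ℝ) + 1)) :=
            mul_le_mul hxM (h1f k x _) (abs_nonneg _) hM0
        _ ≤ _ := by
            simp only [N1]; push_cast
            rw [mul_one_div, div_div, div_le_div_iff₀ (by positivity) (by positivity)]
            nlinarith [mul_nonneg hn.le hM0]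
    have hk0 : (0 : ℝ) ≤ (k : ℝ) := Nat.cast_nonneg _
    have t2 : |(k : ℝ) * iteratedDeriv (k - 1) f x - (k : ℝ) * (Ef (k - 1, x, N2 (k, x, n)) : ℝ)|
        ≤ (1 / ((n : ℝ) + 1)) / 2 := by
      rw [← mul_sub, abs_mul, abs_of_nonneg hk0]
      calc _ ≤ (k : ℝ) * (1 / ((N2 (k, x, n) : ℝ) + 1)) :=
            mul_le_mul_of_nonneg_left (h1f (k - 1) x _) hk0
        _ ≤ _ := by
            simp only [N2]; push_cast
            rw [mul_one_div, div_div, div_le_div_iff₀ (by positivity) (by positivity)]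
            nlinarith [mul_nonneg hn.le hk0]
    rw [abs_le] at t1 t2 ⊢
    constructor <;> linarith [t1.1, t1.2, t2.1, t2.2]
  · intro k y
    rw [iteratedDeriv_linear_mul hf.smooth]
    push_cast
    refine (abs_add_le _ _).trans (add_le_add ?_ ?_)
    · by_cases hy : (R : ℝ) < |y|
      · rw [hvan k y hy]; simp; positivity
      · rw [abs_mul]
        refine mul_le_mul ?_ (h2f k y) (abs_nonneg _) (by positivity)
        calc |y - (c : ℝ)| ≤ |y| + |(c : ℝ)| := abs_sub _ _
          _ ≤ R + A := add_le_add (not_lt.1 hy) hcA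
    · rw [abs_mul, abs_of_nonneg (Nat.cast_nonneg k : (0 : ℝ) ≤ k)]
      exact mul_le_mul_of_nonneg_left (h2f (k - 1) y) (Nat.cast_nonneg _)

end Crest.Agent.BoxFlow
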