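/-
BoxFlow / T3 (helper17): the Fabius function `fab` (a smooth step 0 → 1 on [0,1] with
`fab' x = 2 fab (2x) - 2 fab (2x-1)`), constructed as the uniform limit of
`fabG 0 x = clamp (x+1)`, `fabG (m+1) x = ∫_{2x-1}^{2x} fabG m`.
-/
import Mathlib

set_option autoImplicit false
open scoped ContDiff
open Filter Topology

namespace Crest.Agent.BoxFlow

/-- approximants of the Fabius function -/
noncomputable def fabG : ℕ → ℝ → ℝ
  | 0 => fun x => max 0 (min 1 (x + 1))
  | m + 1 => fun x => ∫ s in (2 * x - 1)..(2 * x), fabG m s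

/-- the Fabius function: pointwise limit of the approximants. -/
noncomputable def fab (x : ℝ) : ℝ := limUnder atTop (fun m => fabG m x)

theorem fabG_zero (x : ℝ) : fabG 0 x = max 0 (min 1 (x + 1)) := rfl

theorem fabG_succ (m : ℕ) (x : ℝ) : fabG (m + 1) x = ∫ s in (2 * x - 1)..(2 * x), fabG m s := rfl

theorem fabG_continuous (m : ℕ) : Continuous (fabG m) := by
  induction m with
  | zero =>
    show Continuous fun x : ℝ => max 0 (min 1 (x + 1))
    fun_prop
  | succ m ih =>
    have hint : ∀ a b : ℝ, IntervalIntegrable (fabG m) MeasureTheory.volume a b :=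
      fun a b => ih.intervalIntegrable a b
    have hP := intervalIntegral.continuous_primitive hint 0
    have e : fabG (m + 1) = fun x => (∫ s in (0 : ℝ)..(2 * x), fabG m s)
        - ∫ s in (0 : ℝ)..(2 * x - 1), fabG m s := by
      funext x
      rw [fabG_succ, intervalIntegral.integral_interval_sub_left (hint _ _) (hint _ _)]
    rw [e]
    exact (hP.comp (by fun_prop)).sub (hP.comp (by fun_prop))

theorem fabG_intervalIntegrable (m : ℕ) (a b : ℝ) :
    IntervalIntegrable (fabG m) MeasureTheory.volume a b :=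
  (fabG_continuous m).intervalIntegrable a b

/-- averaged form of the recursion. -/
theorem fabG_succ' (m : ℕ) (x : ℝ) :
    fabG (m + 1) x = ∫ v in (0 : ℝ)..1, fabG m (2 * x - v) := by
  rw [fabG_succ, intervalIntegral.integral_comp_sub_left (fun s => fabG m s) (2 * x)]
  simp

theorem fabG_comp_intervalIntegrable (m : ℕ) (c a b : ℝ) :
    IntervalIntegrable (fun v => fabG m (c - v)) MeasureTheory.volume a b :=
  ((fabG_continuous m).comp (by fun_prop)).intervalIntegrable a b

theorem fabG_nonneg (m : ℕ) (x : ℝ) : 0 ≤ fabG m x := by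
  induction m generalizing x with
  | zero => exact le_max_left _ _
  | succ m ih =>
    rw [fabG_succ']
    exact intervalIntegral.integral_nonneg zero_le_one fun v _ => ih _

theorem fabG_le_one (m : ℕ) (x : ℝ) : fabG m x ≤ 1 := by
  induction m generalizing x with
  | zero => exact max_le zero_le_one (min_le_left _ _)
  | succ m ih =>
    rw [fabG_succ']
    calc ∫ v in (0 : ℝ)..1, fabG m (2 * x - v) ≤ ∫ _v in (0 : ℝ)..1, (1 : ℝ) :=
          intervalIntegral.integral_mono_on zero_le_one (fabG_comp_intervalIntegrable m _ _ _)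
            (by simp) fun v _ => ih _
      _ = 1 := by simp

theorem fabG_mono (m : ℕ) : Monotone (fabG m) := by
  induction m with
  | zero =>
    intro x y hxy
    exact max_le_max le_rfl (min_le_min le_rfl (by linarith))
  | succ m ih =>
    intro x y hxy
    rw [fabG_succ', fabG_succ']
    exact intervalIntegral.integral_mono_on zero_le_one (fabG_comp_intervalIntegrable m _ _ _)
      (fabG_comp_intervalIntegrable m _ _ _) fun v _ => ih (by linarith)

theorem fabG_eq_zero (m : ℕ) {x : ℝ} (hx : x ≤ -(1 / 2 ^ m)) : fabG m x = 0 := by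
  induction m generalizing x with
  | zero =>
    rw [fabG_zero]
    simp only [pow_zero, div_one] at hx
    rw [max_eq_left]
    exact (min_le_right _ _).trans (by linarith)
  | succ m ih =>
    rw [fabG_succ']
    have : ∀ v ∈ Set.uIcc (0 : ℝ) 1, fabG m (2 * x - v) = 0 := by
      intro v hv
      rw [Set.uIcc_of_le zero_le_one] at hv
      apply ih
      have e : (1 : ℝ) / 2 ^ (m + 1) = (1 / 2 ^ m) / 2 := by rw [pow_succ]; field_simp
      rw [e] at hx
      linarith [hv.1]
    rw [intervalIntegral.integral_congr this]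
    simp

theorem fabG_eq_one (m : ℕ) {x : ℝ} (hx : 1 - 1 / 2 ^ m ≤ x) : fabG m x = 1 := by
  induction m generalizing x with
  | zero =>
    rw [fabG_zero]
    simp only [pow_zero, div_one, sub_self] at hx
    rw [min_eq_left (by linarith), max_eq_right zero_le_one]
  | succ m ih =>
    rw [fabG_succ']
    have : ∀ v ∈ Set.uIcc (0 : ℝ) 1, fabG m (2 * x - v) = 1 := by
      intro v hv
      rw [Set.uIcc_of_le zero_le_one] at hv
      apply ih
      have e : (1 : ℝ) / 2 ^ (m + 1) = (1 / 2 ^ m) / 2 := by rw [pow_succ]; field_simp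
      rw [e] at hx
      linarith [hv.2]
    rw [intervalIntegral.integral_congr this]
    simp

theorem fabG_pow_pos (m : ℕ) : (0 : ℝ) < 1 / 2 ^ m := by positivity

theorem fabG_pow_le_one (m : ℕ) : (1 : ℝ) / 2 ^ m ≤ 1 := by
  rw [div_le_one (by positivity)]
  exact one_le_pow₀ (by norm_num)

/-- shift sandwich between approximants. -/
theorem fabG_sandwich (m k : ℕ) (x : ℝ) :
    fabG m (x - 2 / 2 ^ m) ≤ fabG (m + k) x ∧ fabG (m + k) x ≤ fabG m (x + 2 / 2 ^ m) := by
  induction m generalizing x with
  | zero =>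
    simp only [pow_zero, div_one, zero_add]
    constructor
    · rcases le_total x 1 with h | h
      · rw [fabG_eq_zero 0 (by simp; linarith)]
        exact fabG_nonneg _ _
      · rw [fabG_eq_one k (by linarith [fabG_pow_pos k])]
        exact fabG_le_one _ _
    · rcases le_total x (-1) with h | h
      · rw [fabG_eq_zero k (by linarith [fabG_pow_le_one k])]
        exact fabG_nonneg _ _
      · rw [fabG_eq_one 0 (by simp; linarith)]
        exact fabG_le_one _ _
  | succ m ih =>
    have e : m + 1 + k = (m + k) + 1 := by omega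
    have e2 : (2 : ℝ) / 2 ^ (m + 1) = (2 / 2 ^ m) / 2 := by rw [pow_succ]; field_simp
    rw [e, fabG_succ', fabG_succ', fabG_succ', e2]
    constructor
    · refine intervalIntegral.integral_mono_on zero_le_one (fabG_comp_intervalIntegrable m _ _ _)
        (fabG_comp_intervalIntegrable _ _ _ _) fun v _ => ?_
      have := (ih (2 * x - v)).1
      have e3 : 2 * (x - 2 / 2 ^ m / 2) - v = 2 * x - v - 2 / 2 ^ m := by ring
      rwa [e3]
    · refine intervalIntegral.integral_mono_on zero_le_one (fabG_comp_intervalIntegrable _ _ _ _)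
        (fabG_comp_intervalIntegrable m _ _ _) fun v _ => ?_
      have := (ih (2 * x - v)).2
      have e3 : 2 * (x + 2 / 2 ^ m / 2) - v = 2 * x - v + 2 / 2 ^ m := by ring
      rwa [e3]

/-- the approximants are `2`-Lipschitz. -/
theorem fabG_lip (m : ℕ) {x y : ℝ} (hxy : x ≤ y) : fabG m y - fabG m x ≤ 2 * (y - x) := by
  cases m with
  | zero =>
    simp only [fabG_zero, max_def, min_def]
    split_ifs <;> linarith
  | succ m =>
    have hint := fabG_intervalIntegrable m
    have h1 : fabG (m + 1) y - fabG (m + 1) x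
        = (∫ s in (2 * x)..(2 * y), fabG m s) - ∫ s in (2 * x - 1)..(2 * y - 1), fabG m s := by
      rw [fabG_succ, fabG_succ]
      have a1 := intervalIntegral.integral_add_adjacent_intervals (hint (2 * x - 1) (2 * y - 1))
        (hint (2 * y - 1) (2 * y))
      have a2 := intervalIntegral.integral_add_adjacent_intervals (hint (2 * x - 1) (2 * x))
        (hint (2 * x) (2 * y))
      linarith
    have h2 : ∫ s in (2 * x)..(2 * y), fabG m s ≤ ∫ _s in (2 * x)..(2 * y), (1 : ℝ) :=
      intervalIntegral.integral_mono_on (by linarith) (hint _ _) (by simp)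
        fun s _ => fabG_le_one m s
    have h3 : 0 ≤ ∫ s in (2 * x - 1)..(2 * y - 1), fabG m s :=
      intervalIntegral.integral_nonneg (by linarith) fun s _ => fabG_nonneg m s
    rw [h1]
    simp only [intervalIntegral.integral_const, smul_eq_mul, mul_one] at h2
    linarith

theorem fabG_cauchy (m k : ℕ) (x : ℝ) : |fabG (m + k) x - fabG m x| ≤ 4 / 2 ^ m := by
  obtain ⟨h1, h2⟩ := fabG_sandwich m k x
  have hpos : (0 : ℝ) < 2 / 2 ^ m := by positivity
  have h3 := fabG_lip m (show x - 2 / 2 ^ m ≤ x by linarith)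
  have h4 := fabG_lip m (show x ≤ x + 2 / 2 ^ m by linarith)
  have e : (4 : ℝ) / 2 ^ m = 2 * (2 / 2 ^ m) := by ring
  rw [e, abs_le]
  constructor <;> linarith

theorem fabG_exists_lim (x : ℝ) : ∃ L, Tendsto (fun m => fabG m x) atTop (𝓝 L) := by
  apply cauchySeq_tendsto_of_complete
  refine cauchySeq_of_le_geometric (1 / 2) 4 (by norm_num) fun n => ?_
  rw [Real.dist_eq, abs_sub_comm]
  have := fabG_cauchy n 1 x
  have e : (4 : ℝ) * (1 / 2) ^ n = 4 / 2 ^ n := by
    rw [one_div, inv_pow]; rfl
  rwa [e]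

theorem fab_tendsto (x : ℝ) : Tendsto (fun m => fabG m x) atTop (𝓝 (fab x)) :=
  tendsto_nhds_limUnder (fabG_exists_lim x)

theorem fabG_approx (m : ℕ) (x : ℝ) : |fab x - fabG m x| ≤ 4 / 2 ^ m := by
  have h1 : Tendsto (fun k => fabG (m + k) x) atTop (𝓝 (fab x)) := by
    have := (fab_tendsto x).comp (tendsto_add_atTop_nat m)
    refine this.congr fun k => ?_
    simp [add_comm]
  have h2 : Tendsto (fun k => |fabG (m + k) x - fabG m x|) atTop (𝓝 |fab x - fabG m x|) :=
    (h1.sub_const _).abs
  exact le_of_tendsto' h2 fun k => fabG_cauchy m k x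

theorem fab_nonneg (x : ℝ) : 0 ≤ fab x :=
  ge_of_tendsto' (fab_tendsto x) fun m => fabG_nonneg m x

theorem fab_le_one (x : ℝ) : fab x ≤ 1 :=
  le_of_tendsto' (fab_tendsto x) fun m => fabG_le_one m x

theorem fab_mono : Monotone fab := fun x y hxy =>
  le_of_tendsto_of_tendsto' (fab_tendsto x) (fab_tendsto y) fun m => fabG_mono m hxy

theorem fab_lip {x y : ℝ} (hxy : x ≤ y) : fab y - fab x ≤ 2 * (y - x) :=
  le_of_tendsto' ((fab_tendsto y).sub (fab_tendsto x)) fun m => fabG_lip m hxy

theorem fab_continuous : Continuous fab := by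
  have : LipschitzWith 2 fab := by
    refine LipschitzWith.of_dist_le_mul fun x y => ?_
    rw [Real.dist_eq, Real.dist_eq]
    simp only [NNReal.coe_ofNat]
    rcases le_total x y with h | h
    · rw [abs_sub_comm, abs_of_nonneg (sub_nonneg.mpr (fab_mono h)), abs_sub_comm,
        abs_of_nonneg (sub_nonneg.mpr h)]
      exact fab_lip h
    · rw [abs_of_nonneg (sub_nonneg.mpr (fab_mono h)), abs_of_nonneg (sub_nonneg.mpr h)]
      exact fab_lip h
  exact this.continuous

theorem fab_of_nonpos {x : ℝ} (h : x ≤ 0) : fab x = 0 := by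
  refine tendsto_nhds_unique (fab_tendsto x) ?_
  have hlim : Tendsto (fun m : ℕ => (2 : ℝ) * (1 / 2) ^ m) atTop (𝓝 0) := by
    have := (tendsto_pow_atTop_nhds_zero_of_lt_one (by norm_num : (0 : ℝ) ≤ 1 / 2)
      (by norm_num : (1 : ℝ) / 2 < 1)).const_mul 2
    simpa using this
  refine squeeze_zero (fun m => fabG_nonneg m x) (fun m => ?_) hlim
  have h1 := fabG_mono m h
  have h2 := fabG_lip m (show -(1 / 2 ^ m) ≤ (0 : ℝ) by linarith [fabG_pow_pos m])
  rw [fabG_eq_zero m le_rfl] at h2
  have e : (2 : ℝ) * (1 / 2) ^ m = 2 * (1 / 2 ^ m) := by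
    rw [one_div, inv_pow, one_div]
  rw [e]
  linarith

theorem fab_of_one_le {x : ℝ} (h : 1 ≤ x) : fab x = 1 := by
  refine tendsto_nhds_unique (fab_tendsto x) ?_
  have : (fun m => fabG m x) = fun _ => (1 : ℝ) := by
    funext m
    exact fabG_eq_one m (by linarith [fabG_pow_pos m])
  rw [this]
  exact tendsto_const_nhds

/-- the fixed point equation. -/
theorem fab_eq_integral (x : ℝ) : fab x = ∫ s in (2 * x - 1)..(2 * x), fab s := by
  have h1 : Tendsto (fun m => fabG (m + 1) x) atTop (𝓝 (fab x)) :=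
    (fab_tendsto x).comp (tendsto_add_atTop_nat 1)
  refine tendsto_nhds_unique h1 ?_
  rw [tendsto_iff_dist_tendsto_zero]
  have hlim : Tendsto (fun m : ℕ => (4 : ℝ) * (1 / 2) ^ m) atTop (𝓝 0) := by
    have := (tendsto_pow_atTop_nhds_zero_of_lt_one (by norm_num : (0 : ℝ) ≤ 1 / 2)
      (by norm_num : (1 : ℝ) / 2 < 1)).const_mul 4
    simpa using this
  refine squeeze_zero (fun m => dist_nonneg) (fun m => ?_) hlim
  rw [Real.dist_eq, fabG_succ, ← intervalIntegral.integral_sub (fabG_intervalIntegrable m _ _)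
    (fab_continuous.intervalIntegrable _ _)]
  have := intervalIntegral.norm_integral_le_of_norm_le_const
    (a := 2 * x - 1) (b := 2 * x) (C := 4 / 2 ^ m) (f := fun s => fabG m s - fab s)
    (fun s _ => by
      rw [Real.norm_eq_abs, abs_sub_comm]
      exact fabG_approx m s)
  rw [Real.norm_eq_abs] at this
  have e : (4 : ℝ) * (1 / 2) ^ m = 4 / 2 ^ m * |2 * x - (2 * x - 1)| := by
    have : 2 * x - (2 * x - 1) = 1 := by ring
    rw [this, abs_one, mul_one, one_div, inv_pow]; rfl
  rw [e]
  exact this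

theorem fab_hasDerivAt (x : ℝ) : HasDerivAt fab (2 * fab (2 * x) - 2 * fab (2 * x - 1)) x := by
  have hint : ∀ a b : ℝ, IntervalIntegrable fab MeasureTheory.volume a b :=
    fun a b => fab_continuous.intervalIntegrable a b
  have e : fab = fun x => (∫ s in (0 : ℝ)..(2 * x), fab s) - ∫ s in (0 : ℝ)..(2 * x - 1), fab s := by
    funext x
    rw [intervalIntegral.integral_interval_sub_left (hint _ _) (hint _ _)]
    exact fab_eq_integral x
  have hP : ∀ y, HasDerivAt (fun u => ∫ s in (0 : ℝ)..u, fab s) (fab y) y :=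
    fun y => (fab_continuous.integral_hasStrictDerivAt 0 y).hasDerivAt
  have d1 : HasDerivAt (fun x : ℝ => 2 * x) 2 x := by
    simpa using (hasDerivAt_id x).const_mul 2
  have d2 : HasDerivAt (fun x : ℝ => 2 * x - 1) 2 x := d1.sub_const 1
  have h1 := (hP (2 * x)).comp x d1
  have h2 := (hP (2 * x - 1)).comp x d2
  have h3 : HasDerivAt (fun x => (∫ s in (0 : ℝ)..(2 * x), fab s)
      - ∫ s in (0 : ℝ)..(2 * x - 1), fab s) (fab (2 * x) * 2 - fab (2 * x - 1) * 2) x :=
    h1.sub h2
  have h4 : HasDerivAt fab (fab (2 * x) * 2 - fab (2 * x - 1) * 2) x :=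
    h3.congr_of_eventuallyEq (Eventually.of_forall fun y => congrFun e y)
  have e2 : 2 * fab (2 * x) - 2 * fab (2 * x - 1) = fab (2 * x) * 2 - fab (2 * x - 1) * 2 := by
    ring
  rw [e2]
  exact h4

theorem fab_deriv : deriv fab = fun x => 2 * fab (2 * x) - 2 * fab (2 * x - 1) :=
  funext fun x => (fab_hasDerivAt x).deriv

theorem fab_differentiable : Differentiable ℝ fab := fun x => (fab_hasDerivAt x).differentiableAt

theorem fab_contDiff : ContDiff ℝ ∞ fab := by
  rw [contDiff_infty]
  intro n
  induction n with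
  | zero =>
    exact contDiff_zero.mpr fab_continuous
  | succ n ih =>
    have : ((n + 1 : ℕ) : ℕ∞ω) = (n : ℕ∞ω) + 1 := by norm_cast
    rw [this, contDiff_succ_iff_deriv]
    refine ⟨fab_differentiable, by simp, ?_⟩
    rw [fab_deriv]
    have c1 : ContDiff ℝ n fun x : ℝ => fab (2 * x) := ih.comp (by fun_prop)
    have c2 : ContDiff ℝ n fun x : ℝ => fab (2 * x - 1) := ih.comp (by fun_prop)
    exact (contDiff_const.mul c1).sub (contDiff_const.mul c2)

end Crest.Agent.BoxFlow
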