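/-
BoxFlow / T4 : explicit spline formula for the approximants `fabG m` and computable evaluation
of `fab` at rational points.

  fabG m x = c_m * ∑_{J < 2^m} tm J * ( (x - (J-1)/2^m)_+^(m+1) - (x - J/2^m)_+^(m+1) ),
  c_0 = 1,  c_(m+1) = c_m * 2^(m+2) / (m+2)

because  ∫_{2x-1}^{2x} (s-a)_+^d ds = 2^(d+1)/(d+1) * ( (x - a/2)_+^(d+1) - (x - (a+1)/2)_+^(d+1) )
(for d ≥ 1) and `tm (J + 2^m) = - tm J` for `J < 2^m`.
-/
import Crest.Agent.BoxFlow.RatCode
import Crest.Agent.BoxFlow.Fabius

set_option autoImplicit false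

namespace Crest.Agent.BoxFlow

/-- the constant `c_m`. -/
def fabC : ℕ → ℚ
  | 0 => 1
  | m + 1 => fabC m * 2 ^ (m + 2) / (m + 2)

/-- explicit rational spline. -/
def fabGq (m : ℕ) (x : ℚ) : ℚ :=
  fabC m * ∑ J ∈ Finset.range (2 ^ m),
    tm J * ((max 0 (x - ((J : ℚ) - 1) / 2 ^ m)) ^ (m + 1) - (max 0 (x - (J : ℚ) / 2 ^ m)) ^ (m + 1))

/-! ### calculus of truncated powers -/

private theorem hasDerivAt_pospow (d : ℕ) (y : ℝ) :
    HasDerivAt (fun s : ℝ => (max 0 s) ^ (d + 2) / ((d : ℝ) + 2)) ((max 0 y) ^ (d + 1)) y := by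
  have hd : ((d : ℝ) + 2) ≠ 0 := by positivity
  have hpow : ∀ z : ℝ, HasDerivAt (fun s : ℝ => s ^ (d + 2) / ((d : ℝ) + 2)) (z ^ (d + 1)) z := by
    intro z
    have := (hasDerivAt_pow (d + 2) z).div_const ((d : ℝ) + 2)
    have e3 : z ^ (d + 1) = ((d + 2 : ℕ) : ℝ) * z ^ (d + 2 - 1) / ((d : ℝ) + 2) := by
      have e : ((d + 2 : ℕ) : ℝ) = (d : ℝ) + 2 := by push_cast; ring
      have e2 : d + 2 - 1 = d + 1 := by omega
      rw [e, e2]
      field_simp
    rw [e3]
    exact this
  rcases lt_trichotomy y 0 with hy | hy | hy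
  · have h0 : HasDerivAt (fun _ : ℝ => (0 : ℝ)) 0 y := hasDerivAt_const y 0
    have e : (max 0 y) ^ (d + 1) = 0 := by rw [max_eq_left hy.le]; simp
    rw [e]
    refine h0.congr_of_eventuallyEq ?_
    filter_upwards [Iio_mem_nhds hy] with s hs
    rw [max_eq_left (le_of_lt hs)]; simp
  · subst hy
    have e : (max (0 : ℝ) 0) ^ (d + 1) = 0 := by simp
    rw [e]
    have h1 : HasDerivWithinAt (fun s : ℝ => (max 0 s) ^ (d + 2) / ((d : ℝ) + 2)) 0 (Set.Iic 0) 0 := by
      have h0 : HasDerivWithinAt (fun _ : ℝ => (0 : ℝ)) 0 (Set.Iic 0) 0 :=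
        hasDerivWithinAt_const _ _ _
      refine h0.congr (fun s hs => ?_) (by simp)
      rw [max_eq_left hs]; simp
    have h2 : HasDerivWithinAt (fun s : ℝ => (max 0 s) ^ (d + 2) / ((d : ℝ) + 2)) 0 (Set.Ici 0) 0 := by
      have h0 : HasDerivWithinAt (fun s : ℝ => s ^ (d + 2) / ((d : ℝ) + 2)) 0 (Set.Ici 0) 0 := by
        have := (hpow 0).hasDerivWithinAt (s := Set.Ici 0)
        simpa using this
      refine h0.congr (fun s hs => ?_) (by simp)
      rw [max_eq_right hs]
    have := h1.union h2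
    rw [Set.Iic_union_Ici] at this
    exact this.hasDerivAt Filter.univ_mem
  · rw [max_eq_right hy.le]
    refine (hpow y).congr_of_eventuallyEq ?_
    filter_upwards [Ioi_mem_nhds hy] with s hs
    rw [max_eq_right (le_of_lt hs)]

private theorem continuous_pospow (d : ℕ) (a : ℝ) :
    Continuous (fun s : ℝ => (max 0 (s - a)) ^ d) := by fun_prop

private theorem integral_pospow (d : ℕ) (a u v : ℝ) :
    ∫ s in u..v, (max 0 (s - a)) ^ (d + 1)
      = ((max 0 (v - a)) ^ (d + 2) - (max 0 (u - a)) ^ (d + 2)) / ((d : ℝ) + 2) := by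
  have h : ∀ s ∈ Set.uIcc u v,
      HasDerivAt (fun s : ℝ => (max 0 (s - a)) ^ (d + 2) / ((d : ℝ) + 2))
        ((max 0 (s - a)) ^ (d + 1)) s := by
    intro s _
    have := (hasDerivAt_pospow d (s - a)).comp s ((hasDerivAt_id s).sub_const a)
    rw [mul_one] at this
    exact this
  rw [intervalIntegral.integral_eq_sub_of_hasDerivAt h
    ((continuous_pospow (d + 1) a).intervalIntegrable _ _)]
  ring

private theorem max_two_mul (x a : ℝ) : max 0 (2 * x - a) = 2 * max 0 (x - a / 2) := by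
  rw [mul_max_of_nonneg _ _ (by norm_num : (0 : ℝ) ≤ 2)]
  congr 1
  · simp
  · ring

/-- the key integral -/
private theorem integral_pospow' (d : ℕ) (a x : ℝ) :
    ∫ s in (2 * x - 1)..(2 * x), (max 0 (s - a)) ^ (d + 1)
      = 2 ^ (d + 2) / ((d : ℝ) + 2) *
        ((max 0 (x - a / 2)) ^ (d + 2) - (max 0 (x - (a + 1) / 2)) ^ (d + 2)) := by
  rw [integral_pospow]
  have e1 : 2 * x - 1 - a = 2 * x - (a + 1) := by ring
  rw [e1, max_two_mul, max_two_mul, mul_pow, mul_pow]
  ring

/-- real version of the spline -/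
private noncomputable def fabGr (m : ℕ) (x : ℝ) : ℝ :=
  ((fabC m : ℚ) : ℝ) * ∑ J ∈ Finset.range (2 ^ m),
    ((tm J : ℚ) : ℝ) * ((max 0 (x - ((J : ℝ) - 1) / 2 ^ m)) ^ (m + 1)
      - (max 0 (x - (J : ℝ) / 2 ^ m)) ^ (m + 1))

private theorem fabG_eq_fabGr (m : ℕ) : ∀ x : ℝ, fabG m x = fabGr m x := by
  induction m with
  | zero =>
    intro x
    simp only [fabG, fabGr, fabC, pow_zero, Finset.range_one, Finset.sum_singleton, tm_zero,
      Nat.cast_zero, zero_add, pow_one, Rat.cast_one, one_mul, div_one, zero_sub, sub_neg_eq_add,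
      sub_zero]
    rcases le_total x 0 with h | h
    · rw [max_eq_left h, min_eq_right (by linarith)]; ring
    · rw [max_eq_right h, min_eq_left (by linarith), max_eq_right (by linarith),
        max_eq_right (by linarith)]; ring
  | succ m ih =>
    intro x
    have hfun : fabG m = fabGr m := funext ih
    show (∫ s in (2 * x - 1)..(2 * x), fabG m s) = _
    rw [hfun]
    unfold fabGr
    rw [intervalIntegral.integral_const_mul, intervalIntegral.integral_finsetSum]
    swap
    · intro J _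
      apply Continuous.intervalIntegrable
      fun_prop
    have hterm : ∀ J ∈ Finset.range (2 ^ m),
        ∫ s in (2 * x - 1)..(2 * x), ((tm J : ℚ) : ℝ) * ((max 0 (s - ((J : ℝ) - 1) / 2 ^ m)) ^ (m + 1)
          - (max 0 (s - (J : ℝ) / 2 ^ m)) ^ (m + 1))
        = 2 ^ (m + 2) / ((m : ℝ) + 2) * (((tm J : ℚ) : ℝ) *
            ((max 0 (x - ((J : ℝ) - 1) / 2 ^ (m + 1))) ^ (m + 2)
              - (max 0 (x - (J : ℝ) / 2 ^ (m + 1))) ^ (m + 2))
          + ((tm (2 ^ m + J) : ℚ) : ℝ) *
            ((max 0 (x - (((2 ^ m + J : ℕ) : ℝ) - 1) / 2 ^ (m + 1))) ^ (m + 2)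
              - (max 0 (x - ((2 ^ m + J : ℕ) : ℝ) / 2 ^ (m + 1))) ^ (m + 2))) := by
      intro J hJ
      have hJ' : J < 2 ^ m := Finset.mem_range.1 hJ
      rw [intervalIntegral.integral_const_mul, intervalIntegral.integral_sub
        ((continuous_pospow _ _).intervalIntegrable _ _)
        ((continuous_pospow _ _).intervalIntegrable _ _),
        integral_pospow', integral_pospow']
      have htm : tm (2 ^ m + J) = - tm J := by rw [add_comm]; exact tm_add_two_pow hJ'
      rw [htm]
      have h2 : (2 : ℝ) ^ m ≠ 0 := by positivity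
      have a1 : ((J : ℝ) - 1) / 2 ^ m / 2 = ((J : ℝ) - 1) / 2 ^ (m + 1) := by
        rw [pow_succ]; field_simp
      have a2 : (((J : ℝ) - 1) / 2 ^ m + 1) / 2 = (((2 ^ m + J : ℕ) : ℝ) - 1) / 2 ^ (m + 1) := by
        rw [pow_succ]; push_cast; field_simp; ring
      have a3 : (J : ℝ) / 2 ^ m / 2 = (J : ℝ) / 2 ^ (m + 1) := by
        rw [pow_succ]; field_simp
      have a4 : ((J : ℝ) / 2 ^ m + 1) / 2 = ((2 ^ m + J : ℕ) : ℝ) / 2 ^ (m + 1) := by
        rw [pow_succ]; push_cast; field_simp; ring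
      rw [a1, a2, a3, a4]
      push_cast
      ring
    rw [Finset.sum_congr rfl hterm, ← Finset.mul_sum, Finset.sum_add_distrib]
    have hsplit : (2 : ℕ) ^ (m + 1) = 2 ^ m + 2 ^ m := by rw [pow_succ]; ring
    rw [hsplit, Finset.sum_range_add]
    simp only [fabC]
    push_cast
    ring

theorem fabGq_eq (m : ℕ) (x : ℚ) : ((fabGq m x : ℚ) : ℝ) = fabG m (x : ℝ) := by
  rw [fabG_eq_fabGr]
  unfold fabGq fabGr
  push_cast
  rfl

theorem computable_fabC : Computable fabC := by
  have h := Computable.nat_rec (α := ℕ) (f := fun n => n) (g := fun _ => (1 : ℚ))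
    (h := fun _ (p : ℕ × ℚ) => p.2 * 2 ^ (p.1 + 2) / ((p.1 : ℚ) + 2)) Computable.id
    (Computable.const 1)
    (Computable.rat_div
      (Computable.rat_mul (Computable.snd.comp Computable.snd)
        (Computable.rat_pow (Computable.const 2)
          (Primrec.to_comp (Primrec.nat_add.comp (Primrec.fst.comp Primrec.snd)
            (Primrec.const 2)))))
      (Computable.rat_add (Computable.rat_natCast (Computable.fst.comp Computable.snd))
        (Computable.const 2)))
  refine h.of_eq fun n => ?_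
  induction n with
  | zero => rfl
  | succ n ih => simp only [fabC]; rw [← ih]

theorem computable_fabGq : Computable₂ fabGq := by
  have hm : Computable (fun p : ℕ × ℚ => p.1) := Computable.fst
  have hx : Computable (fun p : ℕ × ℚ => p.2) := Computable.snd
  refine Computable.rat_mul (computable_fabC.comp hm) ?_
  refine computable_rat_sum_range (computable_nat_pow.comp (Computable.const 2) hm) ?_
  have hm' : Computable (fun q : (ℕ × ℚ) × ℕ => q.1.1) := Computable.fst.comp Computable.fst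
  have hx' : Computable (fun q : (ℕ × ℚ) × ℕ => q.1.2) := Computable.snd.comp Computable.fst
  have hJ : Computable (fun q : (ℕ × ℚ) × ℕ => q.2) := Computable.snd
  have h2m : Computable (fun q : (ℕ × ℚ) × ℕ => (2 : ℚ) ^ q.1.1) :=
    Computable.rat_pow (Computable.const 2) hm'
  have hm1 : Computable (fun q : (ℕ × ℚ) × ℕ => q.1.1 + 1) := Computable.succ.comp hm'
  refine Computable.rat_mul (computable_tm.comp hJ) (Computable.rat_sub ?_ ?_)
  · refine Computable.rat_pow (Computable.rat_max (Computable.const 0)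
      (Computable.rat_sub hx' (Computable.rat_div
        (Computable.rat_sub (Computable.rat_natCast hJ) (Computable.const 1)) h2m))) hm1
  · refine Computable.rat_pow (Computable.rat_max (Computable.const 0)
      (Computable.rat_sub hx' (Computable.rat_div (Computable.rat_natCast hJ) h2m))) hm1

/-- rational approximation of `fab x` within `1/(n+1)`. -/
def fabApprox (x : ℚ) (n : ℕ) : ℚ := fabGq (n + 2) x

theorem computable_fabApprox : Computable₂ fabApprox :=
  computable_fabGq.comp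
    (Primrec.to_comp (Primrec.nat_add.comp Primrec.snd (Primrec.const 2))) Computable.fst

theorem fabApprox_spec (x : ℚ) (n : ℕ) :
    |fab (x : ℝ) - ((fabApprox x n : ℚ) : ℝ)| ≤ 1 / ((n : ℝ) + 1) := by
  unfold fabApprox
  rw [fabGq_eq]
  refine (fabG_approx (n + 2) x).trans ?_
  have h1 : (4 : ℝ) / 2 ^ (n + 2) = 1 / 2 ^ n := by
    rw [pow_add]; norm_num; field_simp
  rw [h1]
  apply one_div_le_one_div_of_le (by positivity)
  have : n + 1 ≤ 2 ^ n := Nat.lt_two_pow_self
  exact_mod_cast this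

end Crest.Agent.BoxFlow
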