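/-
BoxFlow / T6 (helper17): the Fabius function is effective.
-/
import Crest.Agent.BoxFlow.FabiusEval
import Crest.Agent.BoxFlow.Eff1

set_option autoImplicit false
open scoped ContDiff

namespace Crest.Agent.BoxFlow

theorem e1f_sum_range_two_mul {M : Type*} [AddCommMonoid M] (g : ℕ → M) (n : ℕ) :
    ∑ i ∈ Finset.range (2 * n), g i = ∑ i ∈ Finset.range n, (g (2 * i) + g (2 * i + 1)) := by
  induction n with
  | zero => simp
  | succ n ih =>
    have e : 2 * (n + 1) = 2 * n + 1 + 1 := by ring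
    rw [e, Finset.sum_range_succ, Finset.sum_range_succ, ih, Finset.sum_range_succ, add_assoc]

theorem e1f_tri (k : ℕ) : (k + 1) * (k + 1 + 1) / 2 = k * (k + 1) / 2 + (k + 1) := by
  have e : (k + 1) * (k + 1 + 1) = k * (k + 1) + 2 * (k + 1) := by ring
  rw [e, Nat.add_mul_div_left _ _ (by norm_num)]

/-- closed formula for all derivatives of the Fabius function. -/
theorem iteratedDeriv_fab (k : ℕ) (x : ℝ) :
    iteratedDeriv k fab x =
      2 ^ (k * (k + 1) / 2) * ∑ J ∈ Finset.range (2 ^ k), ((tm J : ℚ) : ℝ) * fab (2 ^ k * x - J) := by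
  induction k generalizing x with
  | zero => simp [tm_zero]
  | succ k ih =>
    rw [iteratedDeriv_succ]
    have hfun : iteratedDeriv k fab = fun x : ℝ => 2 ^ (k * (k + 1) / 2) *
        ∑ J ∈ Finset.range (2 ^ k), ((tm J : ℚ) : ℝ) * fab (2 ^ k * x - J) := funext ih
    rw [hfun]
    have hterm : ∀ J : ℕ, HasDerivAt (fun x : ℝ => ((tm J : ℚ) : ℝ) * fab (2 ^ k * x - J))
        (((tm J : ℚ) : ℝ) * ((2 * fab (2 * (2 ^ k * x - J)) - 2 * fab (2 * (2 ^ k * x - J) - 1))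
          * 2 ^ k)) x := by
      intro J
      have d1 : HasDerivAt (fun x : ℝ => (2 : ℝ) ^ k * x - J) (2 ^ k) x := by
        simpa using ((hasDerivAt_id x).const_mul ((2 : ℝ) ^ k)).sub_const (J : ℝ)
      exact ((fab_hasDerivAt _).comp x d1).const_mul _
    have hsum := (HasDerivAt.fun_sum (u := Finset.range (2 ^ k)) fun J _ => hterm J).const_mul
      ((2 : ℝ) ^ (k * (k + 1) / 2))
    have hrN : (2 : ℕ) ^ (k + 1) = 2 * 2 ^ k := by rw [pow_succ, mul_comm]
    have hrR : (2 : ℝ) ^ (k + 1) = 2 * 2 ^ k := by rw [pow_succ, mul_comm]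
    rw [hsum.deriv, e1f_tri, pow_add, hrN, hrR, e1f_sum_range_two_mul, mul_assoc]
    congr 1
    rw [Finset.mul_sum]
    refine Finset.sum_congr rfl fun J _ => ?_
    rw [tm_two_mul, tm_two_mul_add_one]
    have a1 : 2 * (2 ^ k * x - (J : ℝ)) = 2 * 2 ^ k * x - ((2 * J : ℕ) : ℝ) := by
      push_cast; ring
    have a2 : 2 * (2 ^ k * x - (J : ℝ)) - 1 = 2 * 2 ^ k * x - ((2 * J + 1 : ℕ) : ℝ) := by
      push_cast; ring
    rw [a2, a1]
    push_cast
    ring

theorem e1f_abs_tm (J : ℕ) : |((tm J : ℚ) : ℝ)| = 1 := by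
  have := abs_tm J
  rw [← Rat.cast_abs, this]; simp

/-- the constant `2^(k(k+1)/2) * 2^k`. -/
def e1fB (k : ℕ) : ℕ := 2 ^ (k * (k + 1) / 2) * 2 ^ k

theorem e1f_primrec_tri : Primrec (fun k : ℕ => k * (k + 1) / 2) :=
  Primrec.nat_div.comp (Primrec.nat_mul.comp Primrec.id Primrec.succ) (Primrec.const 2)

theorem e1f_primrec_B : Primrec e1fB :=
  Primrec.nat_mul.comp (primrec_nat_pow.comp (Primrec.const 2) e1f_primrec_tri)
    (primrec_nat_pow.comp (Primrec.const 2) Primrec.id)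

/-- the evaluator. -/
def e1fE (p : ℕ × ℚ × ℕ) : ℚ :=
  (2 : ℚ) ^ (p.1 * (p.1 + 1) / 2) * ∑ J ∈ Finset.range (2 ^ p.1),
    tm J * fabApprox ((2 : ℚ) ^ p.1 * p.2.1 - (J : ℚ)) (e1fB p.1 * (p.2.2 + 1))

theorem e1f_computable_E : Computable e1fE := by
  have hk : Computable (fun p : ℕ × ℚ × ℕ => p.1) := Computable.fst
  have hx : Computable (fun p : ℕ × ℚ × ℕ => p.2.1) := Computable.fst.comp Computable.snd
  have hn : Computable (fun p : ℕ × ℚ × ℕ => p.2.2) := Computable.snd.comp Computable.snd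
  refine Computable.rat_mul (Computable.rat_pow (Computable.const 2)
    (e1f_primrec_tri.to_comp.comp hk)) ?_
  refine Computable.rat_sum_range ?_ (primrec_nat_pow.to_comp.comp (Computable.const 2) hk)
  have hk' : Computable (fun q : (ℕ × ℚ × ℕ) × ℕ => q.1.1) := hk.comp Computable.fst
  have hx' : Computable (fun q : (ℕ × ℚ × ℕ) × ℕ => q.1.2.1) := hx.comp Computable.fst
  have hn' : Computable (fun q : (ℕ × ℚ × ℕ) × ℕ => q.1.2.2) := hn.comp Computable.fst
  have hJ : Computable (fun q : (ℕ × ℚ × ℕ) × ℕ => q.2) := Computable.snd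
  show Computable (fun q : (ℕ × ℚ × ℕ) × ℕ =>
    tm q.2 * fabApprox ((2 : ℚ) ^ q.1.1 * q.1.2.1 - (q.2 : ℚ)) (e1fB q.1.1 * (q.1.2.2 + 1)))
  refine Computable.rat_mul (computable_tm.comp hJ) ?_
  refine computable_fabApprox.comp
    (Computable.rat_sub (Computable.rat_mul (Computable.rat_pow (Computable.const 2) hk') hx')
      (Computable.rat_natCast hJ)) ?_
  exact Primrec.nat_mul.to_comp.comp (e1f_primrec_B.to_comp.comp hk') (Computable.succ.comp hn')

theorem Eff1.fab : Eff1 fab := by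
  refine ⟨fab_contDiff, e1fE, e1fB, e1f_computable_E, e1f_primrec_B.to_comp, ?_, ?_⟩
  · intro k x n
    rw [iteratedDeriv_fab]
    set c : ℝ := 2 ^ (k * (k + 1) / 2) with hc
    have hc0 : 0 < c := by positivity
    set N : ℕ := e1fB k * (n + 1) with hN
    have hE : ((e1fE (k, x, n) : ℚ) : ℝ) = c * ∑ J ∈ Finset.range (2 ^ k),
        ((tm J : ℚ) : ℝ) * ((fabApprox ((2 : ℚ) ^ k * x - (J : ℚ)) N : ℚ) : ℝ) := by
      simp only [e1fE]
      push_cast
      rfl
    rw [hE, ← mul_sub, ← Finset.sum_sub_distrib, abs_mul, abs_of_pos hc0]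
    have hterm : ∀ J ∈ Finset.range (2 ^ k),
        |((tm J : ℚ) : ℝ) * BoxFlow.fab (2 ^ k * (x : ℝ) - J)
          - ((tm J : ℚ) : ℝ) * ((fabApprox ((2 : ℚ) ^ k * x - (J : ℚ)) N : ℚ) : ℝ)|
          ≤ 1 / ((N : ℝ) + 1) := by
      intro J _
      rw [← mul_sub, abs_mul, e1f_abs_tm, one_mul]
      have := fabApprox_spec ((2 : ℚ) ^ k * x - (J : ℚ)) N
      push_cast at this
      exact this
    have hsum := (Finset.abs_sum_le_sum_abs _ _).trans (Finset.sum_le_sum hterm)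
    rw [Finset.sum_const, Finset.card_range, nsmul_eq_mul] at hsum
    have hNval : (N : ℝ) = c * 2 ^ k * ((n : ℝ) + 1) := by
      rw [hN, e1fB]; push_cast; rfl
    have hn0 : (0 : ℝ) < (n : ℝ) + 1 := by positivity
    calc c * |∑ J ∈ Finset.range (2 ^ k), (((tm J : ℚ) : ℝ) * BoxFlow.fab (2 ^ k * (x : ℝ) - J)
          - ((tm J : ℚ) : ℝ) * ((fabApprox ((2 : ℚ) ^ k * x - (J : ℚ)) N : ℚ) : ℝ))|
        ≤ c * (((2 ^ k : ℕ) : ℝ) * (1 / ((N : ℝ) + 1))) := by gcongr
      _ ≤ 1 / ((n : ℝ) + 1) := by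
        rw [hNval]
        push_cast
        rw [← mul_assoc, mul_one_div, div_le_div_iff₀ (by positivity) hn0]
        nlinarith [mul_pos hc0 (pow_pos (two_pos : (0 : ℝ) < 2) k)]
  · intro k y
    rw [iteratedDeriv_fab, abs_mul, abs_of_pos (by positivity : (0 : ℝ) < 2 ^ (k * (k + 1) / 2))]
    have hterm : ∀ J ∈ Finset.range (2 ^ k),
        |((tm J : ℚ) : ℝ) * BoxFlow.fab (2 ^ k * y - J)| ≤ 1 := by
      intro J _
      rw [abs_mul, e1f_abs_tm, one_mul, abs_of_nonneg (fab_nonneg _)]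
      exact fab_le_one _
    have hsum := (Finset.abs_sum_le_sum_abs _ _).trans (Finset.sum_le_sum hterm)
    rw [Finset.sum_const, Finset.card_range, nsmul_eq_mul, mul_one] at hsum
    rw [e1fB]
    push_cast at hsum ⊢
    gcongr

end Crest.Agent.BoxFlow
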