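/-
BoxFlow / T9 : calculus of tensor-product fields  p ↦ (∏_d g_d (coord_d p)) e_j ; additivity of
`mixedDeriv`, `spaceDiv`.  (No computability here.)
-/
import Crest.Prelude.Def_BoxFlow
import Mathlib

set_option autoImplicit false
open scoped ContDiff
open Crest.AnalysisR.BoxFlow

namespace Crest.Agent.BoxFlow

/-- the four coordinates of a space-time point; index `0` is time, `j.succ` is the space
coordinate `j`. -/
def coord (d : Fin 4) (p : ℝ × (Fin 3 → ℝ)) : ℝ := Fin.cons (α := fun _ => ℝ) p.1 p.2 d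

@[simp] theorem coord_zero (p : ℝ × (Fin 3 → ℝ)) : coord 0 p = p.1 := rfl
@[simp] theorem coord_succ (j : Fin 3) (p : ℝ × (Fin 3 → ℝ)) : coord j.succ p = p.2 j := rfl

/-- tensor-product field in the direction `e_j`. -/
noncomputable def tens (g : Fin 4 → ℝ → ℝ) (j : Fin 3) : Field :=
  fun p => Pi.single j (∏ d : Fin 4, g d (coord d p))

/-- `coord d` as a continuous linear map. -/
noncomputable def coordL (d : Fin 4) : (ℝ × (Fin 3 → ℝ)) →L[ℝ] ℝ :=
  Fin.cases (motive := fun _ => (ℝ × (Fin 3 → ℝ)) →L[ℝ] ℝ)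
    (ContinuousLinearMap.fst ℝ ℝ (Fin 3 → ℝ))
    (fun j => (ContinuousLinearMap.proj j).comp (ContinuousLinearMap.snd ℝ ℝ (Fin 3 → ℝ))) d

theorem coordL_apply (d : Fin 4) (p : ℝ × (Fin 3 → ℝ)) : coordL d p = coord d p := by
  refine Fin.cases ?_ (fun j => ?_) d <;> rfl

theorem direction_zero : direction 0 = (1, 0) := by simp [direction]

theorem direction_succ (j : Fin 3) : direction j.succ = (0, Pi.single j 1) := by
  simp [direction, Fin.succ_ne_zero]

theorem coord_direction (i d : Fin 4) : coord i (direction d) = if i = d then 1 else 0 := by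
  refine Fin.cases ?_ (fun j => ?_) d
  · rw [direction_zero]
    refine Fin.cases ?_ (fun k => ?_) i
    · simp
    · simp [Fin.succ_ne_zero]
  · rw [direction_succ]
    refine Fin.cases ?_ (fun k => ?_) i
    · simp [(Fin.succ_ne_zero j).symm]
    · simp [Pi.single_apply, Fin.succ_inj]

theorem contDiff_coord (d : Fin 4) : ContDiff ℝ ∞ (coord d) := by
  have : coord d = coordL d := by ext p; rw [coordL_apply]
  rw [this]; exact (coordL d).contDiff

theorem tens_eq (g : Fin 4 → ℝ → ℝ) (j : Fin 3) :
    tens g j = fun p => ContinuousLinearMap.single ℝ (fun _ : Fin 3 => ℝ) j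
      (∏ d : Fin 4, g d (coord d p)) := rfl

theorem tens_contDiff {g : Fin 4 → ℝ → ℝ} (hg : ∀ d, ContDiff ℝ ∞ (g d)) (j : Fin 3) :
    ContDiff ℝ ∞ (tens g j) := by
  rw [tens_eq]
  refine (ContinuousLinearMap.contDiff _).comp ?_
  exact contDiff_prod fun d _ => (hg d).comp (contDiff_coord d)

theorem hasFDerivAt_tens {g : Fin 4 → ℝ → ℝ} (hg : ∀ d, ContDiff ℝ ∞ (g d)) (j : Fin 3)
    (p : ℝ × (Fin 3 → ℝ)) :
    HasFDerivAt (tens g j) ((ContinuousLinearMap.single ℝ (fun _ : Fin 3 => ℝ) j).comp
      (∑ i : Fin 4, (∏ k ∈ Finset.univ.erase i, g k (coord k p)) •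
        (deriv (g i) (coord i p) • coordL i))) p := by
  rw [tens_eq]
  refine (ContinuousLinearMap.hasFDerivAt _).comp p ?_
  refine HasFDerivAt.finsetProd fun i _ => ?_
  have h1 : HasDerivAt (g i) (deriv (g i) (coord i p)) (coord i p) :=
    ((hg i).differentiable (by simp)).differentiableAt.hasDerivAt
  have h2 : HasFDerivAt (coord i) (coordL i) p := by
    have : coord i = coordL i := by ext p; rw [coordL_apply]
    rw [this]; exact (coordL i).hasFDerivAt
  exact h1.comp_hasFDerivAt p h2

/-- one directional derivative of a tensor field. -/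
theorem fderiv_tens {g : Fin 4 → ℝ → ℝ} (hg : ∀ d, ContDiff ℝ ∞ (g d)) (j : Fin 3) (d : Fin 4)
    (p : ℝ × (Fin 3 → ℝ)) :
    fderiv ℝ (tens g j) p (direction d) = tens (Function.update g d (deriv (g d))) j p := by
  rw [(hasFDerivAt_tens hg j p).fderiv]
  simp only [ContinuousLinearMap.comp_apply, sum_apply,
    smul_apply, coordL_apply, coord_direction, smul_eq_mul]
  rw [tens_eq]
  congr 1
  rw [Finset.sum_eq_single d]
  · rw [if_pos rfl, mul_one, ← Finset.mul_prod_erase Finset.univ _ (Finset.mem_univ d),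
      Function.update_self, mul_comm]
    congr 1
    refine Finset.prod_congr rfl fun k hk => ?_
    rw [Function.update_of_ne (Finset.ne_of_mem_erase hk)]
  · intro i _ hi
    rw [if_neg hi]; simp
  · intro h; exact absurd (Finset.mem_univ d) h

theorem contDiff_iteratedDeriv {f : ℝ → ℝ} (hf : ContDiff ℝ ∞ f) (n : ℕ) :
    ContDiff ℝ ∞ (iteratedDeriv n f) := by
  rw [iteratedDeriv_eq_iterate]; exact hf.iterate_deriv n

theorem mixedDeriv_tens {g : Fin 4 → ℝ → ℝ} (hg : ∀ d, ContDiff ℝ ∞ (g d)) (j : Fin 3)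
    (ds : List (Fin 4)) :
    mixedDeriv ds (tens g j) = tens (fun d => iteratedDeriv (ds.count d) (g d)) j := by
  induction ds with
  | nil =>
    simp only [mixedDeriv, List.count_nil, iteratedDeriv_zero]
  | cons d ds ih =>
    funext p
    show fderiv ℝ (mixedDeriv ds (tens g j)) p (direction d) = _
    rw [ih, fderiv_tens (fun d => contDiff_iteratedDeriv (hg d) _)]
    congr 2
    funext d'
    by_cases h : d' = d
    · subst h
      rw [Function.update_self, List.count_cons_self, iteratedDeriv_succ]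
    · rw [Function.update_of_ne h, List.count_cons_of_ne (Ne.symm h)]

theorem spaceDiv_tens {g : Fin 4 → ℝ → ℝ} (hg : ∀ d, ContDiff ℝ ∞ (g d)) (j : Fin 3)
    (p : ℝ × (Fin 3 → ℝ)) :
    spaceDiv (tens g j) p =
      ∏ d : Fin 4, (Function.update g j.succ (deriv (g j.succ))) d (coord d p) := by
  unfold spaceDiv
  simp only [← direction_succ, fderiv_tens hg]
  rw [Finset.sum_eq_single j]
  · simp [tens]
  · intro i _ hi
    simp [tens, hi]
  · intro h; exact absurd (Finset.mem_univ j) h

theorem tens_hasCompactSupport {g : Fin 4 → ℝ → ℝ} (hg : ∀ d, HasCompactSupport (g d))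
    (j : Fin 3) : HasCompactSupport (tens g j) := by
  have hK : IsCompact ((tsupport (g 0)) ×ˢ
      (Set.pi Set.univ fun i : Fin 3 => tsupport (g i.succ))) :=
    (hg 0).isCompact.prod (isCompact_univ_pi fun i => (hg i.succ).isCompact)
  refine HasCompactSupport.intro hK fun p hp => ?_
  have : ∃ d, g d (coord d p) = 0 := by
    by_contra hcon
    push Not at hcon
    apply hp
    refine ⟨?_, fun i _ => ?_⟩
    · exact subset_tsupport _ (hcon 0)
    · exact subset_tsupport _ (hcon i.succ)
  obtain ⟨d, hd⟩ := this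
  unfold tens
  rw [Finset.prod_eq_zero (Finset.mem_univ d) hd, Pi.single_zero]

/-! ### general closure properties -/

theorem contDiff_mixedDeriv {U : Field} (hU : ContDiff ℝ ∞ U) (ds : List (Fin 4)) :
    ContDiff ℝ ∞ (mixedDeriv ds U) := by
  induction ds with
  | nil => exact hU
  | cons d ds ih =>
    show ContDiff ℝ ∞ (fun p => fderiv ℝ (mixedDeriv ds U) p (direction d))
    exact (ih.fderiv_right (m := ∞) (by simp)).clm_apply contDiff_const

theorem mixedDeriv_add {U V : Field} (hU : ContDiff ℝ ∞ U) (hV : ContDiff ℝ ∞ V)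
    (ds : List (Fin 4)) : mixedDeriv ds (U + V) = mixedDeriv ds U + mixedDeriv ds V := by
  induction ds with
  | nil => rfl
  | cons d ds ih =>
    funext p
    show fderiv ℝ (mixedDeriv ds (U + V)) p (direction d) =
      fderiv ℝ (mixedDeriv ds U) p (direction d) + fderiv ℝ (mixedDeriv ds V) p (direction d)
    rw [ih, fderiv_add]
    · rfl
    · exact ((contDiff_mixedDeriv hU ds).differentiable (by simp)).differentiableAt
    · exact ((contDiff_mixedDeriv hV ds).differentiable (by simp)).differentiableAt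

theorem mixedDeriv_neg {U : Field} (ds : List (Fin 4)) :
    mixedDeriv ds (-U) = - mixedDeriv ds U := by
  induction ds with
  | nil => rfl
  | cons d ds ih =>
    funext p
    show fderiv ℝ (mixedDeriv ds (-U)) p (direction d) =
      - fderiv ℝ (mixedDeriv ds U) p (direction d)
    rw [ih, fderiv_neg]
    rfl

theorem spaceDiv_add {U V : Field} (hU : ContDiff ℝ ∞ U) (hV : ContDiff ℝ ∞ V)
    (p : ℝ × (Fin 3 → ℝ)) : spaceDiv (U + V) p = spaceDiv U p + spaceDiv V p := by
  unfold spaceDiv
  rw [fderiv_add ((hU.differentiable (by simp)).differentiableAt)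
    ((hV.differentiable (by simp)).differentiableAt), ← Finset.sum_add_distrib]
  rfl

theorem spaceDiv_sub {U V : Field} (hU : ContDiff ℝ ∞ U) (hV : ContDiff ℝ ∞ V)
    (p : ℝ × (Fin 3 → ℝ)) : spaceDiv (U - V) p = spaceDiv U p - spaceDiv V p := by
  unfold spaceDiv
  rw [fderiv_sub ((hU.differentiable (by simp)).differentiableAt)
    ((hV.differentiable (by simp)).differentiableAt), ← Finset.sum_sub_distrib]
  rfl

theorem spaceDiv_zero (p : ℝ × (Fin 3 → ℝ)) : spaceDiv (0 : Field) p = 0 := by
  unfold spaceDiv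
  have : fderiv ℝ (0 : Field) p = 0 := by
    simp
  rw [this]; simp

end Crest.Agent.BoxFlow
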