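/-
BoxFlow / T10 : `Effective` for tensor-product fields and closure of `Effective` under +, -, neg.

`effective_tens`: with `k_d = ds.count d`, `(E_d, B_d)` the data of `g d`,
  `E (ds,(t,q),n) = Pi.single j (∏_d E_d (k_d, coord_d, N))`, `N + 1 = 4 (n+1) ∏_d (B_d k_d + 1)` (or anything
  that works), `bound ds = ∏_d B_d k_d`; use `mixedDeriv_tens`.
-/
import Crest.Agent.BoxFlow.Tensor
import Crest.Agent.BoxFlow.Eff1

set_option autoImplicit false
open scoped ContDiff
open Crest.AnalysisR.BoxFlow

namespace Crest.Agent.BoxFlow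

/-- the argument type of the evaluation function in `Effective`. -/
abbrev EArg : Type := List (Fin 4) × (ℚ × (Fin 3 → ℚ)) × ℕ

theorem ea_ds : Computable (fun p : EArg => p.1) := Computable.fst
theorem ea_t : Computable (fun p : EArg => p.2.1.1) :=
  Computable.fst.comp (Computable.fst.comp Computable.snd)
theorem ea_q : Computable (fun p : EArg => p.2.1.2) :=
  Computable.snd.comp (Computable.fst.comp Computable.snd)
theorem ea_tq : Computable (fun p : EArg => p.2.1) := Computable.fst.comp Computable.snd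
theorem ea_n : Computable (fun p : EArg => p.2.2) := Computable.snd.comp Computable.snd

theorem primrec_count (d : Fin 4) : Primrec (fun ds : List (Fin 4) => ds.count d) := by
  have h : Primrec (fun ds : List (Fin 4) =>
      ds.foldr (fun b s => if b = d then s + 1 else s) 0) := by
    refine Primrec.list_foldr (h := fun _ (bs : Fin 4 × ℕ) => if bs.1 = d then bs.2 + 1 else bs.2)
      Primrec.id (Primrec.const 0) ?_
    refine Primrec.ite (Primrec.eq.comp (Primrec.fst.comp Primrec.snd) (Primrec.const d))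
      (Primrec.succ.comp (Primrec.snd.comp Primrec.snd)) (Primrec.snd.comp Primrec.snd)
  refine h.of_eq fun ds => ?_
  induction ds with
  | nil => simp
  | cons a l ih =>
    simp only [List.foldr_cons, ih, List.count_cons]
    by_cases hh : a = d <;> simp [hh]

theorem computable_count (d : Fin 4) : Computable (fun ds : List (Fin 4) => ds.count d) :=
  (primrec_count d).to_comp

section
variable {α : Type*} [Primcodable α]

theorem cq_prod4 {f : Fin 4 → α → ℚ} (hf : ∀ d, Computable (f d)) :
    Computable (fun a => ∏ d : Fin 4, f d a) := by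
  simp only [Fin.prod_univ_four]
  exact cq_mul (cq_mul (cq_mul (hf 0) (hf 1)) (hf 2)) (hf 3)

theorem cn_prod4 {f : Fin 4 → α → ℕ} (hf : ∀ d, Computable (f d)) :
    Computable (fun a => ∏ d : Fin 4, f d a) := by
  simp only [Fin.prod_univ_four]
  exact cn_mul (cn_mul (cn_mul (hf 0) (hf 1)) (hf 2)) (hf 3)

end

/-- rational coordinates of a rational space-time point. -/
def qcoord (d : Fin 4) (p : EArg) : ℚ := Fin.cons (α := fun _ => ℚ) p.2.1.1 p.2.1.2 d

theorem computable_qcoord (d : Fin 4) : Computable (qcoord d) := by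
  refine Fin.cases ?_ (fun j => ?_) d
  · exact ea_t
  · exact (computable_fin3_app j).comp ea_q

theorem coord_rat (d : Fin 4) (ds : List (Fin 4)) (t : ℚ) (q : Fin 3 → ℚ) (n : ℕ) :
    coord d ((t : ℝ), ratPoint q) = ((qcoord d (ds, (t, q), n) : ℚ) : ℝ) := by
  refine Fin.cases ?_ (fun j => ?_) d
  · rfl
  · rfl

/-- error of a finite product. -/
theorem prod_approx {ι : Type*} [DecidableEq ι] (s : Finset ι) (D e b : ι → ℝ) (δ : ℝ)
    (hδ1 : δ ≤ 1) (hD : ∀ i, |D i| ≤ b i) (he : ∀ i, |D i - e i| ≤ δ) :
    |∏ i ∈ s, D i - ∏ i ∈ s, e i| ≤ s.card * δ * ∏ i ∈ s, (b i + 1) := by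
  have hb : ∀ i, 0 ≤ b i := fun i => (abs_nonneg _).trans (hD i)
  have hebound : ∀ i, |e i| ≤ b i + 1 := by
    intro i
    have h1 : |e i| ≤ |D i| + |D i - e i| := by
      calc |e i| = |D i - (D i - e i)| := by congr 1; ring
        _ ≤ _ := abs_sub _ _
    linarith [hD i, he i]
  induction s using Finset.induction_on with
  | empty => simp
  | insert a s ha ih =>
    by_cases hne : Nonempty ι
    · have hδ0 : 0 ≤ δ := (abs_nonneg _).trans (he a)
      rw [Finset.prod_insert ha, Finset.prod_insert ha, Finset.prod_insert ha,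
        Finset.card_insert_of_notMem ha]
      have hP : 0 ≤ ∏ i ∈ s, (b i + 1) := Finset.prod_nonneg fun i _ => by linarith [hb i]
      have hes : |∏ i ∈ s, e i| ≤ ∏ i ∈ s, (b i + 1) := by
        rw [Finset.abs_prod]
        exact Finset.prod_le_prod (fun i _ => abs_nonneg _) (fun i _ => hebound i)
      have e1 : D a * ∏ i ∈ s, D i - e a * ∏ i ∈ s, e i
          = D a * (∏ i ∈ s, D i - ∏ i ∈ s, e i) + (D a - e a) * ∏ i ∈ s, e i := by ring
      rw [e1]
      refine (abs_add_le _ _).trans ?_
      rw [abs_mul, abs_mul]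
      have t1 : |D a| * |∏ i ∈ s, D i - ∏ i ∈ s, e i|
          ≤ b a * (s.card * δ * ∏ i ∈ s, (b i + 1)) :=
        mul_le_mul (hD a) ih (abs_nonneg _) (hb a)
      have t2 : |D a - e a| * |∏ i ∈ s, e i| ≤ δ * ∏ i ∈ s, (b i + 1) :=
        mul_le_mul (he a) hes (abs_nonneg _) hδ0
      push_cast
      have hc : (0 : ℝ) ≤ s.card := Nat.cast_nonneg _
      nlinarith [mul_nonneg (mul_nonneg hc hδ0) hP, mul_nonneg (mul_nonneg (hb a) hδ0) hP]
    · exact absurd ⟨a⟩ hne

theorem effective_tens {g : Fin 4 → ℝ → ℝ} (hg : ∀ d, Eff1 (g d)) (j : Fin 3) :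
    Effective (tens g j) := by
  choose E B hE hB h1 h2 using fun d => (hg d).eff
  have hsm : ∀ d, ContDiff ℝ ∞ (g d) := fun d => (hg d).smooth
  let N : EArg → ℕ := fun p => 4 * (p.2.2 + 1) * ∏ d : Fin 4, (B d (p.1.count d) + 1)
  have hcnt : ∀ d, Computable (fun p : EArg => p.1.count d) := fun d =>
    (computable_count d).comp ea_ds
  have hN : Computable N :=
    cn_mul (cn_mul (Computable.const 4) (cn_add ea_n (Computable.const 1)))
      (cn_prod4 fun d => cn_add ((hB d).comp (hcnt d)) (Computable.const 1))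
  let P : EArg → ℚ := fun p => ∏ d : Fin 4, E d (p.1.count d, qcoord d p, N p)
  have hP : Computable P := cq_prod4 fun d => cE (hE d) (hcnt d) (computable_qcoord d) hN
  refine ⟨fun p => fun j' => if j' = j then P p else 0,
    fun ds => ∏ d : Fin 4, B d (ds.count d), ?_, ?_, ?_, ?_⟩
  · refine computable_fin3_mk (f := fun j' p => if j' = j then P p else 0) fun j' => ?_
    by_cases h : j' = j
    · simpa [h] using hP
    · simpa [h] using (Computable.const (0 : ℚ))
  · exact cn_prod4 fun d => (hB d).comp (computable_count d)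
  · intro ds t q n j'
    rw [mixedDeriv_tens hsm]
    by_cases h : j' = j
    · subst h
      simp only [tens, Pi.single_eq_same, if_true]
      simp only [P]
      push_cast
      have hn : (0 : ℝ) < (n : ℝ) + 1 := by positivity
      set p : EArg := (ds, (t, q), n) with hp
      have hδ1 : (1 : ℝ) / ((N p : ℝ) + 1) ≤ 1 := by
        rw [div_le_one (by positivity)]; linarith [(Nat.cast_nonneg (N p) : (0 : ℝ) ≤ N p)]
      have key := prod_approx (Finset.univ : Finset (Fin 4))
        (fun d => iteratedDeriv (ds.count d) (g d) (coord d ((t : ℝ), ratPoint q)))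
        (fun d => ((E d (ds.count d, qcoord d p, N p) : ℚ) : ℝ))
        (fun d => (B d (ds.count d) : ℝ)) (1 / ((N p : ℝ) + 1)) hδ1
        (fun d => h2 d _ _)
        (fun d => by
          rw [coord_rat d ds t q n]
          exact h1 d (ds.count d) (qcoord d p) (N p))
      refine key.trans ?_
      have hQ : (0 : ℝ) < ∏ d : Fin 4, ((B d (ds.count d) : ℝ) + 1) :=
        Finset.prod_pos fun d _ => by positivity
      have hNp : (N p : ℝ) = 4 * ((n : ℝ) + 1) * ∏ d : Fin 4, ((B d (ds.count d) : ℝ) + 1) := by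
        simp only [N, hp]; push_cast; ring
      rw [hNp]
      simp only [Finset.card_univ, Fintype.card_fin]
      set Q := ∏ d : Fin 4, ((B d (ds.count d) : ℝ) + 1) with hQdef
      push_cast
      rw [mul_one_div, div_mul_eq_mul_div, div_le_div_iff₀ (by positivity) hn]
      nlinarith [mul_pos hn hQ]
    · simp only [tens, Pi.single_eq_of_ne h, if_neg h]
      simp
      positivity
  · intro ds p j'
    rw [mixedDeriv_tens hsm]
    push_cast
    by_cases h : j' = j
    · subst h
      simp only [tens, Pi.single_eq_same]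
      rw [Finset.abs_prod]
      exact Finset.prod_le_prod (fun d _ => abs_nonneg _) (fun d _ => h2 d _ _)
    · simp only [tens, Pi.single_eq_of_ne h, abs_zero]
      positivity

theorem mixedDeriv_zero (ds : List (Fin 4)) : mixedDeriv ds (0 : Field) = 0 := by
  induction ds with
  | nil => rfl
  | cons d ds ih =>
    funext p
    simp only [mixedDeriv, ih]
    simp

theorem effective_zero : Effective (0 : Field) := by
  refine ⟨fun _ => 0, fun _ => 0, Computable.const _, Computable.const _, ?_, ?_⟩
  · intro ds t q n j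
    rw [mixedDeriv_zero]
    simp
    positivity
  · intro ds p j
    rw [mixedDeriv_zero]
    simp

theorem effective_add {U V : Field} (hU : ContDiff ℝ ∞ U) (hV : ContDiff ℝ ∞ V)
    (eU : Effective U) (eV : Effective V) : Effective (U + V) := by
  obtain ⟨EU, BU, hEU, hBU, h1U, h2U⟩ := eU
  obtain ⟨EV, BV, hEV, hBV, h1V, h2V⟩ := eV
  have harg : Computable (fun p : EArg => ((p.1, p.2.1, 2 * p.2.2 + 1) : EArg)) :=
    ea_ds.pair (ea_tq.pair (cn_add (cn_mul (Computable.const 2) ea_n) (Computable.const 1)))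
  refine ⟨fun (p : EArg) => fun j =>
      EU (p.1, p.2.1, 2 * p.2.2 + 1) j + EV (p.1, p.2.1, 2 * p.2.2 + 1) j,
    fun ds => BU ds + BV ds, ?_, cn_add hBU hBV, ?_, ?_⟩
  · refine computable_fin3_mk (α := EArg)
      (f := fun j (p : EArg) =>
        EU (p.1, p.2.1, 2 * p.2.2 + 1) j + EV (p.1, p.2.1, 2 * p.2.2 + 1) j)
      fun j => ?_
    exact cq_add ((computable_fin3_app j).comp (hEU.comp harg))
      ((computable_fin3_app j).comp (hEV.comp harg))
  · intro ds t q n j
    rw [mixedDeriv_add hU hV]
    have a1 := h1U ds t q (2 * n + 1) j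
    have a2 := h1V ds t q (2 * n + 1) j
    have e : (1 : ℝ) / (((2 * n + 1 : ℕ) : ℝ) + 1) = (1 / ((n : ℝ) + 1)) / 2 := by
      push_cast; field_simp; ring
    rw [e] at a1 a2
    simp only [Pi.add_apply]
    push_cast
    rw [abs_le] at a1 a2 ⊢
    constructor <;> linarith [a1.1, a1.2, a2.1, a2.2]
  · intro ds p j
    rw [mixedDeriv_add hU hV]
    simp only [Pi.add_apply]
    push_cast
    exact (abs_add_le _ _).trans (add_le_add (h2U ds p j) (h2V ds p j))

theorem effective_neg {U : Field} (eU : Effective U) : Effective (-U) := by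
  obtain ⟨EU, BU, hEU, hBU, h1U, h2U⟩ := eU
  refine ⟨fun p => fun j => - EU p j, BU, ?_, hBU, ?_, ?_⟩
  · exact computable_fin3_mk (f := fun j p => - EU p j)
      fun j => cq_neg ((computable_fin3_app j).comp hEU)
  · intro ds t q n j
    rw [mixedDeriv_neg]
    simp only [Pi.neg_apply]
    push_cast
    have := h1U ds t q n j
    rwa [show -mixedDeriv ds U ((t : ℝ), ratPoint q) j - -((EU (ds, (t, q), n) j : ℚ) : ℝ)
      = -(mixedDeriv ds U ((t : ℝ), ratPoint q) j - ((EU (ds, (t, q), n) j : ℚ) : ℝ)) by ring,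
      abs_neg]
  · intro ds p j
    rw [mixedDeriv_neg]
    simp only [Pi.neg_apply, abs_neg]
    exact h2U ds p j

theorem effective_sub {U V : Field} (hU : ContDiff ℝ ∞ U) (hV : ContDiff ℝ ∞ V)
    (eU : Effective U) (eV : Effective V) : Effective (U - V) := by
  rw [sub_eq_add_neg]
  exact effective_add hU hV.neg eU (effective_neg eV)

end Crest.Agent.BoxFlow
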