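/-
BoxFlow / T12 : good fields and the relation `Reach` (reflexive, transitive).

`Reach.trans`: split the window `[s,e]` into `[s, s+(e-s)/3]` and `[s+2(e-s)/3, e]`, use `Good.add`,
`isFlow_concat`; new neighbourhood `O_i ∩ (affMap (C i) (C' i)) ⁻¹' O'_i`.
-/
import Crest.Prelude.Def_BoxFlow
import Crest.Agent.BoxFlow.TensorEff
import Crest.Agent.BoxFlow.Curve

set_option autoImplicit false
open scoped ContDiff
open Crest.AnalysisR.BoxFlow

namespace Crest.Agent.BoxFlow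

/-- all the requirements on the velocity field, with time support in `[s,e]`. -/
structure Good (U : Field) (s e : ℝ) : Prop where
  smooth : ContDiff ℝ ∞ U
  compact : HasCompactSupport U
  eff : Effective U
  time : ∀ p : ℝ × (Fin 3 → ℝ), p.1 ∉ Set.Icc s e → U p = 0
  div : ∀ p : ℝ × (Fin 3 → ℝ), spaceDiv U p = 0

theorem Good.zero (s e : ℝ) : Good (0 : Field) s e where
  smooth := contDiff_const
  compact := HasCompactSupport.zero
  eff := effective_zero
  time := fun _ _ => rfl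
  div := spaceDiv_zero

theorem Good.add {U V : Field} {s₁ e₁ s₂ e₂ s e : ℝ} (hU : Good U s₁ e₁) (hV : Good V s₂ e₂)
    (h1 : s ≤ s₁) (h2 : s ≤ s₂) (h3 : e₁ ≤ e) (h4 : e₂ ≤ e) : Good (U + V) s e where
  smooth := hU.smooth.add hV.smooth
  compact := hU.compact.add hV.compact
  eff := effective_add hU.smooth hV.smooth hU.eff hV.eff
  time := fun p hp => by
    rw [Pi.add_apply, hU.time p (fun h => hp ⟨h1.trans h.1, h.2.trans h3⟩),
      hV.time p (fun h => hp ⟨h2.trans h.1, h.2.trans h4⟩), add_zero]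
  div := fun p => by rw [spaceDiv_add hU.smooth hV.smooth, hU.div, hV.div, add_zero]

/-- A configuration of `n` boxes: centre and half-widths. -/
abbrev Conf (n : ℕ) : Type := Fin n → (Fin 3 → ℚ) × (Fin 3 → ℚ)

/-- all half-widths positive -/
def Conf.Pos {n : ℕ} (C : Conf n) : Prop := ∀ i j, 0 < (C i).2 j

/-- the diagonal affine map carrying the box `A` onto the box `B`. -/
def affMap (A B : (Fin 3 → ℚ) × (Fin 3 → ℚ)) (x : Fin 3 → ℝ) : Fin 3 → ℝ :=
  fun j => (B.1 j : ℝ) + ((B.2 j / A.2 j : ℚ) : ℝ) * (x j - (A.1 j : ℝ))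

/-- `C'` can be reached from `C` by a good flow, inside any prescribed time window. -/
def Reach {n : ℕ} (C C' : Conf n) : Prop :=
  ∀ s e : ℚ, 0 < s → s < e → e < 1 →
    ∃ (U : Field) (Φ : ℝ → (Fin 3 → ℝ) → (Fin 3 → ℝ)), Good U s e ∧ IsFlow U Φ ∧
      ∀ i, ∃ O : Set (Fin 3 → ℝ), IsOpen O ∧ box (C i).1 (C i).2 ⊆ O ∧
        ∀ x ∈ O, Φ 1 x = affMap (C i) (C' i) x

theorem affMap_self (A : (Fin 3 → ℚ) × (Fin 3 → ℚ)) (hA : ∀ j, 0 < A.2 j) (x : Fin 3 → ℝ) :
    affMap A A x = x := by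
  funext j
  unfold affMap
  rw [div_self (hA j).ne']
  simp

theorem affMap_comp (A B D : (Fin 3 → ℚ) × (Fin 3 → ℚ)) (hB : ∀ j, 0 < B.2 j) (x : Fin 3 → ℝ) :
    affMap B D (affMap A B x) = affMap A D x := by
  funext j
  unfold affMap
  have hB' : (B.2 j : ℝ) ≠ 0 := by exact_mod_cast (hB j).ne'
  push_cast
  field_simp
  ring

theorem affMap_continuous (A B : (Fin 3 → ℚ) × (Fin 3 → ℚ)) : Continuous (affMap A B) := by
  unfold affMap
  fun_prop

theorem affMap_mem_box (A B : (Fin 3 → ℚ) × (Fin 3 → ℚ)) (hA : ∀ j, 0 < A.2 j)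
    (hB : ∀ j, 0 < B.2 j) {x : Fin 3 → ℝ} (hx : x ∈ box A.1 A.2) : affMap A B x ∈ box B.1 B.2 := by
  intro j
  have hx' := hx j
  unfold affMap
  have hA' : (0 : ℝ) < A.2 j := by exact_mod_cast hA j
  have hB' : (0 : ℝ) < B.2 j := by exact_mod_cast hB j
  rw [add_sub_cancel_left, abs_mul]
  push_cast
  rw [abs_of_pos (div_pos hB' hA'), div_mul_eq_mul_div, div_le_iff₀ hA']
  exact mul_le_mul_of_nonneg_left hx' hB'.le

theorem isFlow_zero : IsFlow (0 : Field) (fun _ x => x) :=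
  ⟨fun _ => rfl, fun t x => hasDerivAt_const t x⟩

theorem Reach.refl {n : ℕ} (C : Conf n) (hC : C.Pos) : Reach C C := by
  intro s e _ _ _
  refine ⟨0, fun _ x => x, Good.zero _ _, isFlow_zero, fun i => ⟨Set.univ, isOpen_univ,
    Set.subset_univ _, fun x _ => (affMap_self _ (hC i) x).symm⟩⟩

theorem Reach.trans {n : ℕ} {C C' C'' : Conf n} (hC : C.Pos) (hC' : C'.Pos)
    (h₁ : Reach C C') (h₂ : Reach C' C'') : Reach C C'' := by
  intro s e hs hse he
  have hm1 : s < s + (e - s) / 3 := by linarith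
  have hm12 : s + (e - s) / 3 < s + 2 * (e - s) / 3 := by linarith
  have hm2 : s + 2 * (e - s) / 3 < e := by linarith
  obtain ⟨U, Φ, gU, fU, hU⟩ := h₁ s (s + (e - s) / 3) hs hm1 (by linarith)
  obtain ⟨V, Ψ, gV, fV, hV⟩ := h₂ (s + 2 * (e - s) / 3) e (by linarith) hm2 he
  have c1 : (s : ℝ) < ((s + (e - s) / 3 : ℚ) : ℝ) := by exact_mod_cast hm1
  have c12 : ((s + (e - s) / 3 : ℚ) : ℝ) < ((s + 2 * (e - s) / 3 : ℚ) : ℝ) := by
    exact_mod_cast hm12
  have c2 : ((s + 2 * (e - s) / 3 : ℚ) : ℝ) < (e : ℝ) := by exact_mod_cast hm2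
  have cs : (0 : ℝ) < s := by exact_mod_cast hs
  have ce : (e : ℝ) < 1 := by exact_mod_cast he
  refine ⟨U + V, fun t x => Ψ t (Φ t x),
    gU.add gV le_rfl (by linarith) (by linarith) le_rfl,
    isFlow_concat c12 (by linarith) (by linarith)
      (fun p hp => gU.time p fun h => absurd h.2 (not_le.2 hp))
      (fun p hp => gV.time p fun h => absurd h.1 (not_le.2 hp)) fU fV, fun i => ?_⟩
  obtain ⟨O, hO, hbO, hΦ⟩ := hU i
  obtain ⟨O', hO', hbO', hΨ⟩ := hV i
  refine ⟨O ∩ affMap (C i) (C' i) ⁻¹' O', hO.inter (hO'.preimage (affMap_continuous _ _)),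
    fun x hx => ⟨hbO hx, hbO' (affMap_mem_box _ _ (hC i) (hC' i) hx)⟩, fun x hx => ?_⟩
  show Ψ 1 (Φ 1 x) = _
  rw [hΦ x hx.1, hΨ _ hx.2, affMap_comp _ _ _ (hC' i)]

end Crest.Agent.BoxFlow
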