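/-
BoxFlow / T8 : the concrete 1-D building blocks: plateau functions, (x-c)*plateau, time ramps.
-/
import Crest.Agent.BoxFlow.Eff1Fab

set_option autoImplicit false
open scoped ContDiff

namespace Crest.Agent.BoxFlow

theorem deriv_fab_of_nonpos {y : ℝ} (h : y ≤ 0) : deriv fab y = 0 := by
  rw [fab_deriv]
  simp only
  rw [fab_of_nonpos (by linarith), fab_of_nonpos (by linarith)]
  ring

theorem deriv_fab_of_one_le {y : ℝ} (h : 1 ≤ y) : deriv fab y = 0 := by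
  rw [fab_deriv]
  simp only
  rw [fab_of_one_le (by linarith), fab_of_one_le (by linarith)]
  ring

/-- derivative of `x ↦ fab ((x - a) / ε)`. -/
theorem fab_affine_hasDerivAt (a ε x : ℝ) :
    HasDerivAt (fun x => fab ((x - a) / ε)) (deriv fab ((x - a) / ε) * (1 / ε)) x := by
  have h1 : HasDerivAt (fun x : ℝ => (x - a) / ε) (1 / ε) x :=
    ((hasDerivAt_id x).sub_const a).div_const ε
  exact (fab_differentiable _).hasDerivAt.comp x h1

theorem fab_affine_eff (a ε : ℚ) : Eff1 (fun x : ℝ => fab ((x - (a : ℝ)) / (ε : ℝ))) := by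
  have h := Eff1.fab.comp_affine (1 / ε) (-a / ε)
  have h2 : (fun x : ℝ => fab ((x - (a : ℝ)) / (ε : ℝ)))
      = fun x : ℝ => fab (((1 / ε : ℚ) : ℝ) * x + ((-a / ε : ℚ) : ℝ)) := by
    funext x
    congr 1
    push_cast
    ring
  rw [h2]
  exact h

/-- `plateau l u ε` is `1` on `[l-ε, u+ε]` and `0` outside `(l-2ε, u+2ε)`. -/
noncomputable def plateau (l u ε : ℚ) (x : ℝ) : ℝ :=
  fab ((x - ((l : ℝ) - 2 * ε)) / ε) - fab ((x - ((u : ℝ) + ε)) / ε)

theorem plateau_eff (l u ε : ℚ) (hε : 0 < ε) : Eff1 (plateau l u ε) := by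
  have h := (fab_affine_eff (l - 2 * ε) ε).sub (fab_affine_eff (u + ε) ε)
  have h2 : plateau l u ε = fun x : ℝ => fab ((x - ((l - 2 * ε : ℚ) : ℝ)) / (ε : ℝ))
      - fab ((x - ((u + ε : ℚ) : ℝ)) / (ε : ℝ)) := by
    funext x
    unfold plateau
    push_cast
    rfl
  rw [h2]
  exact h

theorem plateau_hasDerivAt (l u ε : ℚ) (x : ℝ) :
    HasDerivAt (plateau l u ε) (deriv fab ((x - ((l : ℝ) - 2 * ε)) / ε) * (1 / ε)
      - deriv fab ((x - ((u : ℝ) + ε)) / ε) * (1 / ε)) x :=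
  (fab_affine_hasDerivAt _ _ x).sub (fab_affine_hasDerivAt _ _ x)

theorem plateau_eq_one {l u ε : ℚ} (hε : 0 < ε) {x : ℝ} (h1 : (l : ℝ) - ε ≤ x)
    (h2 : x ≤ (u : ℝ) + ε) : plateau l u ε x = 1 := by
  have hε' : (0 : ℝ) < ε := by exact_mod_cast hε
  unfold plateau
  rw [fab_of_one_le (by rw [le_div_iff₀ hε']; linarith),
    fab_of_nonpos (div_nonpos_of_nonpos_of_nonneg (by linarith) hε'.le)]
  ring

theorem plateau_eq_zero_of_le {l u ε : ℚ} (hε : 0 < ε) (hlu : l ≤ u) {x : ℝ}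
    (h : x ≤ (l : ℝ) - 2 * ε) : plateau l u ε x = 0 := by
  have hε' : (0 : ℝ) < ε := by exact_mod_cast hε
  have hlu' : (l : ℝ) ≤ u := by exact_mod_cast hlu
  unfold plateau
  rw [fab_of_nonpos (div_nonpos_of_nonpos_of_nonneg (by linarith) hε'.le),
    fab_of_nonpos (div_nonpos_of_nonpos_of_nonneg (by linarith) hε'.le)]
  ring

theorem plateau_eq_zero_of_ge {l u ε : ℚ} (hε : 0 < ε) (hlu : l ≤ u) {x : ℝ}
    (h : (u : ℝ) + 2 * ε ≤ x) : plateau l u ε x = 0 := by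
  have hε' : (0 : ℝ) < ε := by exact_mod_cast hε
  have hlu' : (l : ℝ) ≤ u := by exact_mod_cast hlu
  unfold plateau
  rw [fab_of_one_le (by rw [le_div_iff₀ hε']; linarith),
    fab_of_one_le (by rw [le_div_iff₀ hε']; linarith)]
  ring

theorem plateau_hasCompactSupport {l u ε : ℚ} (hε : 0 < ε) (hlu : l ≤ u) :
    HasCompactSupport (plateau l u ε) := by
  refine HasCompactSupport.intro (K := Set.Icc ((l : ℝ) - 2 * ε) ((u : ℝ) + 2 * ε))
    isCompact_Icc fun x hx => ?_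
  by_cases h1 : x ≤ (l : ℝ) - 2 * ε
  · exact plateau_eq_zero_of_le hε hlu h1
  · by_cases h2 : (u : ℝ) + 2 * ε ≤ x
    · exact plateau_eq_zero_of_ge hε hlu h2
    · exact absurd ⟨(not_le.1 h1).le, (not_le.1 h2).le⟩ hx

/-- derivative vanishes on the open plateau. -/
theorem deriv_plateau_eq_zero {l u ε : ℚ} (hε : 0 < ε) {x : ℝ} (h1 : (l : ℝ) - ε < x)
    (h2 : x < (u : ℝ) + ε) : deriv (plateau l u ε) x = 0 := by
  have hε' : (0 : ℝ) < ε := by exact_mod_cast hε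
  rw [(plateau_hasDerivAt l u ε x).deriv,
    deriv_fab_of_one_le (by rw [le_div_iff₀ hε']; linarith),
    deriv_fab_of_nonpos (div_nonpos_of_nonpos_of_nonneg (by linarith) hε'.le)]
  ring

/-- derivative vanishes outside the support. -/
theorem deriv_plateau_eq_zero_of_le {l u ε : ℚ} (hε : 0 < ε) (hlu : l ≤ u) {x : ℝ}
    (h : x ≤ (l : ℝ) - 2 * ε) : deriv (plateau l u ε) x = 0 := by
  have hε' : (0 : ℝ) < ε := by exact_mod_cast hε
  have hlu' : (l : ℝ) ≤ u := by exact_mod_cast hlu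
  rw [(plateau_hasDerivAt l u ε x).deriv,
    deriv_fab_of_nonpos (div_nonpos_of_nonpos_of_nonneg (by linarith) hε'.le),
    deriv_fab_of_nonpos (div_nonpos_of_nonpos_of_nonneg (by linarith) hε'.le)]
  ring

theorem deriv_plateau_eq_zero_of_ge {l u ε : ℚ} (hε : 0 < ε) (hlu : l ≤ u) {x : ℝ}
    (h : (u : ℝ) + 2 * ε ≤ x) : deriv (plateau l u ε) x = 0 := by
  have hε' : (0 : ℝ) < ε := by exact_mod_cast hε
  have hlu' : (l : ℝ) ≤ u := by exact_mod_cast hlu
  rw [(plateau_hasDerivAt l u ε x).deriv,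
    deriv_fab_of_one_le (by rw [le_div_iff₀ hε']; linarith),
    deriv_fab_of_one_le (by rw [le_div_iff₀ hε']; linarith)]
  ring

/-- `(x - c) * plateau`. -/
noncomputable def linPlateau (c l u ε : ℚ) (x : ℝ) : ℝ := (x - (c : ℝ)) * plateau l u ε x

theorem linPlateau_eff (c l u ε : ℚ) (hε : 0 < ε) (hlu : l ≤ u) : Eff1 (linPlateau c l u ε) := by
  obtain ⟨R, hR⟩ := exists_nat_ge (max |(l : ℝ) - 2 * ε| |(u : ℝ) + 2 * ε|)
  refine (plateau_eff l u ε hε).linear_mul c R fun x hx => ?_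
  have h1 : |(l : ℝ) - 2 * ε| < |x| := lt_of_le_of_lt ((le_max_left _ _).trans hR) hx
  have h2 : |(u : ℝ) + 2 * ε| < |x| := lt_of_le_of_lt ((le_max_right _ _).trans hR) hx
  rcases le_total 0 x with h0 | h0
  · rw [abs_of_nonneg h0] at h2
    exact plateau_eq_zero_of_ge hε hlu ((le_abs_self _).trans h2.le)
  · rw [abs_of_nonpos h0] at h1
    exact plateau_eq_zero_of_le hε hlu (by linarith [neg_abs_le ((l : ℝ) - 2 * ε)])

theorem linPlateau_hasDerivAt (c l u ε : ℚ) (x : ℝ) :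
    HasDerivAt (linPlateau c l u ε)
      (plateau l u ε x + (x - (c : ℝ)) * deriv (plateau l u ε) x) x := by
  have h1 : HasDerivAt (fun x : ℝ => x - (c : ℝ)) 1 x := (hasDerivAt_id x).sub_const _
  have h2 := h1.mul (plateau_hasDerivAt l u ε x).differentiableAt.hasDerivAt
  rw [one_mul] at h2
  exact h2

theorem linPlateau_eq {c l u ε : ℚ} (hε : 0 < ε) {x : ℝ} (h1 : (l : ℝ) - ε ≤ x)
    (h2 : x ≤ (u : ℝ) + ε) : linPlateau c l u ε x = x - c := by
  unfold linPlateau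
  rw [plateau_eq_one hε h1 h2, mul_one]

theorem deriv_linPlateau_eq_one {c l u ε : ℚ} (hε : 0 < ε) {x : ℝ} (h1 : (l : ℝ) - ε < x)
    (h2 : x < (u : ℝ) + ε) : deriv (linPlateau c l u ε) x = 1 := by
  rw [(linPlateau_hasDerivAt c l u ε x).deriv, plateau_eq_one hε h1.le h2.le,
    deriv_plateau_eq_zero hε h1 h2]
  ring

theorem linPlateau_eq_zero_of_le {c l u ε : ℚ} (hε : 0 < ε) (hlu : l ≤ u) {x : ℝ}
    (h : x ≤ (l : ℝ) - 2 * ε) : linPlateau c l u ε x = 0 := by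
  unfold linPlateau
  rw [plateau_eq_zero_of_le hε hlu h, mul_zero]

theorem linPlateau_eq_zero_of_ge {c l u ε : ℚ} (hε : 0 < ε) (hlu : l ≤ u) {x : ℝ}
    (h : (u : ℝ) + 2 * ε ≤ x) : linPlateau c l u ε x = 0 := by
  unfold linPlateau
  rw [plateau_eq_zero_of_ge hε hlu h, mul_zero]

theorem deriv_linPlateau_eq_zero_of_le {c l u ε : ℚ} (hε : 0 < ε) (hlu : l ≤ u) {x : ℝ}
    (h : x ≤ (l : ℝ) - 2 * ε) : deriv (linPlateau c l u ε) x = 0 := by
  rw [(linPlateau_hasDerivAt c l u ε x).deriv, plateau_eq_zero_of_le hε hlu h,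
    deriv_plateau_eq_zero_of_le hε hlu h]
  ring

theorem deriv_linPlateau_eq_zero_of_ge {c l u ε : ℚ} (hε : 0 < ε) (hlu : l ≤ u) {x : ℝ}
    (h : (u : ℝ) + 2 * ε ≤ x) : deriv (linPlateau c l u ε) x = 0 := by
  rw [(linPlateau_hasDerivAt c l u ε x).deriv, plateau_eq_zero_of_ge hε hlu h,
    deriv_plateau_eq_zero_of_ge hε hlu h]
  ring

theorem linPlateau_hasCompactSupport {c l u ε : ℚ} (hε : 0 < ε) (hlu : l ≤ u) :
    HasCompactSupport (linPlateau c l u ε) :=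
  (plateau_hasCompactSupport hε hlu).mul_left

/-- time ramp: `0` for `t ≤ s`, `1` for `t ≥ e`. -/
noncomputable def ramp (s e : ℚ) (t : ℝ) : ℝ := fab ((t - (s : ℝ)) / ((e : ℝ) - s))

theorem ramp_eff (s e : ℚ) (hse : s < e) : Eff1 (ramp s e) := by
  have h := fab_affine_eff s (e - s)
  have h2 : ramp s e = fun x : ℝ => fab ((x - (s : ℝ)) / ((e - s : ℚ) : ℝ)) := by
    funext x
    unfold ramp
    push_cast
    rfl
  rw [h2]
  exact h

theorem ramp_nonneg (s e : ℚ) (t : ℝ) : 0 ≤ ramp s e t := fab_nonneg _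

theorem ramp_le_one (s e : ℚ) (t : ℝ) : ramp s e t ≤ 1 := fab_le_one _

theorem ramp_of_le {s e : ℚ} (hse : s < e) {t : ℝ} (h : t ≤ s) : ramp s e t = 0 := by
  have hse' : (0 : ℝ) < (e : ℝ) - s := by
    have : (s : ℝ) < e := by exact_mod_cast hse
    linarith
  exact fab_of_nonpos (div_nonpos_of_nonpos_of_nonneg (by linarith) hse'.le)

theorem ramp_of_ge {s e : ℚ} (hse : s < e) {t : ℝ} (h : (e : ℝ) ≤ t) : ramp s e t = 1 := by
  have hse' : (0 : ℝ) < (e : ℝ) - s := by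
    have : (s : ℝ) < e := by exact_mod_cast hse
    linarith
  exact fab_of_one_le (by rw [le_div_iff₀ hse']; linarith)

/-- the ramp speed `c * ramp'` : effective, supported in `[s,e]`. -/
noncomputable def rampSpeed (c : ℝ) (s e : ℚ) (t : ℝ) : ℝ := c * deriv (ramp s e) t

theorem rampSpeed_eff {c : ℝ} (hc : CompReal c) (s e : ℚ) (hse : s < e) :
    Eff1 (rampSpeed c s e) :=
  (ramp_eff s e hse).deriv.const_mul hc

theorem rampSpeed_eq_zero {c : ℝ} {s e : ℚ} (hse : s < e) {t : ℝ} (h : t ∉ Set.Icc (s : ℝ) e) :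
    rampSpeed c s e t = 0 := by
  have hse' : (0 : ℝ) < (e : ℝ) - s := by
    have : (s : ℝ) < e := by exact_mod_cast hse
    linarith
  unfold rampSpeed
  have h1 : deriv (ramp s e) t = deriv fab ((t - (s : ℝ)) / ((e : ℝ) - s)) * (1 / ((e : ℝ) - s)) :=
    (fab_affine_hasDerivAt (s : ℝ) ((e : ℝ) - s) t).deriv
  rw [h1]
  by_cases h2 : t ≤ s
  · rw [deriv_fab_of_nonpos (div_nonpos_of_nonpos_of_nonneg (by linarith) hse'.le)]
    ring
  · have h3 : (e : ℝ) ≤ t := by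
      by_contra h4
      exact h ⟨(not_le.1 h2).le, (not_le.1 h4).le⟩
    rw [deriv_fab_of_one_le (by rw [le_div_iff₀ hse']; linarith)]
    ring

theorem rampSpeed_hasCompactSupport (c : ℝ) {s e : ℚ} (hse : s < e) :
    HasCompactSupport (rampSpeed c s e) :=
  HasCompactSupport.intro (K := Set.Icc (s : ℝ) e) isCompact_Icc
    fun _ hx => rampSpeed_eq_zero hse hx

theorem ramp_hasDerivAt (c : ℝ) (s e : ℚ) (t : ℝ) :
    HasDerivAt (fun t => c * ramp s e t) (rampSpeed c s e t) t :=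
  ((fab_affine_hasDerivAt (s : ℝ) ((e : ℝ) - s) t).differentiableAt.hasDerivAt).const_mul c

end Crest.Agent.BoxFlow
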