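/-
BoxFlow / T13 : the elementary divergence-free field
   ham η p q r j j' (t,x) = η t * ( p (x j) * q' (x j') * r (x j'') e_j - p' (x j) * q (x j') * r (x j'') e_j' )
(j'' = the third axis).
-/
import Crest.Agent.BoxFlow.Plateau
import Crest.Agent.BoxFlow.Flow

set_option autoImplicit false
open scoped ContDiff
open Crest.AnalysisR.BoxFlow

namespace Crest.Agent.BoxFlow

/-- the elementary Hamiltonian field. -/
noncomputable def ham (η p q r : ℝ → ℝ) (j j' : Fin 3) : Field :=
  tens (Fin.cons η (Function.update (Function.update (fun _ => r) j p) j' (deriv q))) j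
    - tens (Fin.cons η (Function.update (Function.update (fun _ => r) j (deriv p)) j' q)) j'

theorem ham_prod3 {j j' j'' : Fin 3} (h1 : j ≠ j') (h2 : j'' ≠ j) (h3 : j'' ≠ j') (F : Fin 3 → ℝ) :
    ∏ i, F i = F j * F j' * F j'' := by
  have h : (Finset.univ : Finset (Fin 3)) = {j, j', j''} := by
    revert j j' j''; decide
  rw [h, Finset.prod_insert (by simp [h1, h2.symm]), Finset.prod_insert (by simp [h3.symm]),
    Finset.prod_singleton, mul_assoc]

theorem ham_prod_cons (η : ℝ → ℝ) (G : Fin 3 → ℝ → ℝ) (t : ℝ) (x : Fin 3 → ℝ) :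
    ∏ d : Fin 4, (Fin.cons η G : Fin 4 → ℝ → ℝ) d (coord d (t, x)) = η t * ∏ i, G i (x i) := by
  rw [Fin.prod_univ_succ]
  simp

theorem ham_prod_upd (η a b r : ℝ → ℝ) {j j' j'' : Fin 3} (h1 : j ≠ j') (h2 : j'' ≠ j)
    (h3 : j'' ≠ j') (t : ℝ) (x : Fin 3 → ℝ) :
    ∏ d : Fin 4, (Fin.cons η (Function.update (Function.update (fun _ => r) j a) j' b) :
      Fin 4 → ℝ → ℝ) d (coord d (t, x)) = η t * a (x j) * b (x j') * r (x j'') := by
  rw [ham_prod_cons, ham_prod3 h1 h2 h3]
  simp only [Function.update_self, Function.update_of_ne h1, Function.update_of_ne h3,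
    Function.update_of_ne h2]
  ring

theorem ham_apply (η p q r : ℝ → ℝ) {j j' j'' : Fin 3} (h1 : j ≠ j') (h2 : j'' ≠ j) (h3 : j'' ≠ j')
    (t : ℝ) (x : Fin 3 → ℝ) :
    ham η p q r j j' (t, x) =
      Pi.single j (η t * p (x j) * deriv q (x j') * r (x j''))
        - Pi.single j' (η t * deriv p (x j) * q (x j') * r (x j'')) := by
  unfold ham tens
  rw [Pi.sub_apply, ham_prod_upd η p (deriv q) r h1 h2 h3, ham_prod_upd η (deriv p) q r h1 h2 h3]

theorem ham_forall {P : (ℝ → ℝ) → Prop} {η a b r : ℝ → ℝ} (hη : P η) (ha : P a) (hb : P b)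
    (hr : P r) (j j' : Fin 3) (d : Fin 4) :
    P ((Fin.cons η (Function.update (Function.update (fun _ => r) j a) j' b) :
      Fin 4 → ℝ → ℝ) d) := by
  refine Fin.cases ?_ (fun i => ?_) d
  · simpa using hη
  · rw [Fin.cons_succ]
    by_cases hi' : i = j'
    · subst hi'; simpa using hb
    · rw [Function.update_of_ne hi']
      by_cases hi : i = j
      · subst hi; simpa using ha
      · rw [Function.update_of_ne hi]; exact hr

theorem ham_exists_third {j j' : Fin 3} (h1 : j ≠ j') : ∃ j'' : Fin 3, j'' ≠ j ∧ j'' ≠ j' := by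
  revert j j'; decide

theorem ham_good {η p q r : ℝ → ℝ} {j j' : Fin 3} (h1 : j ≠ j')
    (hη : Eff1 η) (hp : Eff1 p) (hq : Eff1 q) (hr : Eff1 r)
    (cη : HasCompactSupport η) (cp : HasCompactSupport p) (cq : HasCompactSupport q)
    (cr : HasCompactSupport r) {s e : ℝ} (hse : ∀ t, t ∉ Set.Icc s e → η t = 0) :
    Good (ham η p q r j j') s e := by
  obtain ⟨j'', h2, h3⟩ := ham_exists_third h1
  have e1 := ham_forall (P := Eff1) hη hp hq.deriv hr j j'
  have e2 := ham_forall (P := Eff1) hη hp.deriv hq hr j j'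
  have s1 := tens_contDiff (fun d => (e1 d).smooth) j
  have s2 := tens_contDiff (fun d => (e2 d).smooth) j'
  refine ⟨s1.sub s2, ?_, effective_sub s1 s2 (effective_tens e1 j) (effective_tens e2 j'), ?_, ?_⟩
  · exact (tens_hasCompactSupport (ham_forall (P := HasCompactSupport) cη cp cq.deriv cr j j') j).sub
      (tens_hasCompactSupport (ham_forall (P := HasCompactSupport) cη cp.deriv cq cr j j') j')
  · rintro ⟨t, x⟩ ht
    rw [ham_apply η p q r h1 h2 h3, hse t ht]
    simp
  · rintro ⟨t, x⟩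
    unfold ham
    rw [spaceDiv_sub s1 s2, spaceDiv_tens (fun d => (e1 d).smooth),
      spaceDiv_tens (fun d => (e2 d).smooth)]
    simp only [Fin.cons_succ, Function.update_self, Function.update_of_ne h1, ← Fin.cons_update,
      Function.update_idem]
    rw [Function.update_comm h1.symm, Function.update_idem, sub_self]

end Crest.Agent.BoxFlow
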