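/-
BoxFlow / T14 : common part of the two elementary moves: definitions, the margin lemma and the
generic lemma `reach_of_local` ("a good field supported in a slightly enlarged free box, with explicit
solution curves near the moving box, realises the move").
-/
import Crest.Agent.BoxFlow.Ham

set_option autoImplicit false
open scoped ContDiff
open Crest.AnalysisR.BoxFlow

namespace Crest.Agent.BoxFlow

/-- move the centre of box `i` along axis `j` to the coordinate `y`. -/
def Conf.moveTo {n : ℕ} (C : Conf n) (i : Fin n) (j : Fin 3) (y : ℚ) : Conf n :=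
  Function.update C i (Function.update (C i).1 j y, (C i).2)

/-- the box swept when the box `A` moves along axis `j` until its centre has `j`-coordinate `y`. -/
def corridor (A : (Fin 3 → ℚ) × (Fin 3 → ℚ)) (j : Fin 3) (y : ℚ) : (Fin 3 → ℚ) × (Fin 3 → ℚ) :=
  (Function.update A.1 j ((A.1 j + y) / 2), Function.update A.2 j (A.2 j + |y - A.1 j| / 2))

/-- multiply the half-width `j` of box `i` by `ρ` and divide the half-width `j'` by `ρ`. -/
def Conf.scale {n : ℕ} (C : Conf n) (i : Fin n) (j j' : Fin 3) (ρ : ℚ) : Conf n :=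
  Function.update C i
    ((C i).1, Function.update (Function.update (C i).2 j (ρ * (C i).2 j)) j' ((C i).2 j' / ρ))

/-- two rational boxes with nonnegative half-widths are disjoint iff they are separated in some
coordinate. -/
theorem box_disjoint_iff (c h c' h' : Fin 3 → ℚ) (hh : ∀ l, 0 ≤ h l) (hh' : ∀ l, 0 ≤ h' l) :
    Disjoint (box c h) (box c' h') ↔ ∃ l, h l + h' l < |c l - c' l| := by
  constructor
  · intro hd
    by_contra hcon
    push Not at hcon
    rw [Set.disjoint_left] at hd
    refine hd (a := fun l => ((max (c l - h l) (c' l - h' l) : ℚ) : ℝ)) ?_ ?_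
    · intro l
      have h1 := hcon l
      have h2 := hh l
      have h3 := hh' l
      have : |max (c l - h l) (c' l - h' l) - c l| ≤ h l := by
        rw [abs_le] at h1 ⊢
        constructor
        · have := le_max_left (c l - h l) (c' l - h' l); linarith
        · have : max (c l - h l) (c' l - h' l) ≤ c l + h l := max_le (by linarith) (by linarith)
          linarith
      show |((max (c l - h l) (c' l - h' l) : ℚ) : ℝ) - (c l : ℝ)| ≤ (h l : ℝ)
      exact_mod_cast this
    · intro l
      have h1 := hcon l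
      have h2 := hh l
      have h3 := hh' l
      have : |max (c l - h l) (c' l - h' l) - c' l| ≤ h' l := by
        rw [abs_le] at h1 ⊢
        constructor
        · have := le_max_right (c l - h l) (c' l - h' l); linarith
        · have : max (c l - h l) (c' l - h' l) ≤ c' l + h' l := max_le (by linarith) (by linarith)
          linarith
      show |((max (c l - h l) (c' l - h' l) : ℚ) : ℝ) - (c' l : ℝ)| ≤ (h' l : ℝ)
      exact_mod_cast this
  · rintro ⟨l, hl⟩
    rw [Set.disjoint_left]
    intro x hx hx'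
    have h1 : |x l - (c l : ℝ)| ≤ (h l : ℝ) := hx l
    have h2 : |x l - (c' l : ℝ)| ≤ (h' l : ℝ) := hx' l
    have h3 : ((h l + h' l : ℚ) : ℝ) < ((|c l - c' l| : ℚ) : ℝ) := by exact_mod_cast hl
    push_cast at h3
    have h4 : |(c l : ℝ) - (c' l : ℝ)| ≤ |x l - (c l : ℝ)| + |x l - (c' l : ℝ)| := by
      have := abs_sub_le (c l : ℝ) (x l) (c' l : ℝ)
      rw [abs_sub_comm (c l : ℝ) (x l)] at this
      exact this
    linarith

/-- a free box stays free after a small rational enlargement. -/
theorem exists_margin {n : ℕ} (C : Conf n) (hC : C.Pos) (i : Fin n) (w R : Fin 3 → ℚ)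
    (hR : ∀ l, 0 ≤ R l)
    (hfree : ∀ i', i' ≠ i → Disjoint (box w R) (box (C i').1 (C i').2)) :
    ∃ ε : ℚ, 0 < ε ∧ ∀ i', i' ≠ i →
      Disjoint (box w (fun l => R l + 2 * ε)) (box (C i').1 (C i').2) := by
  classical
  -- for every index a positive admissible margin
  have step : ∀ i' : Fin n, ∃ δ : ℚ, 0 < δ ∧ (i' ≠ i → ∀ ε : ℚ, 0 < ε → ε ≤ δ →
      Disjoint (box w (fun l => R l + 2 * ε)) (box (C i').1 (C i').2)) := by
    intro i'
    by_cases hi : i' = i
    · exact ⟨1, one_pos, fun h => absurd hi h⟩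
    · obtain ⟨l, hl⟩ := (box_disjoint_iff w R (C i').1 (C i').2 hR
        (fun l => (hC i' l).le)).1 (hfree i' hi)
      refine ⟨(|w l - (C i').1 l| - (R l + (C i').2 l)) / 4, by linarith, ?_⟩
      intro _ ε hε hεδ
      refine (box_disjoint_iff w (fun l => R l + 2 * ε) (C i').1 (C i').2
        (fun l => by have := hR l; positivity) (fun l => (hC i' l).le)).2 ⟨l, ?_⟩
      show R l + 2 * ε + (C i').2 l < |w l - (C i').1 l|
      linarith
  choose δ hδ0 hδ using step
  obtain ⟨i₀, -, hi₀⟩ := Finset.exists_min_image Finset.univ δ ⟨i, Finset.mem_univ i⟩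
  exact ⟨δ i₀, hδ0 i₀, fun i' hi' => hδ i' hi' (δ i₀) (hδ0 i₀) (hi₀ i' (Finset.mem_univ i'))⟩

/-- the closed rational box is closed. -/
theorem isClosed_box (c h : Fin 3 → ℚ) : IsClosed (box c h) := by
  have : box c h = ⋂ j : Fin 3, {x : Fin 3 → ℝ | |x j - (c j : ℝ)| ≤ (h j : ℝ)} := by
    ext x; simp [box]
  rw [this]
  refine isClosed_iInter fun j => ?_
  exact isClosed_le (by fun_prop) continuous_const

/-- uniqueness: a solution curve starting at a point where the field vanishes for all times is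
constant. -/
theorem curve_const_of_zero {U : Field} (hU : ContDiff ℝ ∞ U) (hc : HasCompactSupport U)
    (x : Fin 3 → ℝ) (hx : ∀ t : ℝ, U (t, x) = 0) (γ : ℝ → (Fin 3 → ℝ)) (h0 : γ 0 = x)
    (hγ : ∀ t, HasDerivAt γ (U (t, γ t)) t) (t : ℝ) : γ t = x := by
  obtain ⟨K, hK⟩ := ContDiff.lipschitzWith_of_hasCompactSupport (𝕂 := ℝ) hc hU (by simp)
  have hv : ∀ t : ℝ, LipschitzOnWith K (fun y : Fin 3 → ℝ => U (t, y)) Set.univ := by
    intro t
    refine LipschitzWith.lipschitzOnWith ?_
    have := hK.comp (LipschitzWith.prodMk_left (β := Fin 3 → ℝ) t)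
    simpa [Function.comp_def] using this
  have := ODE_solution_unique_univ (v := fun t y => U (t, y)) (s := fun _ => Set.univ)
    (f := γ) (g := fun _ => x) (t₀ := 0) hv (fun t => ⟨hγ t, trivial⟩)
    (fun t => ⟨by simpa [hx t] using hasDerivAt_const t x, trivial⟩) h0
  exact congrFun this t

/-- generic elementary move of box `i` to the box `B` inside the free box `box w R`. -/
theorem reach_of_local {n : ℕ} (C : Conf n) (hC : C.Pos) (i : Fin n)
    (B : (Fin 3 → ℚ) × (Fin 3 → ℚ)) (w R : Fin 3 → ℚ) (hR : ∀ l, 0 ≤ R l)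
    (hfree : ∀ i', i' ≠ i → Disjoint (box w R) (box (C i').1 (C i').2))
    (key : ∀ ε s e : ℚ, 0 < ε → 0 < s → s < e → e < 1 →
      ∃ U : Field, Good U s e ∧
        (∀ (t : ℝ) (x : Fin 3 → ℝ), x ∉ box w (fun l => R l + 2 * ε) → U (t, x) = 0) ∧
        ∃ (O : Set (Fin 3 → ℝ)) (Γ : ℝ → (Fin 3 → ℝ) → (Fin 3 → ℝ)),
          IsOpen O ∧ box (C i).1 (C i).2 ⊆ O ∧ (∀ x ∈ O, Γ 0 x = x) ∧
          (∀ x ∈ O, ∀ t, HasDerivAt (fun τ => Γ τ x) (U (t, Γ t x)) t) ∧
          (∀ x ∈ O, Γ 1 x = affMap (C i) B x)) :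
    Reach C (Function.update C i B) := by
  classical
  intro s e hs hse he
  obtain ⟨ε, hε, hmargin⟩ := exists_margin C hC i w R hR hfree
  obtain ⟨U, hGood, hsupp, O, Γ, hO, hsub, hΓ0, hΓ, hΓ1⟩ := key ε s e hε hs hse he
  set W : Set (Fin 3 → ℝ) := (box w (fun l => R l + 2 * ε))ᶜ with hW
  have hWopen : IsOpen W := (isClosed_box _ _).isOpen_compl
  -- the prescribed curves
  let Γ' : ℝ → (Fin 3 → ℝ) → (Fin 3 → ℝ) := fun t x => if x ∈ O then Γ t x else x
  obtain ⟨Φ, hΦ, hΦΓ⟩ := exists_flow hGood.smooth hGood.compact (O ∪ W) Γ'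
    (by
      intro x _
      by_cases hx : x ∈ O
      · simp [Γ', hx, hΓ0 x hx]
      · simp [Γ', hx])
    (by
      intro x hxS t
      by_cases hx : x ∈ O
      · simpa [Γ', hx] using hΓ x hx t
      · have hxW : x ∈ W := hxS.resolve_left hx
        have : U (t, x) = 0 := hsupp t x hxW
        simpa [Γ', hx, this] using hasDerivAt_const t x)
  refine ⟨U, Φ, hGood, hΦ, ?_⟩
  intro i₀
  by_cases hi : i₀ = i
  · subst hi
    refine ⟨O, hO, hsub, ?_⟩
    intro x hx
    rw [hΦΓ x (Or.inl hx) 1]
    simp [Γ', hx, hΓ1 x hx]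
  · refine ⟨W, hWopen, ?_, ?_⟩
    · intro x hx hx'
      exact Set.disjoint_left.1 (hmargin i₀ hi) hx' hx
    · intro x hx
      rw [hΦΓ x (Or.inr hx) 1]
      have haff : affMap (C i₀) (Function.update C i B i₀) x = x := by
        rw [Function.update_of_ne hi]
        funext j
        have hpos : (C i₀).2 j ≠ 0 := (hC i₀ j).ne'
        simp [affMap, div_self hpos]
      rw [haff]
      by_cases hxO : x ∈ O
      · simp only [Γ', hxO, if_true]
        exact curve_const_of_zero hGood.smooth hGood.compact x (fun t => hsupp t x hx)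
          (fun τ => Γ τ x) (hΓ0 x hxO) (hΓ x hxO) 1
      · simp [Γ', hxO]

end Crest.Agent.BoxFlow
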