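/-
BoxFlow / T16 : pair-scaling of one box inside a free box.

Apply `reach_of_local` with `(w, R) = ((C i).1, H)`.  Given `ε, s, e`: `j''` the third axis,
`χ_l = plateau (c l - H l) (c l + H l) ε`, `λ = Real.log ρ` (`CompReal.log`),
  `η = rampSpeed λ s e`, `p = linPlateau c_j ..`, `q = linPlateau c_j' ..`, `r = χ_j''`, `U = ham η p q r j j'`,
  `Γ t x = c + exp (λ ramp t) (x j - c j) e_j + exp (-λ ramp t) (x j' - c j') e_j' + (x j'' - c j'') e_j''`,
  `O` = a small enough open neighbourhood of the box, e.g. `{x | ∀ l, |x l - c l| < h l * (1 + κ)}` with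
  `H l * κ ≤ ε` (so that the curve stays where all plateaus are `1`; note `h_j ρ^θ ≤ max (h_j, ρ h_j) ≤ H j`).
-/
import Crest.Agent.BoxFlow.MoveCommon

set_option autoImplicit false
open scoped ContDiff
open Crest.AnalysisR.BoxFlow

namespace Crest.Agent.BoxFlow

namespace T16

theorem exists_third_axis {j j' : Fin 3} (h : j ≠ j') :
    ∃ j'' : Fin 3, j'' ≠ j ∧ j'' ≠ j' ∧ ∀ l : Fin 3, l = j ∨ l = j' ∨ l = j'' := by
  revert j j'
  decide

theorem isOpen_openBox (c : Fin 3 → ℝ) (r : Fin 3 → ℝ) :
    IsOpen {x : Fin 3 → ℝ | ∀ l, |x l - c l| < r l} := by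
  have : {x : Fin 3 → ℝ | ∀ l, |x l - c l| < r l} = ⋂ l, {x : Fin 3 → ℝ | |x l - c l| < r l} := by
    ext x; simp
  rw [this]
  refine isOpen_iInter_of_finite fun l => ?_
  exact isOpen_lt (by fun_prop) continuous_const

/-- `exp (λ θ) * a ≤ max a (exp λ * a)` for `θ ∈ [0,1]`, `a ≥ 0`. -/
theorem exp_mul_le {lam θ a M : ℝ} (h0 : 0 ≤ θ) (h1 : θ ≤ 1) (ha : 0 ≤ a) (hM1 : a ≤ M)
    (hM2 : Real.exp lam * a ≤ M) : Real.exp (lam * θ) * a ≤ M := by
  rcases le_total 0 lam with hl | hl
  · have : Real.exp (lam * θ) ≤ Real.exp lam := Real.exp_le_exp.2 (by nlinarith)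
    calc Real.exp (lam * θ) * a ≤ Real.exp lam * a := mul_le_mul_of_nonneg_right this ha
      _ ≤ M := hM2
  · have : Real.exp (lam * θ) ≤ 1 := Real.exp_le_one_iff.2 (by nlinarith)
    calc Real.exp (lam * θ) * a ≤ 1 * a := mul_le_mul_of_nonneg_right this ha
      _ = a := one_mul a
      _ ≤ M := hM1

end T16

open T16 in
theorem reach_scale {n : ℕ} (C : Conf n) (hC : C.Pos) (i : Fin n) {j j' : Fin 3} (hjj' : j ≠ j')
    (ρ : ℚ) (hρ : 0 < ρ) (H : Fin 3 → ℚ)
    (hH : ∀ l, (C i).2 l ≤ H l ∧ ((C.scale i j j' ρ) i).2 l ≤ H l)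
    (hfree : ∀ i', i' ≠ i → Disjoint (box (C i).1 H) (box (C i').1 (C i').2)) :
    Reach C (C.scale i j j' ρ) := by
  obtain ⟨j'', h2, h3, hall⟩ := T16.exists_third_axis hjj'
  have h1 := hjj'
  set c := (C i).1 with hc
  set h := (C i).2 with hh
  have hpos : ∀ l, 0 < h l := fun l => hC i l
  have hH1 : ∀ l, h l ≤ H l := fun l => (hH l).1
  have hHj : ρ * h j ≤ H j := by
    have := (hH j).2
    simpa [Conf.scale, Function.update_of_ne h1, ← hh] using this
  have hHj' : h j' / ρ ≤ H j' := by
    have := (hH j').2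
    simpa [Conf.scale, ← hh] using this
  have hH0 : ∀ l, 0 < H l := fun l => lt_of_lt_of_le (hpos l) (hH1 l)
  refine reach_of_local C hC i
    (c, Function.update (Function.update h j (ρ * h j)) j' (h j' / ρ)) c H
    (fun l => (hH0 l).le) hfree ?_
  intro ε s e hε hs hse he
  have hlu : ∀ l, c l - H l ≤ c l + H l := fun l => by linarith [hH0 l]
  set lam : ℝ := Real.log (ρ : ℝ) with hlam
  have hρR : (0 : ℝ) < (ρ : ℝ) := by exact_mod_cast hρ
  have hexp : Real.exp lam = ρ := Real.exp_log hρR
  have hexpn : Real.exp (-lam) = (ρ : ℝ)⁻¹ := by rw [Real.exp_neg, hexp]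
  set η : ℝ → ℝ := rampSpeed lam s e with hη
  set p : ℝ → ℝ := linPlateau (c j) (c j - H j) (c j + H j) ε with hp
  set q : ℝ → ℝ := linPlateau (c j') (c j' - H j') (c j' + H j') ε with hq
  set r : ℝ → ℝ := plateau (c j'' - H j'') (c j'' + H j'') ε with hr
  have hεR : (0 : ℝ) < (ε : ℝ) := by exact_mod_cast hε
  have hposR : ∀ l, (0 : ℝ) < (h l : ℝ) := fun l => by exact_mod_cast hpos l
  have hH0R : ∀ l, (0 : ℝ) < (H l : ℝ) := fun l => by exact_mod_cast hH0 l
  have hH1R : ∀ l, (h l : ℝ) ≤ (H l : ℝ) := fun l => by exact_mod_cast hH1 l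
  have hHjR : Real.exp lam * (h j : ℝ) ≤ (H j : ℝ) := by
    rw [hexp]; exact_mod_cast hHj
  have hHjR' : Real.exp (-lam) * (h j' : ℝ) ≤ (H j' : ℝ) := by
    rw [hexpn]
    have : ((h j' / ρ : ℚ) : ℝ) ≤ (H j' : ℝ) := by exact_mod_cast hHj'
    push_cast at this
    rw [div_eq_mul_inv, mul_comm] at this
    exact this
  -- the margin
  set S : ℝ := 1 + (H 0 : ℝ) + (H 1 : ℝ) + (H 2 : ℝ) with hS
  have hSpos : 0 < S := by have := hH0R 0; have := hH0R 1; have := hH0R 2; positivity
  have hHS : ∀ l, (H l : ℝ) ≤ S := by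
    intro l
    have a0 := hH0R 0; have a1 := hH0R 1; have a2 := hH0R 2
    fin_cases l <;> simp [hS] <;> linarith
  set κ : ℝ := ε / S with hκ
  have hκpos : 0 < κ := div_pos hεR hSpos
  have hHκ : ∀ l, (H l : ℝ) * κ ≤ ε := by
    intro l
    rw [hκ, mul_div_assoc']
    rw [div_le_iff₀ hSpos]
    have := hHS l
    nlinarith
  refine ⟨ham η p q r j j', ?_, ?_, {x | ∀ l, |x l - (c l : ℝ)| < (h l : ℝ) * (1 + κ)},
    fun t x l => if l = j then (c j : ℝ) + Real.exp (lam * ramp s e t) * (x j - c j)
      else if l = j' then (c j' : ℝ) + Real.exp (-(lam * ramp s e t)) * (x j' - c j') else x l,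
    ?_, ?_, ?_, ?_, ?_⟩
  · -- Good
    refine ham_good h1 (rampSpeed_eff (CompReal.log ρ hρ) s e hse)
      (linPlateau_eff _ _ _ _ hε (hlu j))
      (linPlateau_eff _ _ _ _ hε (hlu j')) (plateau_eff _ _ _ hε)
      (rampSpeed_hasCompactSupport _ hse) (linPlateau_hasCompactSupport hε (hlu j))
      (linPlateau_hasCompactSupport hε (hlu j')) (plateau_hasCompactSupport hε (hlu j'')) ?_
    intro t ht
    exact rampSpeed_eq_zero hse ht
  · -- support
    intro t x hx
    rw [ham_apply η p q r h1 h2 h3]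
    have hx' : ∃ l, ((H l + 2 * ε : ℚ) : ℝ) < |x l - (c l : ℝ)| := by
      by_contra hcon
      push Not at hcon
      exact hx hcon
    obtain ⟨l, hl⟩ := hx'
    push_cast at hl
    have hcases : x l ≤ ((c l - H l : ℚ) : ℝ) - 2 * ε ∨ ((c l + H l : ℚ) : ℝ) + 2 * ε ≤ x l := by
      push_cast
      rcases lt_abs.1 hl with h' | h'
      · right; linarith
      · left; linarith
    rcases hall l with rfl | rfl | rfl
    · have e1 : p (x l) = 0 := by
        rcases hcases with h' | h'
        · exact linPlateau_eq_zero_of_le hε (hlu l) h'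
        · exact linPlateau_eq_zero_of_ge hε (hlu l) h'
      have e2 : deriv p (x l) = 0 := by
        rcases hcases with h' | h'
        · exact deriv_linPlateau_eq_zero_of_le hε (hlu l) h'
        · exact deriv_linPlateau_eq_zero_of_ge hε (hlu l) h'
      simp [e1, e2]
    · have e1 : q (x l) = 0 := by
        rcases hcases with h' | h'
        · exact linPlateau_eq_zero_of_le hε (hlu l) h'
        · exact linPlateau_eq_zero_of_ge hε (hlu l) h'
      have e2 : deriv q (x l) = 0 := by
        rcases hcases with h' | h'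
        · exact deriv_linPlateau_eq_zero_of_le hε (hlu l) h'
        · exact deriv_linPlateau_eq_zero_of_ge hε (hlu l) h'
      simp [e1, e2]
    · have e1 : r (x l) = 0 := by
        rcases hcases with h' | h'
        · exact plateau_eq_zero_of_le hε (hlu l) h'
        · exact plateau_eq_zero_of_ge hε (hlu l) h'
      simp [e1]
  · exact T16.isOpen_openBox _ _
  · intro x hx l
    have := hx l
    have := hposR l
    nlinarith
  · intro x _
    have : ramp s e 0 = 0 := ramp_of_le hse (by exact_mod_cast hs.le)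
    funext l
    by_cases hl : l = j
    · subst hl; simp [this]
    · by_cases hl' : l = j'
      · subst hl'; simp [this, hl]
      · simp [hl, hl']
  · intro x hx t
    have hθ0 := ramp_nonneg s e t
    have hθ1 := ramp_le_one s e t
    set θ := ramp s e t with hθ
    set X : Fin 3 → ℝ := fun l => if l = j then (c j : ℝ) + Real.exp (lam * θ) * (x j - c j)
      else if l = j' then (c j' : ℝ) + Real.exp (-(lam * θ)) * (x j' - c j') else x l with hX
    have hXj : X j = (c j : ℝ) + Real.exp (lam * θ) * (x j - c j) := by simp [hX]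
    have hXj' : X j' = (c j' : ℝ) + Real.exp (-(lam * θ)) * (x j' - c j') := by
      simp [hX, h1.symm]
    have hXj'' : X j'' = x j'' := by simp [hX, h2, h3]
    -- bounds
    have bj : |X j - c j| < (H j : ℝ) + ε := by
      rw [hXj, add_sub_cancel_left, abs_mul, abs_of_pos (Real.exp_pos _)]
      have b1 := T16.exp_mul_le (lam := lam) hθ0 hθ1 (hposR j).le (hH1R j) hHjR
      have b2 := hx j
      have b3 := hHκ j
      have b4 := Real.exp_pos (lam * θ)
      calc Real.exp (lam * θ) * |x j - c j| < Real.exp (lam * θ) * ((h j : ℝ) * (1 + κ)) :=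
            mul_lt_mul_of_pos_left b2 b4
        _ = (Real.exp (lam * θ) * (h j : ℝ)) * (1 + κ) := by ring
        _ ≤ (H j : ℝ) * (1 + κ) := mul_le_mul_of_nonneg_right b1 (by positivity)
        _ ≤ (H j : ℝ) + ε := by linarith
    have bj' : |X j' - c j'| < (H j' : ℝ) + ε := by
      rw [hXj', add_sub_cancel_left, abs_mul, abs_of_pos (Real.exp_pos _)]
      have b1 := T16.exp_mul_le (lam := -lam) hθ0 hθ1 (hposR j').le (hH1R j') hHjR'
      rw [neg_mul] at b1
      have b2 := hx j'
      have b3 := hHκ j'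
      have b4 := Real.exp_pos (-(lam * θ))
      calc Real.exp (-(lam * θ)) * |x j' - c j'|
            < Real.exp (-(lam * θ)) * ((h j' : ℝ) * (1 + κ)) := mul_lt_mul_of_pos_left b2 b4
        _ = (Real.exp (-(lam * θ)) * (h j' : ℝ)) * (1 + κ) := by ring
        _ ≤ (H j' : ℝ) * (1 + κ) := mul_le_mul_of_nonneg_right b1 (by positivity)
        _ ≤ (H j' : ℝ) + ε := by linarith
    have bj'' : |X j'' - c j''| < (H j'' : ℝ) + ε := by
      rw [hXj'']
      have b2 := hx j''
      have b3 := hHκ j''
      have b5 := hH1R j''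
      calc |x j'' - c j''| < (h j'' : ℝ) * (1 + κ) := b2
        _ ≤ (H j'' : ℝ) * (1 + κ) := mul_le_mul_of_nonneg_right b5 (by positivity)
        _ ≤ (H j'' : ℝ) + ε := by linarith
    have hU : ham η p q r j j' (t, X) =
        Pi.single j (η t * (X j - c j)) - Pi.single j' (η t * (X j' - c j')) := by
      rw [ham_apply η p q r h1 h2 h3]
      have a := abs_lt.1 bj
      have a' := abs_lt.1 bj'
      have a'' := abs_lt.1 bj''
      have hlo : ((c j - H j : ℚ) : ℝ) - ε < X j := by push_cast; linarith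
      have hhi : X j < ((c j + H j : ℚ) : ℝ) + ε := by push_cast; linarith
      have hlo' : ((c j' - H j' : ℚ) : ℝ) - ε < X j' := by push_cast; linarith
      have hhi' : X j' < ((c j' + H j' : ℚ) : ℝ) + ε := by push_cast; linarith
      have hlo'' : ((c j'' - H j'' : ℚ) : ℝ) - ε < X j'' := by push_cast; linarith
      have hhi'' : X j'' < ((c j'' + H j'' : ℚ) : ℝ) + ε := by push_cast; linarith
      have e1 : p (X j) = X j - c j := linPlateau_eq hε hlo.le hhi.le
      have e2 : deriv p (X j) = 1 := deriv_linPlateau_eq_one hε hlo hhi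
      have e3 : deriv q (X j') = 1 := deriv_linPlateau_eq_one hε hlo' hhi'
      have e4 : q (X j') = X j' - c j' := linPlateau_eq hε hlo'.le hhi'.le
      have e5 : r (X j'') = 1 := plateau_eq_one hε hlo''.le hhi''.le
      simp [e1, e2, e3, e4, e5]
    rw [hU]
    have hd := ramp_hasDerivAt lam s e t
    rw [hasDerivAt_pi]
    intro l
    by_cases hl : l = j
    · subst hl
      have := ((hd.exp).mul_const (x l - c l)).const_add (c l : ℝ)
      simp only [if_true]
      have hval : ((Pi.single l (η t * (X l - c l)) - Pi.single j' (η t * (X j' - c j')) : Fin 3 → ℝ)) l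
          = Real.exp (lam * ramp s e t) * rampSpeed lam s e t * (x l - c l) := by
        rw [Pi.sub_apply, Pi.single_eq_same, Pi.single_eq_of_ne h1, hXj, hη, ← hθ]
        ring
      rw [hval]
      exact this
    · by_cases hl' : l = j'
      · subst hl'
        have hd' : HasDerivAt (fun t => -(lam * ramp s e t)) (-(rampSpeed lam s e t)) t := hd.neg
        have := ((hd'.exp).mul_const (x l - c l)).const_add (c l : ℝ)
        simp only [if_neg hl, if_true]
        have hval : ((Pi.single j (η t * (X j - c j)) - Pi.single l (η t * (X l - c l)) : Fin 3 → ℝ)) l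
            = Real.exp (-(lam * ramp s e t)) * (-(rampSpeed lam s e t)) * (x l - c l) := by
          rw [Pi.sub_apply, Pi.single_eq_same, Pi.single_eq_of_ne hl, hXj', hη, ← hθ]
          ring
        rw [hval]
        exact this
      · simp only [if_neg hl, if_neg hl']
        simpa [Pi.single_eq_of_ne hl, Pi.single_eq_of_ne hl'] using hasDerivAt_const t (x l)
  · intro x _
    have h1' : ramp s e 1 = 1 := ramp_of_ge hse (by exact_mod_cast he.le)
    funext l
    have hne : (h l : ℝ) ≠ 0 := (hposR l).ne'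
    by_cases hl : l = j
    · subst hl
      simp [affMap, h1', ← hc, ← hh, hne, hexp, Function.update_of_ne h1]
    · by_cases hl' : l = j'
      · subst hl'
        simp [affMap, h1', ← hc, ← hh, hne, hexpn, hl]
        left
        field_simp
      · simp [affMap, h1', ← hc, ← hh, hne, hl, hl', Function.update_of_ne hl,
          Function.update_of_ne hl']

end Crest.Agent.BoxFlow
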