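/-
BoxFlow / T15 : axis translation of one box through a free corridor.

Apply `reach_of_local` with `(w, R) = corridor (C i) j y`.  Given `ε, s, e`: pick `j' ≠ j`, `j''` the
third axis, `χ_l = plateau (w l - R l) (w l + R l) ε`,
  `η = rampSpeed (y - c_j) s e`, `p = χ_j`, `q = linPlateau (c_j') (w j' - R j') (w j' + R j') ε`, `r = χ_j''`,
  `U = ham η p q r j j'` (`ham_good`, `ham_apply`),
  `O = {x | ∀ l, |x l - c l| < h l + ε}`, `Γ t x = x + ((y - c_j) * ramp s e t) • e_j`
(the curve stays in the region where all plateaus are `1`, there `U (t, x) = η t • e_j`).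
-/
import Crest.Agent.BoxFlow.MoveCommon

set_option autoImplicit false
open scoped ContDiff
open Crest.AnalysisR.BoxFlow

namespace Crest.Agent.BoxFlow

/-- the two other axes. -/
theorem exists_other_axes (j : Fin 3) :
    ∃ j' j'' : Fin 3, j ≠ j' ∧ j'' ≠ j ∧ j'' ≠ j' ∧ ∀ l : Fin 3, l = j ∨ l = j' ∨ l = j'' := by
  fin_cases j
  · exact ⟨1, 2, by decide, by decide, by decide, by decide⟩
  · exact ⟨2, 0, by decide, by decide, by decide, by decide⟩
  · exact ⟨0, 1, by decide, by decide, by decide, by decide⟩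

/-- the third axis. -/
theorem exists_third_axis {j j' : Fin 3} (h : j ≠ j') :
    ∃ j'' : Fin 3, j'' ≠ j ∧ j'' ≠ j' ∧ ∀ l : Fin 3, l = j ∨ l = j' ∨ l = j'' := by
  revert j j'
  decide

theorem isOpen_openBox (c : Fin 3 → ℝ) (r : Fin 3 → ℝ) :
    IsOpen {x : Fin 3 → ℝ | ∀ l, |x l - c l| < r l} := by
  have : {x : Fin 3 → ℝ | ∀ l, |x l - c l| < r l} = ⋂ l, {x : Fin 3 → ℝ | |x l - c l| < r l} := by
    ext x; simp
  rw [this]
  refine isOpen_iInter_of_finite fun l => ?_
  exact isOpen_lt (by fun_prop) continuous_const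

theorem reach_moveTo {n : ℕ} (C : Conf n) (hC : C.Pos) (i : Fin n) (j : Fin 3) (y : ℚ)
    (hfree : ∀ i', i' ≠ i →
      Disjoint (box (corridor (C i) j y).1 (corridor (C i) j y).2) (box (C i').1 (C i').2)) :
    Reach C (C.moveTo i j y) := by
  obtain ⟨j', j'', h1, h2, h3, hall⟩ := exists_other_axes j
  set c := (C i).1 with hc
  set h := (C i).2 with hh
  have hpos : ∀ l, 0 < h l := fun l => hC i l
  set w := (corridor (C i) j y).1 with hw
  set R := (corridor (C i) j y).2 with hRdef
  have hwj : w j = (c j + y) / 2 := by simp [hw, corridor, hc]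
  have hRj : R j = h j + |y - c j| / 2 := by simp [hRdef, corridor, hc, hh]
  have hwl : ∀ l, l ≠ j → w l = c l := by
    intro l hl; simp [hw, corridor, hc, Function.update_of_ne hl]
  have hRl : ∀ l, l ≠ j → R l = h l := by
    intro l hl; simp [hRdef, corridor, hh, Function.update_of_ne hl]
  have hR0 : ∀ l, 0 ≤ R l := by
    intro l
    by_cases hl : l = j
    · subst hl; rw [hRj]; have := hpos l; positivity
    · rw [hRl l hl]; exact (hpos l).le
  refine reach_of_local C hC i (Function.update c j y, h) w R hR0 hfree ?_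
  intro ε s e hε hs hse he
  have hlu : ∀ l, w l - R l ≤ w l + R l := fun l => by linarith [hR0 l]
  set η : ℝ → ℝ := rampSpeed (((y - c j : ℚ)) : ℝ) s e with hη
  set p : ℝ → ℝ := plateau (w j - R j) (w j + R j) ε with hp
  set q : ℝ → ℝ := linPlateau (c j') (w j' - R j') (w j' + R j') ε with hq
  set r : ℝ → ℝ := plateau (w j'' - R j'') (w j'' + R j'') ε with hr
  have hεR : (0 : ℝ) < (ε : ℝ) := by exact_mod_cast hε
  refine ⟨ham η p q r j j', ?_, ?_, {x | ∀ l, |x l - (c l : ℝ)| < (h l : ℝ) + ε},
    fun t x => x + Pi.single j ((((y - c j : ℚ)) : ℝ) * ramp s e t), ?_, ?_, ?_, ?_, ?_⟩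
  · -- Good
    refine ham_good h1 (rampSpeed_eff (CompReal.ratCast _) s e hse) (plateau_eff _ _ _ hε)
      (linPlateau_eff _ _ _ _ hε (hlu j')) (plateau_eff _ _ _ hε)
      (rampSpeed_hasCompactSupport _ hse) (plateau_hasCompactSupport hε (hlu j))
      (linPlateau_hasCompactSupport hε (hlu j')) (plateau_hasCompactSupport hε (hlu j'')) ?_
    intro t ht
    exact rampSpeed_eq_zero hse ht
  · -- support
    intro t x hx
    rw [ham_apply η p q r h1 h2 h3]
    have hx' : ∃ l, ((R l + 2 * ε : ℚ) : ℝ) < |x l - (w l : ℝ)| := by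
      by_contra hcon
      push Not at hcon
      exact hx hcon
    obtain ⟨l, hl⟩ := hx'
    push_cast at hl
    have hcases : x l ≤ ((w l - R l : ℚ) : ℝ) - 2 * ε ∨ ((w l + R l : ℚ) : ℝ) + 2 * ε ≤ x l := by
      push_cast
      rcases lt_abs.1 hl with h' | h'
      · right; linarith
      · left; linarith
    rcases hall l with rfl | rfl | rfl
    · have e1 : p (x l) = 0 := by
        rcases hcases with h' | h'
        · exact plateau_eq_zero_of_le hε (hlu l) h'
        · exact plateau_eq_zero_of_ge hε (hlu l) h'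
      have e2 : deriv p (x l) = 0 := by
        rcases hcases with h' | h'
        · exact deriv_plateau_eq_zero_of_le hε (hlu l) h'
        · exact deriv_plateau_eq_zero_of_ge hε (hlu l) h'
      simp [e1, e2]
    · have e1 : q (x l) = 0 := by
        rcases hcases with h' | h'
        · exact linPlateau_eq_zero_of_le hε (hlu l) h'
        · exact linPlateau_eq_zero_of_ge hε (hlu l) h'
      have e2 : deriv q (x l) = 0 := by
        rcases hcases with h' | h'
        · exact deriv_linPlateau_eq_zero_of_le hε (hlu l) h'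
        · exact deriv_linPlateau_eq_zero_of_ge hε (hlu l) h'
      simp [e1, e2]
    · have e1 : r (x l) = 0 := by
        rcases hcases with h' | h'
        · exact plateau_eq_zero_of_le hε (hlu l) h'
        · exact plateau_eq_zero_of_ge hε (hlu l) h'
      simp [e1]
  · exact isOpen_openBox _ _
  · intro x hx l
    have := hx l
    linarith
  · intro x _
    have : ramp s e 0 = 0 := ramp_of_le hse (by exact_mod_cast hs.le)
    simp [this]
  · intro x hx t
    have hθ0 := ramp_nonneg s e t
    have hθ1 := ramp_le_one s e t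
    set θ := ramp s e t with hθ
    set X : Fin 3 → ℝ := x + Pi.single j ((((y - c j : ℚ)) : ℝ) * θ) with hX
    have hXj : X j = x j + (((y - c j : ℚ)) : ℝ) * θ := by simp [hX]
    have hXl : ∀ l, l ≠ j → X l = x l := by
      intro l hl; simp [hX, Pi.single_eq_of_ne hl]
    -- the value of the field
    have hU : ham η p q r j j' (t, X) = Pi.single j (η t) := by
      rw [ham_apply η p q r h1 h2 h3]
      have hxj := abs_lt.1 (hx j)
      have hxj' := abs_lt.1 (hx j')
      have hxj'' := abs_lt.1 (hx j'')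
      have habs : |((y : ℝ) - c j)| * (θ - 1/2) ≤ |((y : ℝ) - c j)| / 2 := by
        have := abs_nonneg ((y : ℝ) - c j); nlinarith
      have hlo : ((w j - R j : ℚ) : ℝ) - ε < X j := by
        rw [hXj, hwj, hRj]; push_cast
        rcases abs_cases ((y : ℝ) - c j) with ⟨ha, _⟩ | ⟨ha, _⟩ <;> rw [ha] <;> nlinarith
      have hhi : X j < ((w j + R j : ℚ) : ℝ) + ε := by
        rw [hXj, hwj, hRj]; push_cast
        rcases abs_cases ((y : ℝ) - c j) with ⟨ha, _⟩ | ⟨ha, _⟩ <;> rw [ha] <;> nlinarith
      have hlo' : ((w j' - R j' : ℚ) : ℝ) - ε < X j' := by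
        rw [hXl j' h1.symm, hwl j' h1.symm, hRl j' h1.symm]; push_cast; linarith
      have hhi' : X j' < ((w j' + R j' : ℚ) : ℝ) + ε := by
        rw [hXl j' h1.symm, hwl j' h1.symm, hRl j' h1.symm]; push_cast; linarith
      have hlo'' : ((w j'' - R j'' : ℚ) : ℝ) - ε < X j'' := by
        rw [hXl j'' h2, hwl j'' h2, hRl j'' h2]; push_cast; linarith
      have hhi'' : X j'' < ((w j'' + R j'' : ℚ) : ℝ) + ε := by
        rw [hXl j'' h2, hwl j'' h2, hRl j'' h2]; push_cast; linarith
      have e1 : p (X j) = 1 := plateau_eq_one hε hlo.le hhi.le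
      have e2 : deriv p (X j) = 0 := deriv_plateau_eq_zero hε hlo hhi
      have e3 : deriv q (X j') = 1 := deriv_linPlateau_eq_one hε hlo' hhi'
      have e4 : r (X j'') = 1 := plateau_eq_one hε hlo''.le hhi''.le
      simp [e1, e2, e3, e4]
    rw [hU]
    have hd := ramp_hasDerivAt (((y - c j : ℚ)) : ℝ) s e t
    rw [hasDerivAt_pi]
    intro l
    by_cases hl : l = j
    · subst hl
      simpa [hη] using hd.const_add (x l)
    · simpa [Pi.single_eq_of_ne hl] using hasDerivAt_const t (x l)
  · intro x _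
    have h1' : ramp s e 1 = 1 := ramp_of_ge hse (by exact_mod_cast he.le)
    funext l
    have hne : (h l : ℝ) ≠ 0 := by exact_mod_cast (hpos l).ne'
    by_cases hl : l = j
    · subst hl
      simp [affMap, h1', ← hc, ← hh, hne]
      ring
    · simp [affMap, h1', ← hc, ← hh, hne, Pi.single_eq_of_ne hl, Function.update_of_ne hl]

end Crest.Agent.BoxFlow
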