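/-
BoxFlow / T17 : motion planning, the parking steps.

Fix `D` (huge).  Parking place of box `i`: centre `(D (i+1), D (i+1), D (i+1))`.
`park D C S` = the configuration in which the boxes of `S` are parked (same half-widths).
 * `out_step` / `in_step`: if `i ∉ S` has the largest right end `c_0 + h_0` among the boxes not in
   `S`, box `i` can be parked / un-parked by three axis moves (axes 0,1,2 resp. 2,1,0).
   Corridor for axis 0: a point of it lying in a non-parked box `i'` has `x_0 ≤ r_{i'} ≤ r_i`, hence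
   lies in box `i`: contradiction; parked boxes are far away in coordinate 1.
   Corridors for axes 1,2 live in the slab `x_0 ∈ D(i+1) ± h`, which meets no other box.
-/
import Crest.Agent.BoxFlow.MoveTranslate

set_option autoImplicit false
open scoped ContDiff
open Crest.AnalysisR.BoxFlow

namespace Crest.Agent.BoxFlow

/-- parking position -/
def parkPos (D : ℚ) {n : ℕ} (i : Fin n) : Fin 3 → ℚ := fun _ => D * ((i : ℚ) + 1)

/-- the boxes in `S` are parked. -/
def park (D : ℚ) {n : ℕ} (C : Conf n) (S : Finset (Fin n)) : Conf n :=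
  fun i => if i ∈ S then (parkPos D i, (C i).2) else C i

/-- size conditions: every box of `C` lies in `[-L, L]^3`, has half-widths `≤ H`,
and `D` is large. -/
structure Sized {n : ℕ} (C : Conf n) (L H D : ℚ) : Prop where
  pos : C.Pos
  disj : Pairwise fun i i' => Disjoint (box (C i).1 (C i).2) (box (C i').1 (C i').2)
  inL : ∀ i j, |(C i).1 j| + (C i).2 j ≤ L
  leH : ∀ i j, (C i).2 j ≤ H
  big : L + 2 * H < D

theorem park_snd (D : ℚ) {n : ℕ} (C : Conf n) (S : Finset (Fin n)) (i : Fin n) :
    (park D C S i).2 = (C i).2 := by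
  unfold park; split_ifs <;> rfl

theorem park_pos {D : ℚ} {n : ℕ} {C : Conf n} (hC : C.Pos) (S : Finset (Fin n)) :
    (park D C S).Pos := by
  intro i j; rw [park_snd]; exact hC i j

theorem corridor_symm (c h : Fin 3 → ℚ) (j : Fin 3) (y : ℚ) :
    corridor (Function.update c j y, h) j (c j) = corridor (c, h) j y := by
  unfold corridor
  simp only [Function.update_self, Function.update_idem]
  rw [add_comm y (c j), abs_sub_comm (c j) y]

theorem mem_corridor_ne {A : (Fin 3 → ℚ) × (Fin 3 → ℚ)} {j l : Fin 3} {y : ℚ} {x : Fin 3 → ℝ}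
    (hx : x ∈ box (corridor A j y).1 (corridor A j y).2) (hl : l ≠ j) :
    |x l - (A.1 l : ℝ)| ≤ (A.2 l : ℝ) := by
  have := hx l
  simpa [corridor, Function.update_of_ne hl] using this

theorem mem_corridor_self {A : (Fin 3 → ℚ) × (Fin 3 → ℚ)} {j : Fin 3} {y : ℚ} {x : Fin 3 → ℝ}
    (hx : x ∈ box (corridor A j y).1 (corridor A j y).2) (hay : A.1 j ≤ y) :
    (A.1 j : ℝ) - A.2 j ≤ x j ∧ x j ≤ (y : ℝ) + A.2 j := by
  have h := hx j
  simp only [corridor, Function.update_self] at h
  have h1 : |y - A.1 j| = y - A.1 j := abs_of_nonneg (by linarith)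
  rw [h1] at h
  push_cast at h
  rw [abs_le] at h
  constructor <;> linarith [h.1, h.2]

/-- the configuration `park D C S` with box `i` re-centred at `c`. -/
def recentre (D : ℚ) {n : ℕ} (C : Conf n) (S : Finset (Fin n)) (i : Fin n) (c : Fin 3 → ℚ) :
    Conf n :=
  Function.update (park D C S) i (c, (C i).2)

theorem recentre_pos {D : ℚ} {n : ℕ} {C : Conf n} (hC : C.Pos) (S : Finset (Fin n)) (i : Fin n)
    (c : Fin 3 → ℚ) : (recentre D C S i c).Pos := by
  intro i' j
  unfold recentre
  by_cases h : i' = i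
  · subst h; simpa using hC i' j
  · rw [Function.update_of_ne h]; exact park_pos hC S i' j

theorem recentre_moveTo (D : ℚ) {n : ℕ} (C : Conf n) (S : Finset (Fin n)) (i : Fin n)
    (c : Fin 3 → ℚ) (j : Fin 3) (y : ℚ) :
    (recentre D C S i c).moveTo i j y = recentre D C S i (Function.update c j y) := by
  unfold Conf.moveTo recentre
  simp

theorem reach_recentre {D : ℚ} {n : ℕ} {C : Conf n} (hC : C.Pos) (S : Finset (Fin n)) (i : Fin n)
    (c : Fin 3 → ℚ) (j : Fin 3) (y : ℚ)
    (hfree : ∀ i', i' ≠ i → Disjoint (box (corridor (c, (C i).2) j y).1 (corridor (c, (C i).2) j y).2)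
      (box (park D C S i').1 (park D C S i').2)) :
    Reach (recentre D C S i c) (recentre D C S i (Function.update c j y)) := by
  rw [← recentre_moveTo]
  refine reach_moveTo _ (recentre_pos hC S i c) i j y ?_
  intro i' hi'
  have h1 : recentre D C S i c i = (c, (C i).2) := by simp [recentre]
  have h2 : recentre D C S i c i' = park D C S i' := by simp [recentre, Function.update_of_ne hi']
  rw [h1, h2]
  exact hfree i' hi'

theorem recentre_self {D : ℚ} {n : ℕ} (C : Conf n) (S : Finset (Fin n)) (i : Fin n) (hi : i ∉ S) :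
    recentre D C S i (C i).1 = park D C S := by
  unfold recentre
  have : park D C S i = ((C i).1, (C i).2) := by simp [park, hi]
  rw [← this, Function.update_eq_self]

theorem recentre_park {D : ℚ} {n : ℕ} (C : Conf n) (S : Finset (Fin n)) (i : Fin n) :
    recentre D C S i (parkPos D i) = park D C (insert i S) := by
  funext i'
  unfold recentre
  by_cases h : i' = i
  · subst h; simp [park]
  · rw [Function.update_of_ne h]; simp [park, h]

theorem one_le_abs_sub_of_ne {n : ℕ} {i i' : Fin n} (h : i ≠ i') :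
    (1 : ℝ) ≤ |((i : ℕ) : ℝ) - ((i' : ℕ) : ℝ)| := by
  have h' : (i : ℕ) ≠ (i' : ℕ) := fun e => h (Fin.ext e)
  rcases lt_or_gt_of_ne h' with hlt | hlt
  · have : ((i : ℕ) : ℝ) + 1 ≤ ((i' : ℕ) : ℝ) := by exact_mod_cast hlt
    rw [abs_sub_comm, abs_of_nonneg (by linarith)]; linarith
  · have : ((i' : ℕ) : ℝ) + 1 ≤ ((i : ℕ) : ℝ) := by exact_mod_cast hlt
    rw [abs_of_nonneg (by linarith)]; linarith

section steps
variable {n : ℕ} {C : Conf n} {L H D : ℚ}

/-- real versions of the size conditions -/
theorem Sized.inL' (hC : Sized C L H D) (i : Fin n) (j : Fin 3) :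
    |((C i).1 j : ℝ)| + ((C i).2 j : ℝ) ≤ (L : ℝ) := by
  have := (Rat.cast_le (K := ℝ)).mpr (hC.inL i j)
  push_cast at this; exact this

theorem Sized.leH' (hC : Sized C L H D) (i : Fin n) (j : Fin 3) :
    ((C i).2 j : ℝ) ≤ (H : ℝ) := by exact_mod_cast hC.leH i j

theorem Sized.pos' (hC : Sized C L H D) (i : Fin n) (j : Fin 3) :
    (0 : ℝ) < ((C i).2 j : ℝ) := by exact_mod_cast hC.pos i j

theorem Sized.big' (hC : Sized C L H D) : (L : ℝ) + 2 * H < D := by exact_mod_cast hC.big

/-- a box whose `0`-coordinate lies in the slab `D (i+1) ± h` meets no other box of `park D C S`. -/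
theorem slab_free (hC : Sized C L H D) (S : Finset (Fin n)) (i i' : Fin n) (hi' : i' ≠ i)
    (x : Fin 3 → ℝ) (hx : |x 0 - (D : ℝ) * ((i : ℕ) + 1)| ≤ ((C i).2 0 : ℝ))
    (hx' : x ∈ box (park D C S i').1 (park D C S i').2) : False := by
  have hb := hC.big'
  have hH := hC.leH' i 0
  have hH' := hC.leH' i' 0
  have hp := hC.pos' i 0
  have hp' := hC.pos' i' 0
  have hL := hC.inL' i' 0
  have hL0 : (0 : ℝ) ≤ L := by
    have := abs_nonneg ((C i').1 0 : ℝ); linarith
  have hD : (0 : ℝ) < D := by linarith
  have h0 := hx' 0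
  rw [abs_le] at hx
  by_cases hS : i' ∈ S
  · have e1 : (park D C S i').1 0 = D * ((i' : ℚ) + 1) := by simp [park, hS, parkPos]
    have e2 : (park D C S i').2 0 = (C i').2 0 := by rw [park_snd]
    rw [e1, e2] at h0
    push_cast at h0
    rw [abs_le] at h0
    have hsep := one_le_abs_sub_of_ne hi'
    rcases le_abs'.mp hsep with hs | hs
    · nlinarith [h0.1, h0.2, hx.1, hx.2]
    · nlinarith [h0.1, h0.2, hx.1, hx.2]
  · have e1 : park D C S i' = C i' := by simp [park, hS]
    rw [e1] at h0
    rw [abs_le] at h0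
    have hi0 : (0 : ℝ) ≤ ((i : ℕ) : ℝ) := Nat.cast_nonneg _
    have habs := le_abs_self ((C i').1 0 : ℝ)
    nlinarith [h0.1, h0.2, hx.1, hx.2]

/-- the parking coordinate -/
def parkY (D : ℚ) (i : Fin n) : ℚ := D * ((i : ℚ) + 1)

theorem le_parkY (hC : Sized C L H D) (i : Fin n) (j : Fin 3) : (C i).1 j ≤ parkY D i := by
  have hb := hC.big
  have hH := hC.leH i j
  have hp := hC.pos i j
  have hL := hC.inL i j
  have habs := le_abs_self ((C i).1 j)
  have hi0 : (0 : ℚ) ≤ ((i : ℕ) : ℚ) := Nat.cast_nonneg _
  have hD : (0 : ℚ) < D := by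
    have := abs_nonneg ((C i).1 j); linarith
  have hm : 0 ≤ D * ((i : ℕ) : ℚ) := mul_nonneg hD.le hi0
  unfold parkY
  linarith

theorem free1 (hC : Sized C L H D) (S : Finset (Fin n)) (i : Fin n) (hi : i ∉ S)
    (hmax : ∀ i', i' ∉ S → (C i').1 0 + (C i').2 0 ≤ (C i).1 0 + (C i).2 0)
    (i' : Fin n) (hi' : i' ≠ i) :
    Disjoint (box (corridor ((C i).1, (C i).2) 0 (parkY D i)).1
      (corridor ((C i).1, (C i).2) 0 (parkY D i)).2)
      (box (park D C S i').1 (park D C S i').2) := by
  rw [Set.disjoint_left]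
  intro x hx hx'
  by_cases hS : i' ∈ S
  · have h1 := mem_corridor_ne hx (l := 1) (by decide)
    have h0 := hx' 1
    have e1 : (park D C S i').1 1 = D * ((i' : ℚ) + 1) := by simp [park, hS, parkPos]
    have e2 : (park D C S i').2 1 = (C i').2 1 := by rw [park_snd]
    rw [e1, e2] at h0
    push_cast at h0
    rw [abs_le] at h0 h1
    simp only at h1
    have hb := hC.big'
    have hH' := hC.leH' i' 1
    have hp' := hC.pos' i' 1
    have hL := hC.inL' i 1
    have hp := hC.pos' i 1
    have habs := le_abs_self ((C i).1 1 : ℝ)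
    have hL0 : (0 : ℝ) ≤ L := by
      have := abs_nonneg ((C i).1 1 : ℝ); linarith
    have hi0 : (0 : ℝ) ≤ ((i' : ℕ) : ℝ) := Nat.cast_nonneg _
    nlinarith [h0.1, h0.2, h1.1, h1.2]
  · have e1 : park D C S i' = C i' := by simp [park, hS]
    rw [e1] at hx'
    have hxi : x ∈ box (C i).1 (C i).2 := by
      intro l
      by_cases hl : l = 0
      · subst hl
        have h2 := (mem_corridor_self hx (le_parkY hC i 0)).1
        have h3 := hx' 0
        rw [abs_le] at h3
        have h4 : ((C i').1 0 : ℝ) + (C i').2 0 ≤ (C i).1 0 + (C i).2 0 := by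
          exact_mod_cast hmax i' hS
        simp only at h2
        rw [abs_le]
        constructor <;> linarith [h3.1, h3.2]
      · exact mem_corridor_ne hx hl
    exact Set.disjoint_left.mp (hC.disj hi') hx' hxi

theorem free_slab (hC : Sized C L H D) (S : Finset (Fin n)) (i : Fin n) (c : Fin 3 → ℚ)
    (hc : c 0 = parkY D i) (j : Fin 3) (hj : j ≠ 0) (y : ℚ) (i' : Fin n) (hi' : i' ≠ i) :
    Disjoint (box (corridor (c, (C i).2) j y).1 (corridor (c, (C i).2) j y).2)
      (box (park D C S i').1 (park D C S i').2) := by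
  rw [Set.disjoint_left]
  intro x hx hx'
  have h1 := mem_corridor_ne hx (l := 0) (Ne.symm hj)
  simp only [hc, parkY] at h1
  push_cast at h1
  exact slab_free hC S i i' hi' x h1 hx'

theorem update3 (c : Fin 3 → ℚ) (y : ℚ) :
    Function.update (Function.update (Function.update c 0 y) 1 y) 2 y = fun _ => y := by
  funext l; fin_cases l <;> simp

theorem out_step (hC : Sized C L H D) (S : Finset (Fin n))
    (i : Fin n) (hi : i ∉ S)
    (hmax : ∀ i', i' ∉ S → (C i').1 0 + (C i').2 0 ≤ (C i).1 0 + (C i).2 0) :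
    Reach (park D C S) (park D C (insert i S)) := by
  set Y := parkY D i with hY
  set c0 := (C i).1 with hc0
  set c1 := Function.update c0 0 Y with hc1
  set c2 := Function.update c1 1 Y with hc2
  have r1 : Reach (recentre D C S i c0) (recentre D C S i c1) :=
    reach_recentre hC.pos S i c0 0 Y (free1 hC S i hi hmax)
  have r2 : Reach (recentre D C S i c1) (recentre D C S i c2) :=
    reach_recentre hC.pos S i c1 1 Y (free_slab hC S i c1 (by simp [hc1, hY]) 1 (by decide) Y)
  have r3 : Reach (recentre D C S i c2) (recentre D C S i (Function.update c2 2 Y)) :=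
    reach_recentre hC.pos S i c2 2 Y (free_slab hC S i c2 (by simp [hc2, hc1, hY]) 2 (by decide) Y)
  have e3 : Function.update c2 2 Y = parkPos D i := by
    rw [hc2, hc1, update3]; rfl
  rw [e3, recentre_park] at r3
  rw [hc0, recentre_self C S i hi] at r1
  exact (r1.trans (park_pos hC.pos S) (recentre_pos hC.pos S i c1)
    (r2.trans (recentre_pos hC.pos S i c1) (recentre_pos hC.pos S i c2) r3))

theorem in_step (hC : Sized C L H D) (S : Finset (Fin n))
    (i : Fin n) (hi : i ∉ S)
    (hmax : ∀ i', i' ∉ S → (C i').1 0 + (C i').2 0 ≤ (C i).1 0 + (C i).2 0) :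
    Reach (park D C (insert i S)) (park D C S) := by
  set Y := parkY D i with hY
  set c0 := (C i).1 with hc0
  set c1 := Function.update c0 0 Y with hc1
  set c2 := Function.update c1 1 Y with hc2
  set c3 := Function.update c2 2 Y with hc3
  have b3 : Function.update c3 2 (c2 2) = c2 := by
    rw [hc3, Function.update_idem, Function.update_eq_self]
  have b2 : Function.update c2 1 (c1 1) = c1 := by
    rw [hc2, Function.update_idem, Function.update_eq_self]
  have b1 : Function.update c1 0 (c0 0) = c0 := by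
    rw [hc1, Function.update_idem, Function.update_eq_self]
  have r3 : Reach (recentre D C S i c3) (recentre D C S i c2) := by
    have := reach_recentre hC.pos S i c3 2 (c2 2) (by
      intro i' hi'
      rw [hc3, corridor_symm]
      exact free_slab hC S i c2 (by simp [hc2, hc1, hY]) 2 (by decide) Y i' hi')
    rwa [b3] at this
  have r2 : Reach (recentre D C S i c2) (recentre D C S i c1) := by
    have := reach_recentre hC.pos S i c2 1 (c1 1) (by
      intro i' hi'
      rw [hc2, corridor_symm]
      exact free_slab hC S i c1 (by simp [hc1, hY]) 1 (by decide) Y i' hi')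
    rwa [b2] at this
  have r1 : Reach (recentre D C S i c1) (recentre D C S i c0) := by
    have := reach_recentre hC.pos S i c1 0 (c0 0) (by
      intro i' hi'
      rw [hc1, corridor_symm]
      exact free1 hC S i hi hmax i' hi')
    rwa [b1] at this
  have e3 : c3 = parkPos D i := by
    rw [hc3, hc2, hc1, update3]; rfl
  rw [e3, recentre_park] at r3
  rw [hc0, recentre_self C S i hi] at r1
  exact (r3.trans (park_pos hC.pos _) (recentre_pos hC.pos S i c2)
    (r2.trans (recentre_pos hC.pos S i c2) (recentre_pos hC.pos S i c1) r1))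

end steps

end Crest.Agent.BoxFlow
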