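/-
BoxFlow / T18 : motion planning, assembly.
 * `reach_park`, `reach_unpark`: induction on the number of non-parked boxes: prove
   `∀ S, Reach (park D C S) (park D C univ)` and `∀ S, Reach (park D C univ) (park D C S)`, choosing
   `i ∉ S` with the largest right end (`Finset.exists_max_image`), `out_step` / `in_step`, `Reach.trans`.
 * `reach_rescale`: Finset induction over the already rescaled boxes; each box needs
   `reach_scale` for `(0,1)` with `ρ = k 0 / h 0` and for `(1,2)` with `ρ = k 0 * k 1 / (h 0 * h 1)`.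
 * `reach_main`: `L = ∑ (|a|+h+|b|+k)`, `H = ∑ (h+k) + ∑ h 0 * h 1 / k 0`, `D = L + 2 H + 1`.
-/
import Crest.Agent.BoxFlow.PlanStep
import Crest.Agent.BoxFlow.MoveScale

set_option autoImplicit false
open scoped ContDiff
open Crest.AnalysisR.BoxFlow

namespace Crest.Agent.BoxFlow

theorem park_empty (D : ℚ) {n : ℕ} (C : Conf n) : park D C ∅ = C := by
  funext i; simp [park]

theorem card_sdiff_insert {n : ℕ} {S : Finset (Fin n)} {i : Fin n} {m : ℕ} (hi : i ∉ S)
    (hS : (Finset.univ \ S).card = m + 1) : (Finset.univ \ insert i S).card = m := by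
  have h1 : Finset.univ \ insert i S = (Finset.univ \ S).erase i := by
    ext x; simp [Finset.mem_sdiff, Finset.mem_erase, not_or]
  rw [h1, Finset.card_erase_of_mem (by simp [hi]), hS]; rfl

theorem reach_park_aux {n : ℕ} {C : Conf n} {L H D : ℚ} (hC : Sized C L H D) :
    ∀ (m : ℕ) (S : Finset (Fin n)), (Finset.univ \ S).card = m →
      Reach (park D C S) (park D C Finset.univ) ∧ Reach (park D C Finset.univ) (park D C S) := by
  intro m
  induction m with
  | zero =>
    intro S hS
    have : S = Finset.univ := by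
      rw [Finset.card_eq_zero, Finset.sdiff_eq_empty_iff_subset] at hS
      exact Finset.univ_subset_iff.mp hS
    subst this
    exact ⟨Reach.refl _ (park_pos hC.pos _), Reach.refl _ (park_pos hC.pos _)⟩
  | succ m ih =>
    intro S hS
    have hne : (Finset.univ \ S).Nonempty := by
      rw [← Finset.card_pos, hS]; exact Nat.succ_pos m
    obtain ⟨i, hi, hmax⟩ :=
      Finset.exists_max_image (Finset.univ \ S) (fun i => (C i).1 0 + (C i).2 0) hne
    have hiS : i ∉ S := by simpa using hi
    have hmax' : ∀ i', i' ∉ S → (C i').1 0 + (C i').2 0 ≤ (C i).1 0 + (C i).2 0 :=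
      fun i' hi' => hmax i' (by simpa using hi')
    obtain ⟨h1, h2⟩ := ih (insert i S) (card_sdiff_insert hiS hS)
    exact ⟨(out_step hC S i hiS hmax').trans (park_pos hC.pos _) (park_pos hC.pos _) h1,
      h2.trans (park_pos hC.pos _) (park_pos hC.pos _) (in_step hC S i hiS hmax')⟩

theorem reach_park {n : ℕ} {C : Conf n} {L H D : ℚ} (hC : Sized C L H D) :
    Reach C (park D C Finset.univ) := by
  have := (reach_park_aux hC _ ∅ rfl).1
  rwa [park_empty] at this

theorem reach_unpark {n : ℕ} {C : Conf n} {L H D : ℚ} (hC : Sized C L H D) :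
    Reach (park D C Finset.univ) C := by
  have := (reach_park_aux hC _ ∅ rfl).2
  rwa [park_empty] at this

/-- parked configuration with half-widths `w`. -/
def parked (D : ℚ) {n : ℕ} (w : Fin n → Fin 3 → ℚ) : Conf n := fun i => (parkPos D i, w i)

theorem parked_free {n : ℕ} {H D : ℚ} (hH0 : 0 ≤ H) (hD : 2 * H < D) (w' : Fin 3 → ℚ)
    (hw' : ∀ l, w' l ≤ H) (i i' : Fin n) (hi' : i' ≠ i) :
    Disjoint (box (parkPos D i) (fun _ => H)) (box (parkPos D i') w') := by
  rw [Set.disjoint_left]
  intro x hx hx'
  have h0 := hx 0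
  have h1 := hx' 0
  simp only [parkPos] at h0 h1
  push_cast at h0 h1
  rw [abs_le] at h0 h1
  have hw : (w' 0 : ℝ) ≤ H := by exact_mod_cast hw' 0
  have hD' : 2 * (H : ℝ) < D := by exact_mod_cast hD
  have hH0' : (0 : ℝ) ≤ H := by exact_mod_cast hH0
  have hsep := one_le_abs_sub_of_ne hi'
  rcases le_abs'.mp hsep with hs | hs
  · nlinarith [h0.1, h0.2, h1.1, h1.2]
  · nlinarith [h0.1, h0.2, h1.1, h1.2]

theorem parked_scale (D : ℚ) {n : ℕ} (w : Fin n → Fin 3 → ℚ) (i : Fin n) (j j' : Fin 3) (ρ : ℚ) :
    (parked D w).scale i j j' ρ =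
      parked D (Function.update w i
        (Function.update (Function.update (w i) j (ρ * w i j)) j' (w i j' / ρ))) := by
  funext i'
  unfold Conf.scale parked
  by_cases h : i' = i
  · subst h; simp
  · simp [Function.update_of_ne h]

theorem reach_parked_scale {n : ℕ} {H D : ℚ} (hD : 2 * H < D) (w : Fin n → Fin 3 → ℚ)
    (hw : ∀ i l, 0 < w i l) (hwH : ∀ i l, w i l ≤ H) (i : Fin n) {j j' : Fin 3} (hjj' : j ≠ j')
    (ρ : ℚ) (hρ : 0 < ρ)
    (hnew : ∀ l, (Function.update (Function.update (w i) j (ρ * w i j)) j' (w i j' / ρ)) l ≤ H) :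
    Reach (parked D w) (parked D (Function.update w i
        (Function.update (Function.update (w i) j (ρ * w i j)) j' (w i j' / ρ)))) := by
  rw [← parked_scale]
  have hH0 : 0 ≤ H := le_trans (hw i 0).le (hwH i 0)
  refine reach_scale (parked D w) (fun i l => hw i l) i hjj' ρ hρ (fun _ => H) ?_ ?_
  · intro l
    refine ⟨hwH i l, ?_⟩
    rw [parked_scale]
    simpa [parked] using hnew l
  · intro i' hi'
    exact parked_free hH0 hD (w i') (hwH i') i i' hi'

/-- rescaling of one parked box. -/
theorem reach_rescale_one {n : ℕ} {H D : ℚ} (hD : 2 * H < D) (w : Fin n → Fin 3 → ℚ)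
    (hw : ∀ i l, 0 < w i l) (hwH : ∀ i l, w i l ≤ H) (i : Fin n) (k : Fin 3 → ℚ)
    (hk : ∀ l, 0 < k l) (hkH : ∀ l, k l ≤ H) (hvol : ∏ l : Fin 3, k l / w i l = 1)
    (hH' : w i 0 * w i 1 / k 0 ≤ H) :
    Reach (parked D w) (parked D (Function.update w i k)) := by
  have h0 := hw i 0
  have h1 := hw i 1
  have h2 := hw i 2
  have k0 := hk 0
  have k1 := hk 1
  have k2 := hk 2
  have hvol' : k 0 * k 1 * k 2 = w i 0 * w i 1 * w i 2 := by
    rw [Fin.prod_univ_three] at hvol
    field_simp at hvol
    linarith
  set ρ₁ : ℚ := k 0 / w i 0 with hρ₁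
  set v₁ : Fin 3 → ℚ :=
    Function.update (Function.update (w i) 0 (ρ₁ * w i 0)) 1 (w i 1 / ρ₁) with hv₁
  have ev₁ : v₁ = ![k 0, w i 0 * w i 1 / k 0, w i 2] := by
    funext l
    fin_cases l
    · simp [hv₁, hρ₁]; field_simp
    · simp [hv₁, hρ₁]; field_simp
    · simp [hv₁]
  set w₁ := Function.update w i v₁ with hw₁
  have r1 : Reach (parked D w) (parked D w₁) := by
    refine reach_parked_scale hD w hw hwH i (by decide) ρ₁ (by positivity) ?_
    intro l
    change v₁ l ≤ H
    rw [ev₁]
    fin_cases l
    · simpa using hkH 0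
    · simpa using hH'
    · simpa using hwH i 2
  have hw₁i : w₁ i = v₁ := by simp [hw₁]
  have hw₁pos : ∀ i' l, 0 < w₁ i' l := by
    intro i' l
    by_cases h : i' = i
    · subst h
      rw [hw₁i, ev₁]
      fin_cases l
      · simpa using k0
      · simp; positivity
      · simpa using h2
    · rw [hw₁, Function.update_of_ne h]; exact hw i' l
  have hw₁H : ∀ i' l, w₁ i' l ≤ H := by
    intro i' l
    by_cases h : i' = i
    · subst h
      rw [hw₁i, ev₁]
      fin_cases l
      · simpa using hkH 0
      · simpa using hH'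
      · simpa using hwH i' 2
    · rw [hw₁, Function.update_of_ne h]; exact hwH i' l
  set ρ₂ : ℚ := k 0 * k 1 / (w i 0 * w i 1) with hρ₂
  have ev₂ : Function.update (Function.update (w₁ i) 1 (ρ₂ * w₁ i 1)) 2 (w₁ i 2 / ρ₂) = k := by
    rw [hw₁i, ev₁]
    funext l
    fin_cases l
    · simp
    · simp [hρ₂]; field_simp
    · simp [hρ₂]; field_simp; linarith
  have r2 : Reach (parked D w₁) (parked D (Function.update w₁ i k)) := by
    have := reach_parked_scale hD w₁ hw₁pos hw₁H i (j := 1) (j' := 2) (by decide) ρ₂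
      (by positivity) (by rw [ev₂]; exact hkH)
    rwa [ev₂] at this
  have e : Function.update w₁ i k = Function.update w i k := by
    rw [hw₁, Function.update_idem]
  rw [e] at r2
  exact r1.trans (fun i l => hw i l) (fun i l => hw₁pos i l) r2

/-- rescaling of all parked boxes. `H` also has to dominate the intermediate half-width
`h 0 * h 1 / k 0`. -/
theorem reach_rescale {n : ℕ} (h k : Fin n → Fin 3 → ℚ) (hh : ∀ i j, 0 < h i j)
    (hk : ∀ i j, 0 < k i j) (hvol : ∀ i, ∏ j : Fin 3, k i j / h i j = 1) (H D : ℚ)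
    (hH : ∀ i j, h i j ≤ H ∧ k i j ≤ H) (hH' : ∀ i, h i 0 * h i 1 / k i 0 ≤ H) (hD : 2 * H < D) :
    Reach (fun i => (parkPos D i, h i)) (fun i => (parkPos D i, k i)) := by
  classical
  -- mixed configuration
  let W : Finset (Fin n) → Fin n → Fin 3 → ℚ := fun S i => if i ∈ S then k i else h i
  have hWpos : ∀ S i l, 0 < W S i l := by
    intro S i l; simp only [W]; split_ifs
    · exact hk i l
    · exact hh i l
  have hWH : ∀ S i l, W S i l ≤ H := by
    intro S i l; simp only [W]; split_ifs
    · exact (hH i l).2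
    · exact (hH i l).1
  have key : ∀ S : Finset (Fin n), Reach (parked D (W ∅)) (parked D (W S)) := by
    intro S
    induction S using Finset.induction_on with
    | empty => exact Reach.refl _ (fun i l => hWpos ∅ i l)
    | insert i S hi ih =>
      have hWi : W S i = h i := by simp [W, hi]
      have e : Function.update (W S) i (k i) = W (insert i S) := by
        funext i'
        by_cases hi' : i' = i
        · subst hi'; simp [W]
        · simp [W, hi']
      have r := reach_rescale_one hD (W S) (hWpos S) (hWH S) i (k i) (hk i) (fun l => (hH i l).2)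
        (by rw [hWi]; exact hvol i) (by rw [hWi]; exact hH' i)
      rw [e] at r
      exact ih.trans (fun i l => hWpos ∅ i l) (fun i l => hWpos S i l) r
  have := key Finset.univ
  have e0 : parked D (W ∅) = fun i => (parkPos D i, h i) := by
    funext i; simp [parked, W]
  have e1 : parked D (W Finset.univ) = fun i => (parkPos D i, k i) := by
    funext i; simp [parked, W]
  rwa [e0, e1] at this

theorem le_sum_sum {n : ℕ} (f : Fin n → Fin 3 → ℚ) (hf : ∀ i j, 0 ≤ f i j) (i : Fin n) (j : Fin 3) :
    f i j ≤ ∑ i, ∑ j, f i j :=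
  le_trans (Finset.single_le_sum (f := fun j => f i j) (fun j _ => hf i j) (Finset.mem_univ j))
    (Finset.single_le_sum (f := fun i => ∑ j, f i j)
      (fun i _ => Finset.sum_nonneg (fun j _ => hf i j)) (Finset.mem_univ i))

/-- the main theorem in terms of `Reach`. -/
theorem reach_main (n : ℕ) (a b h k : Fin n → Fin 3 → ℚ)
    (hh : ∀ i j, 0 < h i j) (hk : ∀ i j, 0 < k i j)
    (ha : Pairwise fun i i' => Disjoint (box (a i) (h i)) (box (a i') (h i')))
    (hb : Pairwise fun i i' => Disjoint (box (b i) (k i)) (box (b i') (k i')))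
    (hvol : ∀ i, ∏ j : Fin 3, k i j / h i j = 1) :
    Reach (fun i => (a i, h i)) (fun i => (b i, k i)) := by
  set L : ℚ := ∑ i, ∑ j, (|a i j| + h i j + |b i j| + k i j) with hL
  set H₁ : ℚ := ∑ i, ∑ j, (h i j + k i j) with hH₁
  set H₂ : ℚ := ∑ i, h i 0 * h i 1 / k i 0 with hH₂
  set H : ℚ := H₁ + H₂ with hH
  set D : ℚ := L + 2 * H + 1 with hD
  have hLle : ∀ i j, |a i j| + h i j + |b i j| + k i j ≤ L := fun i j =>
    le_sum_sum (fun i j => |a i j| + h i j + |b i j| + k i j)
      (fun i j => by have := hh i j; have := hk i j; positivity) i j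
  have hH₁le : ∀ i j, h i j + k i j ≤ H₁ := fun i j =>
    le_sum_sum (fun i j => h i j + k i j)
      (fun i j => by have := hh i j; have := hk i j; positivity) i j
  have hH₂nn : ∀ i, 0 ≤ h i 0 * h i 1 / k i 0 := fun i => by
    have := hh i 0; have := hh i 1; have := hk i 0; positivity
  have hH₂le : ∀ i, h i 0 * h i 1 / k i 0 ≤ H₂ := fun i =>
    Finset.single_le_sum (f := fun i => h i 0 * h i 1 / k i 0) (fun i _ => hH₂nn i)
      (Finset.mem_univ i)
  have hH₂0 : 0 ≤ H₂ := Finset.sum_nonneg (fun i _ => hH₂nn i)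
  have hH₁0 : 0 ≤ H₁ := Finset.sum_nonneg (fun i _ => Finset.sum_nonneg (fun j _ => by
    have := hh i j; have := hk i j; positivity))
  have sA : Sized (fun i => (a i, h i)) L H D :=
    { pos := hh
      disj := ha
      inL := fun i j => by
        have := hLle i j; have := hk i j; have := abs_nonneg (b i j)
        simp only; linarith
      leH := fun i j => by
        have := hH₁le i j; have := hk i j
        simp only; linarith
      big := by rw [hD]; linarith }
  have sB : Sized (fun i => (b i, k i)) L H D :=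
    { pos := hk
      disj := hb
      inL := fun i j => by
        have := hLle i j; have := hh i j; have := abs_nonneg (a i j)
        simp only; linarith
      leH := fun i j => by
        have := hH₁le i j; have := hh i j
        simp only; linarith
      big := by rw [hD]; linarith }
  have hL0 : 0 ≤ L := Finset.sum_nonneg (fun i _ => Finset.sum_nonneg (fun j _ => by
    have := hh i j; have := hk i j; positivity))
  have r1 := reach_park sA
  have r3 := reach_unpark sB
  have r2 := reach_rescale h k hh hk hvol H D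
    (fun i j => by
      have := hH₁le i j; have := hh i j; have := hk i j
      constructor <;> linarith)
    (fun i => by have := hH₂le i; linarith) (by rw [hD]; linarith)
  have e1 : park D (fun i => (a i, h i)) Finset.univ = fun i => (parkPos D i, h i) := by
    funext i; simp [park]
  have e3 : park D (fun i => (b i, k i)) Finset.univ = fun i => (parkPos D i, k i) := by
    funext i; simp [park]
  rw [e1] at r1
  rw [e3] at r3
  have p1 : Conf.Pos (fun i => (a i, h i) : Conf n) := hh
  have p2 : Conf.Pos (fun i => (parkPos D i, h i) : Conf n) := hh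
  have p3 : Conf.Pos (fun i => (parkPos D i, k i) : Conf n) := hk
  exact Reach.trans p1 p2 r1 (Reach.trans p2 p3 r2 r3)

end Crest.Agent.BoxFlow
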