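import Mathlib

/-!
# M1 (S0170): computability of the `Denumerable ℚ` coding, and primitive recursive arithmetic on
natural-number triples `(a, b, d) ~ (a - b) / (d + 1)`.
-/

set_option autoImplicit false

namespace Crest.Agent.BoxFlow

open Encodable

/-! ## General search lemma -/

/-- Unbounded search for a total computable predicate is computable. -/
theorem computable_find {α : Type*} [Primcodable α] {p : α → ℕ → Bool} (hp : Computable₂ p)
    (h : ∀ a, ∃ n, p a n = true) : Computable (fun a => Nat.find (h a)) := by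
  have h1 : Partrec (fun a => Nat.rfind (fun n => (Part.some (p a n) : Part Bool))) :=
    Partrec.rfind (p := fun a n => (Part.some (p a n) : Part Bool)) hp.partrec₂
  refine h1.of_eq_tot (fun a => ?_)
  rw [Nat.mem_rfind]
  refine ⟨?_, ?_⟩
  · simpa using Nat.find_spec (h a)
  · intro m hm
    have := Nat.find_min (h a) hm
    simpa using this

/-! ## The `Denumerable ℚ` coding -/

/-- The underlying (non-surjective) coding of `ℚ`. -/
noncomputable abbrev encQ : ℚ → ℕ := @Encodable.encode ℚ Rat.instEncodable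

theorem encQ_eq (q : ℚ) : encQ q = Nat.pair (encode q.num) q.den := rfl

/-- absolute value of the integer with code `c` -/
def absC (c : ℕ) : ℕ := bif c.bodd then c.div2 + 1 else c.div2

theorem encode_int_ofNat (m : ℕ) : encode (Int.ofNat m) = 2 * m := rfl
theorem encode_int_negSucc (m : ℕ) : encode (Int.negSucc m) = 2 * m + 1 := rfl

theorem natAbs_eq_absC (z : ℤ) : z.natAbs = absC (encode z) := by
  cases z with
  | ofNat m => rw [encode_int_ofNat]; simp [absC]
  | negSucc m => rw [encode_int_negSucc]; simp [absC, Nat.div2_val]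

/-- Membership in the range of `encQ`, in arithmetic form. -/
def IsCode (m : ℕ) : Prop :=
  0 < m.unpair.2 ∧
    ∀ k < m.unpair.2 + 1, ¬ (2 ≤ k ∧ absC m.unpair.1 % k = 0 ∧ m.unpair.2 % k = 0)

theorem mem_range_encQ_iff (m : ℕ) : m ∈ Set.range encQ ↔ IsCode m := by
  constructor
  · rintro ⟨q, rfl⟩
    rw [encQ_eq]
    refine ⟨by simpa using q.den_pos, ?_⟩
    intro k _ ⟨hk2, hk1, hk3⟩
    simp only [Nat.unpair_pair] at hk1 hk3
    rw [← natAbs_eq_absC] at hk1
    have h1 : k ∣ q.num.natAbs := Nat.dvd_of_mod_eq_zero hk1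
    have h2 : k ∣ q.den := Nat.dvd_of_mod_eq_zero hk3
    have h3 : k ∣ 1 := by
      have := Nat.dvd_gcd h1 h2
      rwa [q.reduced] at this
    have := Nat.le_of_dvd one_pos h3
    omega
  · rintro ⟨hd, hk⟩
    obtain ⟨z, hz⟩ : ∃ z : ℤ, encode z = m.unpair.1 :=
      ⟨Equiv.intEquivNat.symm m.unpair.1, Equiv.intEquivNat.apply_symm_apply _⟩
    have hcop : Nat.Coprime z.natAbs m.unpair.2 := by
      rw [natAbs_eq_absC, hz]
      by_contra hne
      set g := Nat.gcd (absC m.unpair.1) m.unpair.2 with hg
      have hg1 : g ∣ absC m.unpair.1 := Nat.gcd_dvd_left _ _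
      have hg2 : g ∣ m.unpair.2 := Nat.gcd_dvd_right _ _
      have hg0 : 0 < g := Nat.gcd_pos_of_pos_right _ hd
      have hgle : g ≤ m.unpair.2 := Nat.le_of_dvd hd hg2
      have hg2' : 2 ≤ g := by
        have : g ≠ 1 := hne
        omega
      exact hk g (by omega) ⟨hg2', Nat.mod_eq_zero_of_dvd hg1, Nat.mod_eq_zero_of_dvd hg2⟩
    refine ⟨⟨z, m.unpair.2, hd.ne', hcop⟩, ?_⟩
    rw [encQ_eq]
    simp only [hz, Nat.pair_unpair]

theorem primrec_absC : Primrec absC :=
  Primrec.cond Primrec.nat_bodd (Primrec.succ.comp Primrec.nat_div2) Primrec.nat_div2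

theorem primrecPred_isCode : PrimrecPred IsCode := by
  have hu1 : Primrec (fun m : ℕ => m.unpair.1) := Primrec.fst.comp Primrec.unpair
  have hu2 : Primrec (fun m : ℕ => m.unpair.2) := Primrec.snd.comp Primrec.unpair
  have hR : PrimrecRel (fun k m : ℕ =>
      ¬ (2 ≤ k ∧ absC m.unpair.1 % k = 0 ∧ m.unpair.2 % k = 0)) := by
    refine PrimrecPred.not ?_
    refine PrimrecPred.and ?_ (PrimrecPred.and ?_ ?_)
    · exact Primrec.nat_le.comp (Primrec.const 2) Primrec.fst
    · exact Primrec.eq.comp
        (Primrec.nat_mod.comp (primrec_absC.comp (hu1.comp Primrec.snd)) Primrec.fst)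
        (Primrec.const 0)
    · exact Primrec.eq.comp
        (Primrec.nat_mod.comp (hu2.comp Primrec.snd) Primrec.fst) (Primrec.const 0)
  refine PrimrecPred.and ?_ ?_
  · exact Primrec.nat_lt.comp (Primrec.const 0) hu2
  · exact hR.forall_lt.comp (Primrec.succ.comp hu2) Primrec.id

/-- The range of `encQ`. -/
noncomputable abbrev sQ : Set ℕ := Set.range encQ

noncomputable instance instDecSQ : DecidablePred (· ∈ sQ) :=
  @Encodable.decidableRangeEncode ℚ Rat.instEncodable

instance instInfSQ : Infinite sQ :=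
  Infinite.of_injective _
    (Equiv.ofInjective _ (@Encodable.encode_injective ℚ Rat.instEncodable)).injective

theorem encQ_ofNat (n : ℕ) : encQ (Denumerable.ofNat ℚ n) = (Nat.Subtype.ofNat sQ n : ℕ) := by
  have : (Denumerable.ofNat ℚ n) =
      (Encodable.equivRangeEncode ℚ).symm (Nat.Subtype.ofNat sQ n) := rfl
  rw [this]
  have h := (Encodable.equivRangeEncode ℚ).apply_symm_apply (Nat.Subtype.ofNat sQ n)
  exact congrArg Subtype.val h

/-- `n ↦ encQ (n-th rational)` is computable. -/
theorem computable_encQ_ofNat : Computable (fun n : ℕ => encQ (Denumerable.ofNat ℚ n)) := by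
  classical
  obtain ⟨_, hdec⟩ := primrecPred_isCode
  -- the step function
  have hstep : Partrec₂ (fun (_ : ℕ) (p : ℕ × ℕ) =>
      (Nat.rfind (fun m => (Part.some (decide (IsCode (p.2 + m + 1))) : Part Bool))).map
        (fun m => p.2 + m + 1)) := by
    have h1 : Partrec (fun a : ℕ × (ℕ × ℕ) =>
        Nat.rfind (fun m => (Part.some (decide (IsCode (a.2.2 + m + 1))) : Part Bool))) := by
      refine Partrec.rfind (p := fun (a : ℕ × (ℕ × ℕ)) m =>
        (Part.some (decide (IsCode (a.2.2 + m + 1))) : Part Bool)) ?_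
      have : Computable₂ (fun (a : ℕ × (ℕ × ℕ)) (m : ℕ) => decide (IsCode (a.2.2 + m + 1))) := by
        refine (hdec.comp ?_).to_comp
        exact Primrec.succ.comp (Primrec.nat_add.comp
          (Primrec.snd.comp (Primrec.snd.comp Primrec.fst)) Primrec.snd)
      exact this.partrec₂
    refine h1.map ?_
    refine Primrec.to_comp ?_
    exact Primrec.succ.comp (Primrec.nat_add.comp
          (Primrec.snd.comp (Primrec.snd.comp Primrec.fst)) Primrec.snd)
  have hrec := Partrec.nat_rec (α := ℕ) (σ := ℕ) (f := fun n => n)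
    (g := fun _ => Part.some ((⊥ : sQ) : ℕ)) Computable.id (Computable.const _).partrec hstep
  refine hrec.of_eq_tot (fun n => ?_)
  simp only [encQ_ofNat]
  induction n with
  | zero => simp [Nat.Subtype.ofNat]
  | succ n ih =>
    simp only [Part.mem_bind_iff]
    refine ⟨_, ih, ?_⟩
    simp only [Part.mem_map_iff]
    have hex : ∃ m, ((Nat.Subtype.ofNat sQ n : sQ) : ℕ) + m + 1 ∈ sQ :=
      Nat.Subtype.exists_succ _
    refine ⟨Nat.find hex, ?_, rfl⟩
    rw [Nat.mem_rfind]
    refine ⟨?_, ?_⟩
    · have := Nat.find_spec hex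
      simpa [← mem_range_encQ_iff] using this
    · intro m hm
      have := Nat.find_min hex hm
      simpa [← mem_range_encQ_iff] using this

/-! ## Triples -/

/-- A natural-number triple `(a, b, d)` standing for the rational `(a - b) / (d + 1)`. -/
abbrev Tri := ℕ × ℕ × ℕ

/-- The rational number denoted by a triple. -/
def Tri.val (x : Tri) : ℚ := ((x.1 : ℚ) - (x.2.1 : ℚ)) / ((x.2.2 : ℚ) + 1)

theorem Tri.val_mk (a b d : ℕ) : Tri.val (a, b, d) = ((a : ℚ) - b) / ((d : ℚ) + 1) := rfl

theorem Tri.den_pos (x : Tri) : (0 : ℚ) < (x.2.2 : ℚ) + 1 := by positivity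

theorem Tri.den_ne (x : Tri) : ((x.2.2 : ℚ) + 1) ≠ 0 := (Tri.den_pos x).ne'

/-- The canonical triple of a rational. -/
def ratToTri (q : ℚ) : Tri := (q.num.toNat, (-q.num).toNat, q.den - 1)

@[simp] theorem val_ratToTri (q : ℚ) : (ratToTri q).val = q := by
  have hd : ((q.den - 1 : ℕ) : ℚ) + 1 = q.den := by
    have := q.den_pos
    have h : q.den - 1 + 1 = q.den := by omega
    exact_mod_cast h
  have hn : ((q.num.toNat : ℕ) : ℚ) - (((-q.num).toNat : ℕ) : ℚ) = q.num := by
    have : ((q.num.toNat : ℕ) : ℤ) - (((-q.num).toNat : ℕ) : ℤ) = q.num := by omega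
    exact_mod_cast this
  unfold ratToTri Tri.val
  simp only [hd, hn]
  exact Rat.num_div_den q

/-- Reading a triple off a code in the range of `encQ`. -/
def triOfCode (m : ℕ) : Tri :=
  (bif m.unpair.1.bodd then 0 else m.unpair.1.div2,
   bif m.unpair.1.bodd then m.unpair.1.div2 + 1 else 0,
   m.unpair.2 - 1)

theorem primrec_triOfCode : Primrec triOfCode := by
  have hu1 : Primrec (fun m : ℕ => m.unpair.1) := Primrec.fst.comp Primrec.unpair
  have hu2 : Primrec (fun m : ℕ => m.unpair.2) := Primrec.snd.comp Primrec.unpair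
  refine Primrec.pair ?_ (Primrec.pair ?_ ?_)
  · exact Primrec.cond (Primrec.nat_bodd.comp hu1) (Primrec.const 0) (Primrec.nat_div2.comp hu1)
  · exact Primrec.cond (Primrec.nat_bodd.comp hu1)
      (Primrec.succ.comp (Primrec.nat_div2.comp hu1)) (Primrec.const 0)
  · exact Primrec.nat_sub.comp hu2 (Primrec.const 1)

theorem triOfCode_encQ (q : ℚ) : triOfCode (encQ q) = ratToTri q := by
  rw [encQ_eq]
  unfold triOfCode ratToTri
  simp only [Nat.unpair_pair]
  rcases hz : q.num with m | m
  · rw [encode_int_ofNat]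
    simp
  · rw [encode_int_negSucc]
    simp [Nat.div2_val]

/-- **`ℚ → Tri` is computable** (for the `Denumerable ℚ` coding used by `Primcodable ℚ`). -/
theorem computable_ratToTri : Computable ratToTri := by
  have h1 : Computable (fun n : ℕ => ratToTri (Denumerable.ofNat ℚ n)) :=
    (primrec_triOfCode.to_comp.comp computable_encQ_ofNat).of_eq fun n => triOfCode_encQ _
  exact (h1.comp Computable.encode).of_eq fun q => congrArg _ (Denumerable.ofNat_encode q)

/-! ## Primitive recursive arithmetic on triples -/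

namespace Tri

/-- projections -/
theorem primrec_p1 : Primrec (fun x : Tri => x.1) := Primrec.fst
theorem primrec_p2 : Primrec (fun x : Tri => x.2.1) := Primrec.fst.comp Primrec.snd
theorem primrec_p3 : Primrec (fun x : Tri => x.2.2) := Primrec.snd.comp Primrec.snd

def zero : Tri := (0, 0, 0)
def one : Tri := (1, 0, 0)
def ofNat (n : ℕ) : Tri := (n, 0, 0)
/-- `1 / (n + 1)` -/
def invSucc (n : ℕ) : Tri := (1, 0, n)
def neg (x : Tri) : Tri := (x.2.1, x.1, x.2.2)
def add (x y : Tri) : Tri :=
  (x.1 * (y.2.2 + 1) + y.1 * (x.2.2 + 1), x.2.1 * (y.2.2 + 1) + y.2.1 * (x.2.2 + 1),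
    (x.2.2 + 1) * (y.2.2 + 1) - 1)
def sub (x y : Tri) : Tri := add x (neg y)
def mul (x y : Tri) : Tri :=
  (x.1 * y.1 + x.2.1 * y.2.1, x.1 * y.2.1 + x.2.1 * y.1, (x.2.2 + 1) * (y.2.2 + 1) - 1)
/-- positive part `max x 0` -/
def pos (x : Tri) : Tri := (x.1 - x.2.1, 0, x.2.2)
def abs (x : Tri) : Tri := ((x.1 - x.2.1) + (x.2.1 - x.1), 0, x.2.2)
/-- inverse (with `0⁻¹ = 0`) -/
def inv (x : Tri) : Tri :=
  if x.2.1 < x.1 then (x.2.2 + 1, 0, x.1 - x.2.1 - 1)
  else if x.1 < x.2.1 then (0, x.2.2 + 1, x.2.1 - x.1 - 1) else (0, 0, 0)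
def div (x y : Tri) : Tri := mul x (inv y)
def pow (x : Tri) (k : ℕ) : Tri := Nat.rec one (fun _ ih => mul ih x) k
/-- `x.val ≤ y.val` as a Boolean -/
def le (x y : Tri) : Bool :=
  decide (x.1 * (y.2.2 + 1) + y.2.1 * (x.2.2 + 1) ≤ y.1 * (x.2.2 + 1) + x.2.1 * (y.2.2 + 1))
def lt (x y : Tri) : Bool := !(le y x)
def beq (x y : Tri) : Bool := le x y && le y x
def min (x y : Tri) : Tri := bif le x y then x else y
def max (x y : Tri) : Tri := bif le x y then y else x
def sum (l : List Tri) : Tri := l.foldr add zero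
def prod (l : List Tri) : Tri := l.foldr mul one

private theorem cast_pred (a b : ℕ) :
    (((a + 1) * (b + 1) - 1 : ℕ) : ℚ) + 1 = ((a : ℚ) + 1) * ((b : ℚ) + 1) := by
  have h : (a + 1) * (b + 1) - 1 + 1 = (a + 1) * (b + 1) := by
    have : 0 < (a + 1) * (b + 1) := by positivity
    omega
  exact_mod_cast h

@[simp] theorem val_zero : zero.val = 0 := by simp [zero, val]
@[simp] theorem val_one : one.val = 1 := by simp [one, val]
@[simp] theorem val_ofNat (n : ℕ) : (ofNat n).val = n := by simp [ofNat, val]
@[simp] theorem val_invSucc (n : ℕ) : (invSucc n).val = 1 / ((n : ℚ) + 1) := by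
  simp [invSucc, val]
@[simp] theorem val_neg (x : Tri) : (neg x).val = - x.val := by
  simp only [neg, val]; ring
@[simp] theorem val_add (x y : Tri) : (add x y).val = x.val + y.val := by
  have hx := den_ne x; have hy := den_ne y
  simp only [add, val, cast_pred]
  push_cast
  field_simp
  ring
@[simp] theorem val_sub (x y : Tri) : (sub x y).val = x.val - y.val := by
  simp [sub, sub_eq_add_neg]
@[simp] theorem val_mul (x y : Tri) : (mul x y).val = x.val * y.val := by
  have hx := den_ne x; have hy := den_ne y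
  simp only [mul, val, cast_pred]
  push_cast
  field_simp
  ring
@[simp] theorem val_pos (x : Tri) : (pos x).val = Max.max x.val 0 := by
  have hx := den_pos x
  simp only [pos, val]
  rcases le_total x.1 x.2.1 with h | h
  · have h0 : x.1 - x.2.1 = 0 := by omega
    have h1 : ((x.1 : ℚ) - x.2.1) / ((x.2.2 : ℚ) + 1) ≤ 0 := by
      apply div_nonpos_of_nonpos_of_nonneg _ hx.le
      have : (x.1 : ℚ) ≤ x.2.1 := by exact_mod_cast h
      linarith
    rw [max_eq_right h1, h0]; simp
  · have h1 : 0 ≤ ((x.1 : ℚ) - x.2.1) / ((x.2.2 : ℚ) + 1) := by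
      apply div_nonneg _ hx.le
      have : (x.2.1 : ℚ) ≤ x.1 := by exact_mod_cast h
      linarith
    rw [max_eq_left h1, Nat.cast_sub h]; simp
@[simp] theorem val_abs (x : Tri) : (abs x).val = |x.val| := by
  have hx := den_pos x
  simp only [abs, val]
  rw [abs_div, abs_of_pos hx]
  congr 1
  rcases le_total x.1 x.2.1 with h | h
  · have h0 : x.1 - x.2.1 = 0 := by omega
    have : (x.1 : ℚ) ≤ x.2.1 := by exact_mod_cast h
    rw [h0, abs_of_nonpos (by linarith)]
    push_cast [Nat.cast_sub h]; ring
  · have h0 : x.2.1 - x.1 = 0 := by omega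
    have : (x.2.1 : ℚ) ≤ x.1 := by exact_mod_cast h
    rw [h0, abs_of_nonneg (by linarith)]
    push_cast [Nat.cast_sub h]; ring
@[simp] theorem val_inv (x : Tri) : (inv x).val = (x.val)⁻¹ := by
  have hx := den_ne x
  unfold inv
  split_ifs with h1 h2
  · have h3 : ((x.1 - x.2.1 - 1 : ℕ) : ℚ) + 1 = (x.1 : ℚ) - x.2.1 := by
      have : x.1 - x.2.1 - 1 + 1 + x.2.1 = x.1 := by omega
      have h4 : ((x.1 - x.2.1 - 1 : ℕ) : ℚ) + 1 + x.2.1 = x.1 := by exact_mod_cast this
      linarith
    simp only [val, h3]
    rw [inv_div]; push_cast; ring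
  · have h3 : ((x.2.1 - x.1 - 1 : ℕ) : ℚ) + 1 = (x.2.1 : ℚ) - x.1 := by
      have : x.2.1 - x.1 - 1 + 1 + x.1 = x.2.1 := by omega
      have h4 : ((x.2.1 - x.1 - 1 : ℕ) : ℚ) + 1 + x.1 = x.2.1 := by exact_mod_cast this
      linarith
    simp only [val, h3]
    rw [inv_div]
    have h5 : (x.1 : ℚ) - x.2.1 = -((x.2.1 : ℚ) - x.1) := by ring
    rw [h5, div_neg]; push_cast; ring
  · have : x.1 = x.2.1 := by omega
    simp [val, this]
@[simp] theorem val_div (x y : Tri) : (div x y).val = x.val / y.val := by
  simp [div, div_eq_mul_inv]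
@[simp] theorem pow_zero (x : Tri) : pow x 0 = one := rfl
@[simp] theorem pow_succ (x : Tri) (k : ℕ) : pow x (k + 1) = mul (pow x k) x := rfl
@[simp] theorem val_pow (x : Tri) (k : ℕ) : (pow x k).val = x.val ^ k := by
  induction k with
  | zero => simp
  | succ k ih => simp [ih, _root_.pow_succ]
theorem le_iff (x y : Tri) : le x y = true ↔ x.val ≤ y.val := by
  have hx := den_pos x; have hy := den_pos y
  simp only [le, val, decide_eq_true_eq]
  rw [div_le_div_iff₀ hx hy]
  constructor
  · intro h
    have : (x.1 : ℚ) * (y.2.2 + 1) + y.2.1 * (x.2.2 + 1) ≤ y.1 * (x.2.2 + 1) + x.2.1 * (y.2.2 + 1) := by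
      exact_mod_cast h
    nlinarith
  · intro h
    have : (x.1 : ℚ) * (y.2.2 + 1) + y.2.1 * (x.2.2 + 1) ≤ y.1 * (x.2.2 + 1) + x.2.1 * (y.2.2 + 1) := by
      nlinarith
    exact_mod_cast this
theorem lt_iff (x y : Tri) : lt x y = true ↔ x.val < y.val := by
  simp only [lt, Bool.not_eq_true', ← not_le, ← le_iff]; simp
theorem beq_iff (x y : Tri) : beq x y = true ↔ x.val = y.val := by
  rw [beq, Bool.and_eq_true, le_iff, le_iff, le_antisymm_iff]
@[simp] theorem val_min (x y : Tri) : (min x y).val = Min.min x.val y.val := by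
  unfold min
  cases h : le x y
  · have : ¬ x.val ≤ y.val := by rw [← le_iff, h]; simp
    simp [min_eq_right (not_le.1 this).le]
  · simp [min_eq_left ((le_iff x y).1 h)]
@[simp] theorem val_max (x y : Tri) : (max x y).val = Max.max x.val y.val := by
  unfold max
  cases h : le x y
  · have : ¬ x.val ≤ y.val := by rw [← le_iff, h]; simp
    simp [max_eq_left (not_le.1 this).le]
  · simp [max_eq_right ((le_iff x y).1 h)]
@[simp] theorem val_sum (l : List Tri) : (sum l).val = (l.map val).sum := by
  induction l with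
  | nil => simp [sum]
  | cons a l ih => simpa [sum] using ih
@[simp] theorem val_prod (l : List Tri) : (prod l).val = (l.map val).prod := by
  induction l with
  | nil => simp [prod]
  | cons a l ih =>
    have : prod (a :: l) = mul a (prod l) := rfl
    rw [this, val_mul, ih]; simp

end Tri

namespace Tri

section prim
open Primrec

theorem primrec_ofNat : Primrec ofNat :=
  Primrec.pair Primrec.id (Primrec.const (0, 0))

theorem primrec_invSucc : Primrec invSucc :=
  Primrec.pair (Primrec.const 1) (Primrec.pair (Primrec.const 0) Primrec.id)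

theorem primrec_neg : Primrec neg :=
  Primrec.pair primrec_p2 (Primrec.pair primrec_p1 primrec_p3)

private theorem aux_s {α : Type*} [Primcodable α] {f : α → Tri} (hf : Primrec f) :
    Primrec (fun a => (f a).2.2 + 1) := Primrec.succ.comp (primrec_p3.comp hf)

private theorem aux_den {α : Type*} [Primcodable α] {f g : α → Tri} (hf : Primrec f)
    (hg : Primrec g) : Primrec (fun a => ((f a).2.2 + 1) * ((g a).2.2 + 1) - 1) :=
  Primrec.nat_sub.comp (Primrec.nat_mul.comp (aux_s hf) (aux_s hg)) (Primrec.const 1)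

theorem primrec_add : Primrec₂ add := by
  have hx : Primrec (fun p : Tri × Tri => p.1) := Primrec.fst
  have hy : Primrec (fun p : Tri × Tri => p.2) := Primrec.snd
  refine Primrec.pair ?_ (Primrec.pair ?_ (aux_den hx hy))
  · exact Primrec.nat_add.comp (Primrec.nat_mul.comp (primrec_p1.comp hx) (aux_s hy))
      (Primrec.nat_mul.comp (primrec_p1.comp hy) (aux_s hx))
  · exact Primrec.nat_add.comp (Primrec.nat_mul.comp (primrec_p2.comp hx) (aux_s hy))
      (Primrec.nat_mul.comp (primrec_p2.comp hy) (aux_s hx))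

theorem primrec_sub : Primrec₂ sub :=
  primrec_add.comp Primrec.fst (primrec_neg.comp Primrec.snd)

theorem primrec_mul : Primrec₂ mul := by
  have hx : Primrec (fun p : Tri × Tri => p.1) := Primrec.fst
  have hy : Primrec (fun p : Tri × Tri => p.2) := Primrec.snd
  refine Primrec.pair ?_ (Primrec.pair ?_ (aux_den hx hy))
  · exact Primrec.nat_add.comp (Primrec.nat_mul.comp (primrec_p1.comp hx) (primrec_p1.comp hy))
      (Primrec.nat_mul.comp (primrec_p2.comp hx) (primrec_p2.comp hy))
  · exact Primrec.nat_add.comp (Primrec.nat_mul.comp (primrec_p1.comp hx) (primrec_p2.comp hy))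
      (Primrec.nat_mul.comp (primrec_p2.comp hx) (primrec_p1.comp hy))

theorem primrec_pos : Primrec pos :=
  Primrec.pair (Primrec.nat_sub.comp primrec_p1 primrec_p2)
    (Primrec.pair (Primrec.const 0) primrec_p3)

theorem primrec_abs : Primrec abs :=
  Primrec.pair (Primrec.nat_add.comp (Primrec.nat_sub.comp primrec_p1 primrec_p2)
    (Primrec.nat_sub.comp primrec_p2 primrec_p1))
    (Primrec.pair (Primrec.const 0) primrec_p3)

theorem primrec_inv : Primrec inv := by
  refine Primrec.ite (Primrec.nat_lt.comp primrec_p2 primrec_p1) ?_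
    (Primrec.ite (Primrec.nat_lt.comp primrec_p1 primrec_p2) ?_ (Primrec.const _))
  · exact Primrec.pair (Primrec.succ.comp primrec_p3) (Primrec.pair (Primrec.const 0)
      (Primrec.nat_sub.comp (Primrec.nat_sub.comp primrec_p1 primrec_p2) (Primrec.const 1)))
  · exact Primrec.pair (Primrec.const 0) (Primrec.pair (Primrec.succ.comp primrec_p3)
      (Primrec.nat_sub.comp (Primrec.nat_sub.comp primrec_p2 primrec_p1) (Primrec.const 1)))

theorem primrec_div : Primrec₂ div :=
  primrec_mul.comp Primrec.fst (primrec_inv.comp Primrec.snd)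

theorem primrec_pow : Primrec₂ pow := by
  have h := Primrec.nat_rec (α := Tri) (β := Tri) (f := fun _ => one)
    (g := fun x p => mul p.2 x) (Primrec.const _)
    (primrec_mul.comp (Primrec.snd.comp Primrec.snd) Primrec.fst)
  exact h

theorem primrec_le : Primrec₂ le := by
  have hx : Primrec (fun p : Tri × Tri => p.1) := Primrec.fst
  have hy : Primrec (fun p : Tri × Tri => p.2) := Primrec.snd
  have h : PrimrecRel (fun x y : Tri =>
      x.1 * (y.2.2 + 1) + y.2.1 * (x.2.2 + 1) ≤ y.1 * (x.2.2 + 1) + x.2.1 * (y.2.2 + 1)) := by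
    refine Primrec.nat_le.comp ?_ ?_
    · exact Primrec.nat_add.comp (Primrec.nat_mul.comp (primrec_p1.comp hx) (aux_s hy))
        (Primrec.nat_mul.comp (primrec_p2.comp hy) (aux_s hx))
    · exact Primrec.nat_add.comp (Primrec.nat_mul.comp (primrec_p1.comp hy) (aux_s hx))
        (Primrec.nat_mul.comp (primrec_p2.comp hx) (aux_s hy))
  exact h.decide

theorem primrec_lt : Primrec₂ lt :=
  Primrec.not.comp (primrec_le.comp Primrec.snd Primrec.fst)

theorem primrec_beq : Primrec₂ beq :=
  Primrec.and.comp primrec_le (primrec_le.comp Primrec.snd Primrec.fst)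

theorem primrec_min : Primrec₂ min := Primrec.cond primrec_le Primrec.fst Primrec.snd
theorem primrec_max : Primrec₂ max := Primrec.cond primrec_le Primrec.snd Primrec.fst

theorem primrec_sum : Primrec sum :=
  Primrec.list_foldr (h := fun _ p => add p.1 p.2) Primrec.id (Primrec.const zero)
    (primrec_add.comp (Primrec.fst.comp Primrec.snd) (Primrec.snd.comp Primrec.snd)).to₂

theorem primrec_prod : Primrec prod :=
  Primrec.list_foldr (h := fun _ p => mul p.1 p.2) Primrec.id (Primrec.const one)
    (primrec_mul.comp (Primrec.fst.comp Primrec.snd) (Primrec.snd.comp Primrec.snd)).to₂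

end prim

end Tri

/-- **`Tri → ℚ` is computable** (by unbounded search through the enumeration of `ℚ`). -/
theorem computable_triVal : Computable Tri.val := by
  have hp : Computable₂ (fun (x : Tri) (n : ℕ) =>
      Tri.beq (ratToTri (Denumerable.ofNat ℚ n)) x) := by
    have h1 : Computable (fun n : ℕ => ratToTri (Denumerable.ofNat ℚ n)) :=
      computable_ratToTri.comp (Computable.ofNat ℚ)
    exact Tri.primrec_beq.to_comp.comp (h1.comp Computable.snd) Computable.fst
  have hex : ∀ x : Tri, ∃ n, Tri.beq (ratToTri (Denumerable.ofNat ℚ n)) x = true := by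
    intro x
    refine ⟨@Encodable.encode ℚ Rat.instDenumerable.toEncodable x.val, ?_⟩
    rw [Tri.beq_iff, val_ratToTri]
    exact Denumerable.ofNat_encode x.val
  refine ((Computable.ofNat ℚ).comp (computable_find hp hex)).of_eq fun x => ?_
  have := Nat.find_spec (hex x)
  rw [Tri.beq_iff, val_ratToTri] at this
  exact this

/-! ## Further utilities -/

namespace Tri

/-- `⌊max x 0⌋₊` -/
def floorNat (x : Tri) : ℕ := (x.1 - x.2.1) / (x.2.2 + 1)

theorem primrec_floorNat : Primrec floorNat :=
  Primrec.nat_div.comp (Primrec.nat_sub.comp primrec_p1 primrec_p2)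
    (Primrec.succ.comp primrec_p3)

theorem floorNat_eq (x : Tri) : floorNat x = ⌊x.val⌋₊ := by
  have hx := den_pos x
  unfold floorNat val
  rcases le_total x.1 x.2.1 with h | h
  · have h0 : x.1 - x.2.1 = 0 := by omega
    have h1 : ((x.1 : ℚ) - x.2.1) / ((x.2.2 : ℚ) + 1) ≤ 0 := by
      apply div_nonpos_of_nonpos_of_nonneg _ hx.le
      have : (x.1 : ℚ) ≤ x.2.1 := by exact_mod_cast h
      linarith
    rw [h0, Nat.floor_of_nonpos h1]; simp
  · have h2 : ((x.1 : ℚ) - x.2.1) / ((x.2.2 : ℚ) + 1) = ((x.1 - x.2.1 : ℕ) : ℚ) / ((x.2.2 + 1 : ℕ) : ℚ) := by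
      push_cast [Nat.cast_sub h]; ring
    rw [h2, Nat.floor_div_eq_div]

/-- the sum `∑ i ∈ range n, f i` -/
def sumRange (f : ℕ → Tri) (n : ℕ) : Tri := sum ((List.range n).map f)

@[simp] theorem val_sumRange (f : ℕ → Tri) (n : ℕ) :
    (sumRange f n).val = ∑ i ∈ Finset.range n, (f i).val := by
  unfold sumRange
  rw [val_sum, List.map_map]
  induction n with
  | zero => simp
  | succ n ih => rw [List.range_succ, List.map_append, List.sum_append, ih,
      Finset.sum_range_succ]; simp

theorem primrec_sumRange {α : Type*} [Primcodable α] {f : α → ℕ → Tri} {n : α → ℕ}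
    (hf : Primrec₂ f) (hn : Primrec n) : Primrec (fun a => sumRange (f a) (n a)) :=
  primrec_sum.comp (Primrec.list_map (Primrec.list_range.comp hn) hf)

end Tri

/-! ## Functions into `Fin n → _` -/

/-- A function into `Fin n → σ` is computable as soon as all its components are. -/
theorem computable_fin_lambda {α σ : Type*} [Primcodable α] [Primcodable σ] {n : ℕ}
    {f : α → Fin n → σ} (hf : ∀ i, Computable (fun a => f a i)) : Computable f := by
  have h1 : Computable (fun a => List.Vector.ofFn (fun i => f a i)) :=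
    Computable.vector_ofFn hf
  have h2 : Computable (@List.Vector.get σ n) := Primrec.vector_get'.to_comp
  exact (h2.comp h1).of_eq fun a => by funext i; simp

/-- Evaluation of a computable `Fin n → σ`-valued function at a fixed index. -/
theorem computable_fin_apply {α σ : Type*} [Primcodable α] [Primcodable σ] {n : ℕ}
    {f : α → Fin n → σ} (hf : Computable f) (i : Fin n) : Computable (fun a => f a i) :=
  Computable.fin_app.comp hf (Computable.const i)

theorem computable_ratToTri_vec (n : ℕ) :
    Computable (fun (q : Fin n → ℚ) (j : Fin n) => ratToTri (q j)) :=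
  computable_fin_lambda fun i =>
    computable_ratToTri.comp (computable_fin_apply Computable.id i)

theorem computable_triVal_vec (n : ℕ) :
    Computable (fun (v : Fin n → Tri) (j : Fin n) => (v j).val) :=
  computable_fin_lambda fun i =>
    computable_triVal.comp (computable_fin_apply Computable.id i)

/-- **Transfer lemma for `Effective`.** A computable evaluator on triples gives a computable
evaluator on rationals with the type required by `Crest.AnalysisR.BoxFlow.Effective`. -/
theorem computable_of_tri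
    (E' : List (Fin 4) × (Tri × (Fin 3 → Tri)) × ℕ → (Fin 3 → Tri)) (hE' : Computable E') :
    Computable (fun p : List (Fin 4) × (ℚ × (Fin 3 → ℚ)) × ℕ =>
      fun j : Fin 3 => (E' (p.1, (ratToTri p.2.1.1, fun i => ratToTri (p.2.1.2 i)), p.2.2) j).val) := by
  have h1 : Computable (fun p : List (Fin 4) × (ℚ × (Fin 3 → ℚ)) × ℕ =>
      ((p.1, (ratToTri p.2.1.1, fun i => ratToTri (p.2.1.2 i)), p.2.2) :
        List (Fin 4) × (Tri × (Fin 3 → Tri)) × ℕ)) := by
    refine Computable.pair Computable.fst (Computable.pair (Computable.pair ?_ ?_) ?_)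
    · exact computable_ratToTri.comp (Computable.fst.comp (Computable.fst.comp Computable.snd))
    · exact (computable_ratToTri_vec 3).comp
        (Computable.snd.comp (Computable.fst.comp Computable.snd))
    · exact Computable.snd.comp Computable.snd
  exact (computable_triVal_vec 3).comp (hE'.comp h1)

/-! ## Some primitive recursive functions on `ℕ` -/

theorem primrec_nat_pow : Primrec₂ ((· ^ ·) : ℕ → ℕ → ℕ) :=
  Primrec₂.unpaired'.1 Nat.Primrec.pow

theorem primrec_factorial : Primrec Nat.factorial := by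
  have h := Primrec.nat_rec₁ (α := ℕ) (f := fun n ih => (n + 1) * ih) 1
    (Primrec.nat_mul.comp (Primrec.succ.comp Primrec.fst) Primrec.snd)
  refine h.of_eq fun n => ?_
  induction n with
  | zero => rfl
  | succ n ih => simp only [Nat.factorial_succ]; rw [← ih]

theorem primrec_choose : Primrec₂ Nat.choose := by
  have h : Primrec₂ (fun n k : ℕ => if k ≤ n then n.factorial / (k.factorial * (n - k).factorial) else 0) := by
    refine Primrec.ite (Primrec.nat_le.comp Primrec.snd Primrec.fst) ?_ (Primrec.const 0)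
    exact Primrec.nat_div.comp (primrec_factorial.comp Primrec.fst)
      (Primrec.nat_mul.comp (primrec_factorial.comp Primrec.snd)
        (primrec_factorial.comp (Primrec.nat_sub.comp Primrec.fst Primrec.snd)))
  refine h.of_eq fun n k => ?_
  split_ifs with hk
  · exact (Nat.choose_eq_factorial_div_factorial hk).symm
  · exact (Nat.choose_eq_zero_of_lt (not_le.1 hk)).symm

end Crest.Agent.BoxFlow
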